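import Vale.Agent.N47.PW
import Vale.Agent.P337.CH.Alg
import Vale.Agent.P337.StepA

/-!
Integer polynomials whose values modulo any number are computable in polynomial time (`AM`).
-/

namespace Vale.Agent.N47

open Vale.Agent.Lib.PolyTime Vale.Agent.P337 Finset MvPolynomial

/-- The value modulo `W` of an integer polynomial at the point given by the list `l`. -/
noncomputable def vl (n W : ℕ) (l : List ℕ) : MvPolynomial (Fin n) ℤ →+* ZMod W :=
  eval₂Hom (Int.castRingHom (ZMod W)) fun i => ((l.getD i 0 : ℕ) : ZMod W)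

theorem vl_C (n W : ℕ) (l : List ℕ) (z : ℤ) : vl n W l (C z) = (z : ZMod W) := eval₂Hom_C _ _ _

theorem vl_XN (n W : ℕ) (l : List ℕ) (i : ℕ) :
    vl n W l (XN n ℤ i) = ((if i < n then l.getD i 0 else 0 : ℕ) : ZMod W) := by
  unfold XN
  split_ifs
  · exact eval₂Hom_X' _ _ _
  · simp

theorem vl_eq_eval (n W : ℕ) (l : List ℕ) (F : MvPolynomial (Fin n) ℤ) :
    vl n W l F = eval (fun i : Fin n => ((l.getD i 0 : ℕ) : ZMod W))
      (map (Int.castRingHom (ZMod W)) F) := (eval_map _ _ _).symm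

theorem vl_eq_cast (n W : ℕ) (l : List ℕ) (F : MvPolynomial (Fin n) ℤ) :
    vl n W l F = ((eval (fun i : Fin n => ((l.getD i 0 : ℕ) : ℤ)) F : ℤ) : ZMod W) := by
  induction F using MvPolynomial.induction_on with
  | C a => rw [vl_C, eval_C]
  | add p q hp hq => simp [hp, hq]
  | mul_X p i hp =>
    rw [map_mul, map_mul, hp, Int.cast_mul, eval_X, Int.cast_natCast]
    congr 1
    exact eval₂Hom_X' _ _ _

theorem eval_shift {σ : Type*} [DecidableEq σ] (x : σ → ℤ) (j : σ) (W : ℤ)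
    (F : MvPolynomial σ ℤ) : ∃ c : ℤ, eval (fun i => x i + if i = j then W else 0) F =
      eval x F + W * eval x (pderiv j F) + W * W * c := by
  induction F using MvPolynomial.induction_on with
  | C a => exact ⟨0, by simp⟩
  | add p q hp hq =>
    obtain ⟨c, hc⟩ := hp
    obtain ⟨d, hd⟩ := hq
    exact ⟨c + d, by simp only [map_add, hc, hd]; ring⟩
  | mul_X p i hp =>
    obtain ⟨c, hc⟩ := hp
    rw [map_mul, hc, eval_X, Derivation.leibniz, smul_eq_mul, smul_eq_mul, map_add, map_mul,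
      map_mul, map_mul, eval_X, pderiv_X]
    by_cases h : i = j
    · subst h
      exact ⟨c * x i + eval x (pderiv i p) + W * c, by simp; ring⟩
    · exact ⟨c * x i, by simp [h]; ring⟩

theorem cast_div_of_cast_sq {g W : ℕ} (hW : 0 < W) {D : ℤ}
    (h : ((g : ℕ) : ZMod (W * W)) = (((W : ℤ) * D : ℤ) : ZMod (W * W))) :
    ((g / W : ℕ) : ZMod W) = (D : ZMod W) := by
  rw [← Int.cast_natCast, ZMod.intCast_eq_intCast_iff_dvd_sub] at h
  obtain ⟨c, hc⟩ := h
  have h1 : (g : ℤ) = W * (D - W * c) := by push_cast at hc; linear_combination -hc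
  have h2 : ((g / W : ℕ) : ℤ) = D - W * c := by
    rw [Int.natCast_div, h1, Int.mul_ediv_cancel_left _ (by exact_mod_cast hW.ne')]
  rw [← Int.cast_natCast, h2]
  simp

variable {α β : Type*} [Enc α] [Enc β]

/-- Integers whose residues modulo any number are computable in polynomial time. -/
def RM (E : α → Prop) (z : α → ℤ) : Prop :=
  ZL 0 (fun y : α × ℕ => E y.1) (fun y => y.2) (fun y => (z y.1 : ZMod y.2))

/-- Polynomials whose values modulo any number are computable in polynomial time. -/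
def AM (E : α → Prop) (n : α → ℕ) (F : (a : α) → MvPolynomial (Fin (n a)) ℤ) : Prop :=
  ZL 0 (fun y : α × ℕ × List ℕ => E y.1) (fun y => y.2.1)
    (fun y => vl (n y.1) y.2.1 y.2.2 (F y.1))

variable {E : α → Prop} {n : α → ℕ} {F G : (a : α) → MvPolynomial (Fin (n a)) ℤ} {z w : α → ℤ}

protected theorem RM.congr' (hz : RM E z) (h : ∀ a, E a → z a = w a) : RM E w :=
  ZL.congr' hz fun y hy => by rw [h _ hy]

protected theorem RM.re (hz : RM E z) {E' : β → Prop} (u : β → α) (hu : LF 0 u)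
    (h : ∀ b, E' b → E (u b)) : RM E' (fun b => z (u b)) :=
  ZL.re hz (fun y : β × ℕ => (u y.1, y.2)) (by fun_prop) fun y hy => h _ hy

protected theorem RM.intCast (hz : LF 0 z) : RM E z := ZL.intCast (by fun_prop) (by fun_prop)

protected theorem RM.natCast {k : α → ℕ} (hk : LF 0 k) : RM E (fun a => (k a : ℤ)) :=
  RM.intCast (by fun_prop)

protected theorem RM.add (hz : RM E z) (hw : RM E w) : RM E (fun a => z a + w a) :=
  (ZL.add hz hw).congr' fun _ _ => (Int.cast_add _ _).symm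

protected theorem RM.mul (hz : RM E z) (hw : RM E w) : RM E (fun a => z a * w a) :=
  (ZL.mul hz hw).congr' fun _ _ => (Int.cast_mul _ _).symm

protected theorem RM.sub (hz : RM E z) (hw : RM E w) : RM E (fun a => z a - w a) :=
  (ZL.sub (by fun_prop) hz hw).congr' fun _ _ => (Int.cast_sub _ _).symm

protected theorem RM.pow (hz : RM E z) {k : α → ℕ} (hk : LF 0 k) : RM E (fun a => z a ^ k a) :=
  (ZL.pow (by fun_prop) hz (k := fun y : α × ℕ => k y.1) (by fun_prop)).congr' fun _ _ =>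
    (Int.cast_pow _ _).symm

/-- The residue modulo a given number. -/
protected theorem RM.at (hz : RM E z) {E' : β → Prop} {p : β → ℕ} (hp : LF 0 p) (u : β → α)
    (hu : LF 0 u) (h : ∀ b, E' b → E (u b)) : ZL 0 E' p (fun b => (z (u b) : ZMod (p b))) :=
  ZL.re hz (fun b : β => (u b, p b)) (by fun_prop) h

protected theorem AM.congr' (hF : AM E n F) (h : ∀ a, E a → F a = G a) : AM E n G :=
  ZL.congr' hF fun y hy => by rw [h _ hy]

protected theorem AM.weak (hF : AM E n F) {E' : α → Prop} (h : ∀ a, E' a → E a) : AM E' n F :=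
  ZL.weak hF fun _ hy => h _ hy

protected theorem AM.re (hF : AM E n F) {E' : β → Prop} (u : β → α) (hu : LF 0 u)
    (h : ∀ b, E' b → E (u b)) : AM E' (fun b => n (u b)) (fun b => F (u b)) :=
  ZL.re hF (fun y : β × ℕ × List ℕ => (u y.1, y.2)) (by fun_prop) fun y hy => h _ hy

/-- The value at a given point modulo a given number. -/
protected theorem AM.at (hF : AM E n F) {E' : β → Prop} {p : β → ℕ} (hp : LF 0 p)
    {l : β → List ℕ} (hl : LF 0 l) (u : β → α) (hu : LF 0 u) (h : ∀ b, E' b → E (u b)) :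
    ZL 0 E' p (fun b => vl (n (u b)) (p b) (l b) (F (u b))) :=
  ZL.re hF (fun b : β => (u b, p b, l b)) (by fun_prop) h

protected theorem AM.C (hz : RM E z) : AM E n (fun a => C (z a)) :=
  (hz.at (by fun_prop) (fun y : α × ℕ × List ℕ => y.1) (by fun_prop) fun _ h => h).congr'
    fun _ _ => (vl_C _ _ _ _).symm

protected theorem AM.one : AM E n (fun _ => 1) := ZL.one.congr' fun _ _ => (map_one _).symm

protected theorem AM.XN (hn : LF 0 n) {i : α → ℕ} (hi : LF 0 i) :
    AM E n (fun a => XN (n a) ℤ (i a)) :=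
  (ZL.natCast (f := fun y : α × ℕ × List ℕ => if i y.1 < n y.1 then y.2.2.getD (i y.1) 0 else 0)
    (by fun_prop)).congr' fun _ _ => (vl_XN _ _ _ _).symm

protected theorem AM.add (hF : AM E n F) (hG : AM E n G) : AM E n (fun a => F a + G a) :=
  (ZL.add hF hG).congr' fun _ _ => (map_add _ _ _).symm

protected theorem AM.mul (hF : AM E n F) (hG : AM E n G) : AM E n (fun a => F a * G a) :=
  (ZL.mul hF hG).congr' fun _ _ => (map_mul _ _ _).symm

protected theorem AM.sub (hF : AM E n F) (hG : AM E n G) : AM E n (fun a => F a - G a) :=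
  (ZL.sub (by fun_prop) hF hG).congr' fun _ _ => (map_sub _ _ _).symm

protected theorem AM.pow (hF : AM E n F) {k : α → ℕ} (hk : LF 0 k) :
    AM E n (fun a => F a ^ k a) :=
  (ZL.pow (by fun_prop) hF (k := fun y : α × ℕ × List ℕ => k y.1) (by fun_prop)).congr'
    fun _ _ => (map_pow _ _ _).symm

protected theorem AM.sum_poly {m : α → ℕ} (hm : LF 0 m) (hb : PBd m)
    {H : (a : α) → ℕ → MvPolynomial (Fin (n a)) ℤ}
    (hH : AM (fun x : α × ℕ => E x.1 ∧ x.2 < m x.1) (fun x => n x.1) (fun x => H x.1 x.2)) :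
    AM E n (fun a => ∑ s ∈ range (m a), H a s) :=
  (ZL.sum_poly (m := fun y : α × ℕ × List ℕ => m y.1) (by fun_prop) (by fun_prop)
    (H := fun y s => vl (n y.1) y.2.1 y.2.2 (H y.1 s))
    (hH.at (by fun_prop) (by fun_prop) (fun y : (α × ℕ × List ℕ) × ℕ => (y.1.1, y.2))
      (by fun_prop) fun _ h => h)).congr' fun _ _ => (map_sum _ _ _).symm

/-- Derivatives. -/
protected theorem AM.pderiv (hn : LF 0 n) (hnb : PBd n) (hF : AM E n F) {i : α → ℕ}
    (hi : LF 0 i) (h : ∀ a, E a → i a < n a) :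
    AM E n (fun a => ext (fun j => pderiv j (F a)) (i a)) := by
  obtain ⟨g, hg, hg'⟩ := ZL.sub (by fun_prop)
    (hF.at (E' := fun y : α × ℕ × List ℕ => E y.1) (p := fun y => y.2.1 * y.2.1) (by fun_prop)
      (l := fun y => (List.range (n y.1)).map fun k =>
        y.2.2.getD k 0 + if k = i y.1 then y.2.1 else 0) (by fun_prop) (fun y => y.1)
      (by fun_prop) fun _ h => h)
    (hF.at (E' := fun y : α × ℕ × List ℕ => E y.1) (p := fun y => y.2.1 * y.2.1) (by fun_prop)
      (l := fun y => y.2.2) (by fun_prop) (fun y => y.1) (by fun_prop) fun _ h => h)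
  refine ⟨fun y => g y / y.2.1, by fun_prop, fun y hy hW => ?_⟩
  have h1 := hg' y hy (Nat.mul_pos hW hW)
  have h2 : ext (fun j => pderiv j (F y.1)) (i y.1) = pderiv ⟨i y.1, h _ hy⟩ (F y.1) :=
    ext_val (fun j => pderiv j (F y.1)) ⟨i y.1, h _ hy⟩
  dsimp only at h1 ⊢
  rw [h2, vl_eq_cast]
  refine cast_div_of_cast_sq hW ?_
  obtain ⟨c, hc⟩ := eval_shift (fun k : Fin (n y.1) => ((y.2.2.getD k 0 : ℕ) : ℤ))
    ⟨i y.1, h _ hy⟩ y.2.1 (F y.1)
  have h3 : (fun k : Fin (n y.1) => ((((List.range (n y.1)).map fun k =>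
      y.2.2.getD k 0 + if k = i y.1 then y.2.1 else 0).getD k 0 : ℕ) : ℤ)) =
      fun k : Fin (n y.1) => ((y.2.2.getD k 0 : ℕ) : ℤ) +
        if k = ⟨i y.1, h _ hy⟩ then (y.2.1 : ℤ) else 0 := by
    funext k
    simp [List.getD_eq_getElem?_getD, Fin.ext_iff]
  rw [h1, vl_eq_cast, vl_eq_cast, h3, hc]
  have h4 : ((y.2.1 : ZMod (y.2.1 * y.2.1))) * y.2.1 = 0 := by
    rw [← Nat.cast_mul, ZMod.natCast_self]
  push_cast
  rw [h4]
  ring

/-! ### The polynomials of the critical point system -/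

variable {e : α → ℕ} {t ρ : α → ℤ} {Q : (a : α) → MvPolynomial (Fin (n a)) ℤ}

theorem AM_rr (hn : LF 0 n) (hnb : PBd n) (ht : RM (fun _ => True) t)
    (hQ : AM (fun _ => True) n Q) :
    AM (fun x : α × ℕ => x.2 < n x.1) (fun x => n x.1)
      (fun x => ext (rr (t x.1) (Q x.1)) x.2) :=
  (AM.one.sub ((AM.C (ht.re (fun x : α × ℕ => x.1) (by fun_prop) fun _ _ => trivial)).mul
    (AM.pderiv (by fun_prop) (by fun_prop)
      (hQ.re (fun x : α × ℕ => x.1) (by fun_prop) fun _ _ => trivial) (i := fun x => x.2)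
      (by fun_prop) fun _ h => h))).congr' fun x hx => by
    have h1 := ext_val (rr (t x.1) (Q x.1)) ⟨x.2, hx⟩
    have h2 := ext_val (fun j => pderiv j (Q x.1)) ⟨x.2, hx⟩
    dsimp only at h1 h2
    rw [h1, h2, rr]

theorem AM_hh (hn : LF 0 n) (hnb : PBd n) (he : LF 0 e) (ht : RM (fun _ => True) t)
    (hQ : AM (fun _ => True) n Q) : AM (fun _ => True) n (fun a => hh (e a) (t a) (Q a)) := by
  have h1 : RM (fun _ => True) (fun a => (e a : ℤ) + 1) := RM.intCast (by fun_prop)
  refine ((AM.sum_poly hn hnb (H := fun a i => XN (n a) ℤ i ^ (e a + 1) -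
    C ((e a : ℤ) + 1) * XN (n a) ℤ i + C (e a : ℤ)) ?_).add
    ((AM.C (h1.mul ht)).mul hQ)).congr' fun a _ => ?_
  · exact (((AM.XN (by fun_prop) (by fun_prop)).pow (by fun_prop)).sub
      ((AM.C (RM.intCast (by fun_prop))).mul (AM.XN (by fun_prop) (by fun_prop)))).add
      (AM.C (RM.intCast (by fun_prop)))
  · rw [hh, NN, sum_range]
    simp only [XN_val]

/-! ### The polynomial of step A -/

theorem AM_polyA : AM (fun _ => True) nA polyA := by
  have h1 : ZL 0 (fun _ : (Un × List LPoly × List ℕ) × ℕ × List ℕ => True) (fun y => y.2.1)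
      (fun y => PAe y.1.1.v y.1.2.1 y.1.2.2 fun i => ((y.2.2.getD i 0 : ℕ) : ZMod y.2.1)) := by
    unfold PAe
    refine ZL.sum_poly (by fun_prop) (by fun_prop) (ZL.pow (by fun_prop) ?_ (LF.const 2))
    have hv : ∀ E, ZL 0 E (fun z : ((Un × List LPoly × List ℕ) × ℕ × List ℕ) × ℕ => z.1.2.1)
        (fun z => rawEval z.1.1.1.v (z.1.1.2.1.getD z.2 [])
          fun i => ((z.1.2.2.getD i 0 : ℕ) : ZMod z.1.2.1)) := by
      intro E
      unfold rawEval cf ex
      exact ZL.sum_poly (by fun_prop) (by fun_prop) (ZL.mul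
        (ZL.intCast (by fun_prop) (by fun_prop)) (ZL.prod_poly (by fun_prop) (by fun_prop)
          (ZL.pow (by fun_prop) (ZL.natCast (by fun_prop)) (by fun_prop))))
    have hy : ∀ E, ZL 0 E (fun z : ((Un × List LPoly × List ℕ) × ℕ × List ℕ) × ℕ => z.1.2.1)
        (fun z => ((z.1.2.2.getD (z.1.1.1.v + z.2) 0 : ℕ) : ZMod z.1.2.1) ^ 2) := fun E =>
      ZL.pow (by fun_prop) (ZL.natCast (by fun_prop)) (LF.const 2)
    unfold tm
    exact ZL.ite (by fun_prop) (hv _) (ZL.ite (by fun_prop)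
      (ZL.sub (by fun_prop) ((hv _).mul (hy _)) ZL.one)
      (ZL.ite (by fun_prop) (((hv _).mul (hy _)).add ZL.one) ZL.one))
  refine h1.congr' fun y _ => ?_
  refine (aeval_PA (K := ZMod y.2.1) _ (le_nA y.1) (fun i => ((y.2.2.getD i 0 : ℕ) : ZMod y.2.1)) _
    fun _ => rfl).symm.trans ?_
  rw [aeval_def, algebraMap_int_eq]
  rfl

end Vale.Agent.N47
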