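import Vale.Agent.N47.LF
import Vale.Agent.P337.CH.MC

/-!
Counting with explicit levels: one exponentially long sum costs one level.
-/

namespace Vale.Agent.N47

open Vale.Agent.Lib.PolyTime Vale.Agent.P337 Finset

variable {α β γ δ : Type*} [Enc α] [Enc β] [Enc γ] [Enc δ] {j : ℕ}

/-- A threshold count is the preimage of a language of the next level. -/
theorem exists_lang {f : α → ℕ → Bool} {m θ : α → ℕ} (hf : LF j (fun x : α × ℕ => f x.1 x.2))
    (hm : LF j m) (hθ : LF j θ) : ∃ L ∈ C (j + 1), ∀ a, enc a ∈ L ↔ θ a < cnt (m a) (f a) := by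
  obtain ⟨A, hA, ⟨F, hF, hF'⟩, ⟨M, hM, hM'⟩, ⟨T, hT, hT'⟩⟩ :=
    orL_exists (hf.ev.and (hm.ev.and hθ.ev))
  let L : Set Word := {x | val (T x) < cnt (val (M x)) fun s => hd (F (pr x s.bits))}
  have hL : L ∈ PP A :=
    thr_mem_PP (f := fun z => hd (F (pr z.1.w z.2.bits))) (m := fun x => val (M x.w))
      (θ := fun x => val (T x.w)) (PT.rawHd (PT_ofFP hF (PT_toRaw PT.id)))
      (PT.rawVal (PT_ofFP hM PT.id)) (PT.rawVal (PT_ofFP hT PT.id)) fun x => Iff.rfl
  refine ⟨L, mem_C_succ.2 ⟨A, hA, hL⟩, fun a => ?_⟩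
  have e : (fun s : ℕ => hd (F (pr (enc a) s.bits))) = f a := by
    funext s
    have := hF' (a, s)
    rw [enc_pair, enc_nat] at this
    rw [this]
    rfl
  change val (T (enc a)) < cnt (val (M (enc a))) (fun s => hd (F (pr (enc a) s.bits))) ↔ _
  rw [e, hT', hM', val_enc_nat, val_enc_nat]

protected theorem LP.lt_cnt {f : α → ℕ → Bool} {m θ : α → ℕ}
    (hf : LF j (fun x : α × ℕ => f x.1 x.2)) (hm : LF j m) (hθ : LF j θ) :
    LP (j + 1) (fun a => θ a < cnt (m a) (f a)) := by
  obtain ⟨L, hL, h⟩ := exists_lang hf hm hθ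
  exact ⟨L, hL, (PT_of_FP_chi FP.oracle (PT_toRaw PT.id)).congr fun a => decide_eq_decide.2 (h a)⟩

/-- Binary search. -/
protected theorem LF.of_lt {h M : α → ℕ} (hM : LF j M) (hb : ∀ a, h a ≤ M a)
    (hh : LP j (fun x : α × ℕ => x.2 < h x.1)) : LF j h := by
  have hle : LP j (fun x : α × ℕ => x.2 ≤ h x.1) := by
    have h1 : LP j (fun x : α × ℕ => x.2 = 0 ∨ x.2 - 1 < h x.1) :=
      LP.or (by fun_prop) (hh.comp (f := fun x : α × ℕ => (x.1, x.2 - 1)) (by fun_prop))
    exact h1.congr fun x => by omega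
  let step : α → ℕ → ℕ → ℕ := fun a i q =>
    if (2 * q + 1) * 2 ^ ((M a).size - i - 1) ≤ h a then 2 * q + 1 else 2 * q
  have hstep : LF j (fun p : α × ℕ × ℕ => step p.1 p.2.1 p.2.2) := by
    refine LF.ite (hle.comp (f := fun p : α × ℕ × ℕ =>
      (p.1, (2 * p.2.2 + 1) * 2 ^ ((M p.1).size - p.2.1 - 1))) ?_) ?_ ?_ <;> fun_prop
  have key : ∀ a i, i ≤ (M a).size →
      Nat.rec (motive := fun _ => ℕ) 0 (step a) i = h a / 2 ^ ((M a).size - i) := by
    intro a i
    induction i with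
    | zero =>
      intro _
      have : h a < 2 ^ (M a).size := (hb a).trans_lt (Nat.lt_size_self _)
      simp [Nat.div_eq_of_lt this]
    | succ i ih =>
      intro hi
      have e : (M a).size - i = ((M a).size - i - 1) + 1 := by omega
      have e' : (M a).size - (i + 1) = (M a).size - i - 1 := by omega
      change step a i _ = _
      rw [ih (by omega), e']
      simp only [step]
      generalize hk : (M a).size - i - 1 = k at *
      rw [e, pow_succ, ← Nat.div_div_eq_div_mul]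
      have hpos : 0 < 2 ^ k := by positivity
      split_ifs with hc
      · rw [← Nat.le_div_iff_mul_le hpos] at hc
        omega
      · rw [← Nat.le_div_iff_mul_le hpos] at hc
        omega
  refine (LF.natRec (k := fun a => (M a).size) (init := fun _ => 0) (step := step) (by fun_prop)
    (by fun_prop) (by fun_prop) hstep (b := fun a => esize (M a)) (by fun_prop)
    fun a i hi => ?_).congr fun a => ?_
  · rw [key a i hi]
    exact esize_nat_mono ((Nat.div_le_self _ _).trans (hb a))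
  · rw [key a _ le_rfl]
    simp

protected theorem LF.cnt {f : α → ℕ → Bool} {m : α → ℕ}
    (hf : LF j (fun x : α × ℕ => f x.1 x.2)) (hm : LF j m) :
    LF (j + 1) (fun a => cnt (m a) (f a)) :=
  LF.of_lt (hm.mono (by omega)) (fun _ => cnt_le _ _)
    (LP.lt_cnt (f := fun (x : α × ℕ) s => f x.1 s) (m := fun x => m x.1) (θ := fun x => x.2)
      (hf.comp (f := fun y : (α × ℕ) × ℕ => (y.1.1, y.2)) (by fun_prop)) (by fun_prop)
      (by fun_prop))

protected theorem LF.card_filter {p : α → ℕ → Prop} [∀ a, DecidablePred (p a)] {m : α → ℕ}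
    (hp : LP j (fun x : α × ℕ => p x.1 x.2)) (hm : LF j m) :
    LF (j + 1) (fun a => ((range (m a)).filter (p a)).card) :=
  (LF.cnt (f := fun a s => decide (p a s)) (LF.decide hp) hm).congr fun a => by
    simp [cnt]

protected theorem LP.exists_lt {p : α → ℕ → Prop} {m : α → ℕ}
    (hp : LP j (fun x : α × ℕ => p x.1 x.2)) (hm : LF j m) :
    LP (j + 1) (fun a => ∃ s, s < m a ∧ p a s) := by
  classical
  refine (LP.lt (LF.const 0) (LF.card_filter hp hm)).congr fun a => ?_
  rw [card_pos, filter_nonempty_iff]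
  simp

/-! ### Bounds of level zero -/

theorem bound0 {V : α → ℕ} (hV : CHF V) : ∃ W : α → ℕ, LF 0 W ∧ ∀ a, V a ≤ W a := by
  obtain ⟨c, hc⟩ := hV.pbd
  exact ⟨fun a => 2 ^ pb c (esize a), by fun_prop, fun a =>
    (lt_two_pow_esize _).le.trans (Nat.pow_le_pow_right (by omega) (hc a))⟩

theorem bound0_lt {f : α → ℕ → ℕ} {m : α → ℕ} (hf : CHF (fun x : α × ℕ => f x.1 x.2))
    (hm : CHF m) : ∃ V : α → ℕ, LF 0 V ∧ ∀ a, ∀ s < m a, f a s ≤ V a := by
  obtain ⟨V, hV, h⟩ := hf.exists_bound hm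
  obtain ⟨W, hW, h'⟩ := bound0 hV
  exact ⟨W, hW, fun a s hs => (h a s hs).trans (h' a)⟩

/-! ### Sums -/

theorem LF.sum_pred {f : α → ℕ → ℕ} {m : α → ℕ} (hf : LF j (fun x : α × ℕ => f x.1 x.2))
    (hm : LF j m) : ∃ (g : α → ℕ → Bool) (M : α → ℕ), LF j (fun x : α × ℕ => g x.1 x.2) ∧
      LF j M ∧ ∀ a, cnt (M a) (g a) = ∑ s ∈ range (m a), f a s := by
  obtain ⟨V, hV, hV'⟩ := bound0_lt hf.toCHF hm.toCHF
  have hV1 : LF j V := hV.up
  refine ⟨fun a t => decide (t % V a < f a (t / V a)), fun a => m a * V a,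
    LF.decide (LP.lt (by fun_prop) (hf.comp (f := fun x : α × ℕ => (x.1, x.2 / V x.1))
      (by fun_prop))), by fun_prop, fun a => ?_⟩
  rw [← card_filter_div_mod _ _ _ (hV' a)]
  simp [cnt]

protected theorem LF.sum_range {f : α → ℕ → ℕ} {m : α → ℕ}
    (hf : LF j (fun x : α × ℕ => f x.1 x.2)) (hm : LF j m) :
    LF (j + 1) (fun a => ∑ s ∈ range (m a), f a s) := by
  obtain ⟨g, M, hg, hM, h⟩ := LF.sum_pred hf hm
  exact (LF.cnt hg hM).congr h

theorem sum_map_range' {M : Type*} [AddCommMonoid M] (f : ℕ → M) (n : ℕ) :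
    ((List.range n).map f).sum = ∑ i ∈ range n, f i := by
  induction n with
  | zero => simp
  | succ n ih => rw [List.range_succ, List.map_append, List.sum_append, ih, sum_range_succ]; simp

theorem prod_map_range' {M : Type*} [CommMonoid M] (f : ℕ → M) (n : ℕ) :
    ((List.range n).map f).prod = ∏ i ∈ range n, f i := by
  induction n with
  | zero => simp
  | succ n ih => rw [List.range_succ, List.map_append, List.prod_append, ih, prod_range_succ]; simp

/-- Polynomially long sums are free. -/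
protected theorem LF.sum_poly {f : α → ℕ → ℕ} {m : α → ℕ}
    (hf : LF j (fun x : α × ℕ => f x.1 x.2)) (hm : LF j m) (hb : PBd m) :
    LF j (fun a => ∑ s ∈ range (m a), f a s) :=
  (LF.listSum (LF.map (LF.range hm hb) hf)).congr fun _ => sum_map_range' _ _

/-- Polynomially long products are free. -/
protected theorem LF.prod_poly {f : α → ℕ → ℕ} {m : α → ℕ}
    (hf : LF j (fun x : α × ℕ => f x.1 x.2)) (hm : LF j m) (hb : PBd m) :
    LF j (fun a => ∏ s ∈ range (m a), f a s) :=
  (LF.listProd (LF.map (LF.range hm hb) hf)).congr fun _ => prod_map_range' _ _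

protected theorem LF.least {p : α → ℕ → Prop} {m : α → ℕ}
    (hp : LP j (fun x : α × ℕ => p x.1 x.2)) (hm : LF j m) :
    LF (j + 1) (fun a => least (m a) (p a)) := by
  classical
  refine LF.of_lt (hm.mono (by omega)) (fun _ => least_le _ _) ?_
  have h1 : LP (j + 1) (fun x : α × ℕ => (∃ s, s < m x.1 ∧ p x.1 s) ∧
      ¬ ∃ s, s < x.2 + 1 ∧ p x.1 s) := by
    have hp' : LP j (fun y : (α × ℕ) × ℕ => p y.1.1 y.2) :=
      hp.comp (f := fun y : (α × ℕ) × ℕ => (y.1.1, y.2)) (by fun_prop)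
    exact (LP.exists_lt (p := fun (x : α × ℕ) s => p x.1 s) hp' (by fun_prop)).and
      (LP.exists_lt (p := fun (x : α × ℕ) s => p x.1 s) hp' (by fun_prop)).not
  refine h1.congr fun x => ?_
  unfold least
  split_ifs with h
  · rw [Nat.lt_find_iff]
    constructor
    · rintro ⟨-, h2⟩ s hs h3
      exact h2 ⟨s, by omega, h3.2⟩
    · intro h2
      refine ⟨h, ?_⟩
      rintro ⟨s, hs, h3⟩
      obtain ⟨s', hs', h4⟩ := h
      by_cases h5 : s' ≤ x.2
      · exact h2 s' h5 ⟨hs', h4⟩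
      · exact h2 s (by omega) ⟨by omega, h3⟩
  · simp [h]

protected theorem LP.prime {f : α → ℕ} (hf : LF j f) : LP (j + 1) (fun a => (f a).Prime) := by
  have h1 : LP (j + 1) (fun a => 2 ≤ f a ∧ ¬ ∃ s, s < f a ∧ (s ∣ f a ∧ s ≠ 1)) :=
    LP.and (by fun_prop (disch := omega))
      (LP.exists_lt (p := fun a s => s ∣ f a ∧ s ≠ 1) (by fun_prop) hf).not
  refine h1.congr fun a => ?_
  rw [Nat.prime_def_lt]
  refine and_congr_right fun _ => ?_
  push Not
  rfl

@[fun_prop]
protected theorem LF.powMod' {f g m : α → ℕ} (hf : LF j f) (hg : LF j g) (hm : LF j m) :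
    LF j (fun a => powMod (f a) (g a) (m a)) := LF.powMod hf hg (by fun_prop)

@[fun_prop]
protected theorem LF.digs {B k s : α → ℕ} (hB : LF j B) (hk : LF j k) (hkb : PBd k)
    (hs : LF j s) : LF j (fun a => digs (B a) (k a) (s a)) := by
  unfold digs
  fun_prop

/-! ### Flat sums -/

theorem sum_range_mul {M : Type*} [AddCommMonoid M] (m V : ℕ) (f : ℕ → ℕ → M) :
    ∑ t ∈ range (m * V), f (t / V) (t % V) = ∑ i ∈ range m, ∑ s ∈ range V, f i s := by
  induction m with
  | zero => simp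
  | succ m ih =>
    rw [Nat.succ_mul, sum_range_add, ih, sum_range_succ]
    congr 1
    refine sum_congr rfl fun s hs => ?_
    have h := mem_range.1 hs
    rw [Nat.mul_add_mod_of_lt h, Nat.add_comm, Nat.add_mul_div_right _ _ (by omega),
      Nat.div_eq_of_lt h, Nat.zero_add]

theorem sum_range_ite {M : Type*} [AddCommMonoid M] {m V : ℕ} (h : m ≤ V) (f : ℕ → M) :
    ∑ s ∈ range V, (if s < m then f s else 0) = ∑ s ∈ range m, f s := by
  rw [← sum_filter]
  congr 1
  ext s
  simp only [mem_filter, mem_range]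
  omega

/-- Exponentially long sums of terms of level `j`. -/
def LS (j : ℕ) (f : α → ℕ) : Prop :=
  ∃ (m : α → ℕ) (g : α → ℕ → ℕ), LF j m ∧ LF j (fun x : α × ℕ => g x.1 x.2) ∧
    ∀ a, f a = ∑ s ∈ range (m a), g a s

protected theorem LS.toLF {f : α → ℕ} (hf : LS j f) : LF (j + 1) f := by
  obtain ⟨m, g, hm, hg, h⟩ := hf
  exact (LF.sum_range hg hm).congr fun a => (h a).symm

protected theorem LF.toLS {f : α → ℕ} (hf : LF j f) : LS j f :=
  ⟨fun _ => 1, fun a _ => f a, by fun_prop, by fun_prop, fun a => by simp⟩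

protected theorem LS.congr {f g : α → ℕ} (hf : LS j f) (h : ∀ a, f a = g a) : LS j g := by
  have : f = g := funext h
  rwa [← this]

protected theorem LS.comp {f : β → ℕ} (hf : LS j f) {u : α → β} (hu : LF j u) :
    LS j (fun a => f (u a)) := by
  obtain ⟨m, g, hm, hg, h⟩ := hf
  exact ⟨fun a => m (u a), fun a s => g (u a) s, by fun_prop,
    hg.comp (f := fun x : α × ℕ => (u x.1, x.2)) (by fun_prop), fun a => h _⟩

/-- A sum of sums is a sum. -/
protected theorem LS.sum_range {f : α → ℕ → ℕ} {m : α → ℕ}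
    (hf : LS j (fun x : α × ℕ => f x.1 x.2)) (hm : LF j m) :
    LS j (fun a => ∑ s ∈ range (m a), f a s) := by
  obtain ⟨k, g, hk, hg, h⟩ := hf
  obtain ⟨V, hV, hV'⟩ := bound0_lt (f := fun a s => k (a, s)) hk.toCHF hm.toCHF
  have hV1 : LF j V := hV.up
  refine ⟨fun a => m a * V a, fun a t =>
    if t % V a < k (a, t / V a) then g (a, t / V a) (t % V a) else 0, by fun_prop, ?_, fun a => ?_⟩
  · exact LF.ite (by fun_prop) (hg.comp (f := fun x : α × ℕ => ((x.1, x.2 / V x.1), x.2 % V x.1))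
      (by fun_prop)) (by fun_prop)
  · dsimp only
    rw [sum_range_mul (m a) (V a) fun i s => if s < k (a, i) then g (a, i) s else 0]
    refine sum_congr rfl fun i hi => ?_
    rw [sum_range_ite (hV' a i (mem_range.1 hi))]
    exact h (a, i)

/-! ### Threshold predicates -/

/-- Predicates which are preimages of a language of level `j`. -/
def CP (j : ℕ) (p : α → Prop) : Prop := ∃ L ∈ C j, ∀ a, enc a ∈ L ↔ p a

protected theorem CP.congr {p q : α → Prop} (hp : CP j p) (h : ∀ a, p a ↔ q a) : CP j q := by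
  have : p = q := funext fun a => propext (h a)
  rwa [← this]

theorem CP_lt {f θ : α → ℕ} (hf : LS j f) (hθ : LF j θ) : CP (j + 1) (fun a => θ a < f a) := by
  obtain ⟨m, g, hm, hg, h⟩ := hf
  obtain ⟨g', M, hg', hM, h'⟩ := LF.sum_pred hg hm
  obtain ⟨L, hL, h2⟩ := exists_lang hg' hM hθ
  exact ⟨L, hL, fun a => by rw [h2, h', ← h]⟩

theorem mem_C_of_CP {L : Set Word} (h : CP j (fun w : Raw => w.w ∈ L)) : L ∈ C j := by
  obtain ⟨L', hL', h⟩ := h
  have : L = L' := Set.ext fun w => (h ⟨w⟩).symm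
  rwa [this]

end Vale.Agent.N47
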