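import Vale.Agent.N47.StepD4
import Vale.Agent.P337.Core

/-!
The real root test with window tests for an integer system.
-/

namespace Vale.Agent.N47

open Vale.Agent.P337 Finset ComplexConjugate MvPolynomial

section Defs

variable {R S : Type*} [CommRing R] [CommRing S]

/-- The homogenised characteristic polynomial with coefficients `s`, at `(T, a)`. -/
def UV (D : ℕ) (s : ℕ → S) (a T : S) : S :=
  ∑ j ∈ range (D + 1), (-1) ^ j * s j * a ^ j * T ^ (D - j)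

theorem map_UV (φ : R →+* S) (D : ℕ) (s : ℕ → R) (a T : R) :
    φ (UV D s a T) = UV D (fun j => φ (s j)) (φ a) (φ T) := by
  simp only [UV, map_sum, map_mul, map_pow, map_neg, map_one]

theorem UV_esymm (Y : Multiset S) {D : ℕ} (hY : Y.card = D) (Q : S) {s : ℕ → S}
    (h : ∀ j ≤ D, s j = Q * Y.esymm j) (a T : S) :
    UV D s a T = Q * (Y.map fun y => T - a * y).prod := by
  have h1 := sum_esymm_eq_prod (Y.map fun y => a • y) T
  rw [Multiset.card_map, Multiset.map_map, hY] at h1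
  simp only [Function.comp_def, smul_eq_mul] at h1
  rw [← h1, mul_sum]
  refine sum_congr rfl fun j hj => ?_
  have h2 := Multiset.pow_smul_esymm a j Y
  simp only [smul_eq_mul] at h2
  rw [h j (Nat.lt_succ_iff.1 (mem_range.1 hj)), ← h2]
  ring

/-- `QQ * ∏ (a (x_i - η_i) + b)`, the product over the roots `η` of the system. -/
noncomputable def UT {n : ℕ} (e K : ℕ) (r : Fin n → MvPolynomial (Fin n) R) (i : ℕ) (a b : R) :
    MvPolynomial (Fin n) R :=
  UV (e ^ n) (fun j => C (EE e K r (XN n R i) j)) (C a) (C a * XN n R i + C b)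

/-- The test polynomial with code `τ`. -/
noncomputable def UC {n : ℕ} (e K : ℕ) (r : Fin n → MvPolynomial (Fin n) R) (J b β τ : ℕ) :
    MvPolynomial (Fin n) R :=
  UT e K r (τ % J) (2 ^ (τ / J % J)) ((((τ / J / J : ℕ) : R) - (b : R)) * 2 ^ β)

theorem map_XN (φ : R →+* S) (n i : ℕ) : map φ (XN n R i) = XN n S i := by
  unfold XN
  split_ifs <;> simp

theorem map_UT (φ : R →+* S) {n : ℕ} (e K : ℕ) (r : Fin n → MvPolynomial (Fin n) R) (i : ℕ)
    (a b : R) : map φ (UT e K r i a b) = UT e K (fun j => map φ (r j)) i (φ a) (φ b) := by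
  unfold UT
  rw [map_UV]
  simp only [map_C, map_add, map_mul, map_XN, map_EE φ]

theorem dg_UT {n : ℕ} (e K : ℕ) (r : Fin n → MvPolynomial (Fin n) R) (i : ℕ) (a b : R) :
    Dg (e ^ n : ℕ) (UT e K r i a b) := by
  refine Dg.sum _ fun j _ => ?_
  have h1 : Dg 1 (C a * XN n R i + C b) := ((dg_XN n R i).C_mul a).add ((Dg.C b).mono (by omega))
  have h2 := (((dg_neg_one_pow (σ := Fin n) (R := R) j).mul (Dg.C (EE e K r (XN n R i) j))).mul
    ((Dg.C a).pow j)).mul (h1.pow (e ^ n - j))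
  refine h2.mono ?_
  simp only [mul_zero, add_zero, zero_add, mul_one]
  exact_mod_cast Nat.sub_le _ _

theorem dg_two_pow {σ : Type*} (k : ℕ) : Dg 0 ((2 : MvPolynomial σ R) ^ k) := by
  simpa using dg_natCast (σ := σ) (R := R) (2 ^ k)

theorem dg_G4 {σ : Type*} {d : ℕ} (B m D : ℕ) (f : ℕ → ℕ) {u : ℕ → MvPolynomial σ R}
    {h : MvPolynomial σ R} (hu : ∀ j, Dg d (u j)) (hh : Dg d h) :
    Dg ((4 * d : ℕ) : ℤ) (G4 B m D f u h) := by
  have hd : (0 : ℤ) ≤ d := Int.natCast_nonneg d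
  have h1 : ∀ (c : ℕ) (k : ℤ), 0 ≤ k → Dg k ((c : MvPolynomial σ R) * 2 ^ B) := fun c k hk =>
    ((dg_natCast c).mul (dg_two_pow B)).mono (by omega)
  have h2 : Dg ((4 * d : ℕ) : ℤ) (G3 B m f u h) := by
    refine ((Dg.sum _ fun l _ => ?_).add ?_).sub
      (((dg_natCast _).mul ((dg_two_pow B).pow 2)).mono (by push_cast; omega))
    · refine ((((dg_two_pow _).mul ((hu _).pow 2)).sub (h1 _ _ (by push_cast; omega))).pow 2).mono ?_
      push_cast
      omega
    · refine ((((dg_two_pow _).mul hh).sub (h1 _ _ (by omega))).pow 2).mono ?_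
      push_cast
      omega
  exact (((dg_natCast _).mul h2).mono (by omega)).add ((dg_natCast _).mono (Int.natCast_nonneg _))

end Defs

/-- The polynomial whose roots are the differences of the coordinates of the roots. -/
noncomputable def sepT {n : ℕ} (e K1 K2 : ℕ) (r : Fin n → MvPolynomial (Fin n) ℤ) (i : ℕ) :
    Polynomial ℤ :=
  EE e K2 (fun j => map Polynomial.C (r j))
    (UT e K1 (fun j => map Polynomial.C (r j)) i 1 (-Polynomial.X)) (e ^ n)

theorem norm_sq_prod_eq (Y : Multiset ℂ) (g : ℂ → ℂ) (A : ℂ → ℂ) (c y : ℝ)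
    (h : ∀ z, g z = c * ((y : ℂ) - A z)) :
    ‖(Y.map g).prod‖ ^ 2 = (c ^ 2) ^ Y.card * FF (Y.map A) y := by
  induction Y using Multiset.induction_on with
  | empty => simp [FF]
  | cons a Y ih =>
    rw [FF] at ih
    rw [Multiset.map_cons, Multiset.prod_cons, norm_mul, mul_pow, ih, h a, norm_mul, FF,
      Multiset.map_cons, Multiset.map_cons, Multiset.prod_cons, Multiset.card_cons,
      Complex.norm_real, Real.norm_eq_abs, mul_pow, sq_abs]
    ring

/-- Separation of two real coordinates by a dyadic affine test. -/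
theorem exists_test (Y : Multiset ℂ) {D β lam : ℕ} (hY : Y.card ≤ D) {x x' : ℝ}
    (hx : (x : ℂ) ∈ Y) (hlt : x < x') (hup : x' - x ≤ 2 ^ β) (hlow : 1 ≤ 2 ^ β * (x' - x))
    (hlam : 128 * (D + 1) ^ 4 ≤ 2 ^ lam) :
    ∃ k ≤ 2 * β + lam + 1, ∃ b : ℤ, b.natAbs ≤ (D + 1) * 2 ^ (lam + 1) + 1 ∧
      Apart (1 / (8 * ((D : ℝ) + 1) ^ 2))
        (‖(Y.map fun y => (2 ^ k * (x : ℂ) + b * 2 ^ β) - 2 ^ k * y).prod‖ ^ 2)
        (‖(Y.map fun y => (2 ^ k * (x' : ℂ) + b * 2 ^ β) - 2 ^ k * y).prod‖ ^ 2) := by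
  obtain ⟨d, hd⟩ : ∃ d : ℝ, d = x' - x := ⟨_, rfl⟩
  rw [← hd] at hup hlow
  have hd0 : 0 < d := by linarith
  have hdc : (d : ℂ) ≠ 0 := by exact_mod_cast hd0.ne'
  obtain ⟨y, hy, hsep⟩ := sep (Y.map fun z => (z - x) / d) D (by rwa [Multiset.card_map])
    (Multiset.mem_map.2 ⟨x, hx, by simp⟩)
  have hβ : (0 : ℝ) < 2 ^ β := by positivity
  have hΛ : (1 : ℝ) ≤ 2 ^ lam := one_le_pow₀ (by norm_num)
  obtain ⟨k, hk1, hk2⟩ := exists_nat_pow_near (x := (2 : ℝ) ^ β * 2 ^ lam / d) (y := 2)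
    (by rw [le_div_iff₀ hd0]; nlinarith) (by norm_num)
  rw [le_div_iff₀ hd0] at hk1
  rw [div_lt_iff₀ hd0] at hk2
  obtain ⟨c, hc⟩ : ∃ c : ℝ, c = 2 ^ (k + 1) * d := ⟨_, rfl⟩
  have hc0 : 0 < c := by rw [hc]; positivity
  have hc1 : c ≤ 2 ^ β * 2 ^ (lam + 1) := by rw [hc, pow_succ, pow_succ]; linarith
  rw [← hc] at hk2
  obtain ⟨s, hs⟩ : ∃ s : ℝ, s = 2 ^ β / c := ⟨_, rfl⟩
  have hs0 : 0 < s := by rw [hs]; positivity
  have hs1 : s * c = 2 ^ β := by rw [hs]; field_simp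
  have hs2 : s * 2 ^ lam ≤ 1 := by
    refine le_of_mul_le_mul_right ?_ hc0
    calc s * 2 ^ lam * c = 2 ^ β * 2 ^ lam := by rw [← hs1]; ring
      _ ≤ _ := by linarith
  have hs3 : 1 ≤ s * 2 ^ (lam + 1) := by
    refine le_of_mul_le_mul_right ?_ hc0
    calc 1 * c ≤ 2 ^ β * 2 ^ (lam + 1) := by linarith
      _ = _ := by rw [← hs1]; ring
  have hf1 := Int.floor_le (y / s)
  have hf2 := Int.lt_floor_add_one (y / s)
  rw [le_div_iff₀ hs0] at hf1
  rw [div_lt_iff₀ hs0] at hf2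
  refine ⟨k + 1, ?_, ⌊y / s⌋, ?_, ?_⟩
  · have h1 : (2 : ℝ) ^ k ≤ 2 ^ (2 * β + lam) := by
      calc (2 : ℝ) ^ k = 2 ^ k * 1 := by ring
        _ ≤ 2 ^ k * (2 ^ β * d) := by gcongr
        _ = 2 ^ β * (2 ^ k * d) := by ring
        _ ≤ 2 ^ β * (2 ^ β * 2 ^ lam) := by gcongr
        _ = _ := by ring
    have := (pow_le_pow_iff_right₀ (by norm_num : (1 : ℝ) < 2)).1 h1
    omega
  · have h1 : |(⌊y / s⌋ : ℝ)| * s ≤ D + 1 + s := by
      rw [← abs_of_pos hs0, ← abs_mul, abs_of_pos hs0]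
      have := abs_le.1 hy
      rw [abs_le]
      constructor <;> linarith [this.1, this.2]
    have h2 : |(⌊y / s⌋ : ℝ)| ≤ (D + 1) * 2 ^ (lam + 1) + 1 := by
      refine le_of_mul_le_mul_right ?_ hs0
      have hD : (0 : ℝ) ≤ (D : ℝ) + 1 := by positivity
      nlinarith
    rw [← Int.cast_abs, Int.abs_eq_natAbs] at h2
    exact_mod_cast h2
  · have h1 : |(⌊y / s⌋ : ℝ) * s - y| ≤ 1 / (128 * ((D : ℝ) + 1) ^ 4) := by
      have h2 : (128 : ℝ) * ((D : ℝ) + 1) ^ 4 ≤ 2 ^ lam := by exact_mod_cast hlam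
      have h3 : s ≤ 1 / (128 * ((D : ℝ) + 1) ^ 4) := by
        rw [le_div_iff₀ (by positivity)]
        exact (mul_le_mul_of_nonneg_left h2 hs0.le).trans hs2
      rw [abs_le]
      constructor <;> linarith
    have h2 := (hsep _ h1).smul (pow_pos (pow_pos hc0 2) Y.card)
    have h3 : ((s : ℂ)) * c = 2 ^ β := by exact_mod_cast hs1
    have h4 : (c : ℂ) = 2 ^ (k + 1) * d := by exact_mod_cast hc
    have h5 : (x' : ℂ) = x + d := by rw [hd]; push_cast; ring
    rw [norm_sq_prod_eq Y _ (fun z => (z - x) / d) c ((⌊y / s⌋ : ℝ) * s) fun z => ?_,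
      norm_sq_prod_eq Y _ (fun z => (z - x) / d) c ((⌊y / s⌋ : ℝ) * s + 1) fun z => ?_]
    · exact h2
    · rw [← h3, h5]
      push_cast
      rw [h4]
      field_simp
      ring
    · rw [← h3]
      push_cast
      rw [h4]
      field_simp
      ring

section Roots

variable {n e : ℕ} {r : Fin n → MvPolynomial (Fin n) ℤ} {Z : Multiset (Fin n → ℂ)}

theorem aeval_UT (h2 : Z.card = e ^ n) {K i : ℕ}
    (h3 : ∀ k ≤ e ^ n, ((EE e K r (XN n ℤ i) k : ℤ) : ℂ) =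
      QQ (e ^ n) * (Z.map fun η => aeval η (XN n ℤ i)).esymm k) (a b : ℤ) (x : Fin n → ℂ) :
    aeval x (UT e K r i a b) = QQ (e ^ n) * ((Z.map fun η => aeval η (XN n ℤ i)).map
      fun y => (a * aeval x (XN n ℤ i) + b) - a * y).prod := by
  have h1 := map_UV (aeval x : MvPolynomial (Fin n) ℤ →ₐ[ℤ] ℂ).toRingHom (e ^ n)
    (fun j => C (EE e K r (XN n ℤ i) j)) (C a) (C a * XN n ℤ i + C b)
  simp only [AlgHom.toRingHom_eq_coe, RingHom.coe_coe, map_add, map_mul, aeval_C] at h1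
  simp only [eq_intCast (algebraMap ℤ ℂ)] at h1
  rw [UT, h1]
  exact UV_esymm _ (by rw [Multiset.card_map, h2]) _ h3 _ _

theorem totalDegree_XN_le (n : ℕ) (R : Type*) [CommRing R] (i : ℕ) :
    (XN n R i).totalDegree ≤ 1 := dg_iff.1 (dg_XN n R i)

/-- Powers of the characteristic polynomial are norms. -/
theorem UV_pow (he : 1 ≤ e) (hr : ∀ i, Dg ((e : ℤ) - 1) (r i)) {K1 K k : ℕ} (hK1 : e ^ n ≤ K1)
    (hK : e ^ n * k ≤ K) (i : ℕ) (a T : ℤ) :
    UV (e ^ n) (fun j => EE e K1 r (XN n ℤ i) j) a T ^ k * QQ (e ^ n) =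
      QQ (e ^ n) ^ k * EE e K r ((C T - C a * XN n ℤ i) ^ k) (e ^ n) := by
  obtain ⟨Z, -, h2, h3, -⟩ := exists_roots_int he hr
  simp only [Fintype.card_fin] at h2 h3
  apply Int.cast_injective (α := ℂ)
  have h4 := map_UV (Int.castRingHom ℂ) (e ^ n) (fun j => EE e K1 r (XN n ℤ i) j) a T
  simp only [eq_intCast] at h4
  rw [UV_esymm (Z.map fun η => aeval η (XN n ℤ i)) (by rw [Multiset.card_map, h2]) _
    (h3 K1 _ ((Nat.mul_le_mul_left _ (totalDegree_XN_le n ℤ i)).trans (by omega)))] at h4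
  have h5 : Dg ((k : ℕ) : ℤ) ((C T - C a * XN n ℤ i) ^ k) := by
    simpa using (((Dg.C T).mono (by omega)).sub ((dg_XN n ℤ i).C_mul a)).pow k
  have h6 := h3 K _ ((Nat.mul_le_mul_left _ h5.totalDegree_le).trans hK) _ le_rfl
  have h7 := esymm_card_eq (Z.map fun η => aeval η ((C T - C a * XN n ℤ i) ^ k))
  rw [Multiset.card_map, h2] at h7
  push_cast
  rw [h4, h6, h7, Multiset.map_map, mul_pow, ← Multiset.prod_map_pow]
  simp only [map_pow, map_sub, map_mul, eq_intCast, map_intCast, Function.comp_def]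
  ring

theorem aeval_sepT (he : 1 ≤ e) (hr : ∀ i, Dg ((e : ℤ) - 1) (r i)) {K1 K2 : ℕ}
    (hK1 : e ^ n ≤ K1) (hK2 : e ^ n * e ^ n ≤ K2) (i : Fin n) :
    sepT e K1 K2 r i ≠ 0 ∧ ∀ x y : Fin n → ℂ, (∀ j, aeval x (sys e r j) = 0) →
      (∀ j, aeval y (sys e r j) = 0) → Polynomial.aeval (x i - y i) (sepT e K1 K2 r i) = 0 := by
  classical
  obtain ⟨Z, h1, h2, h3, -⟩ := exists_roots_EE (K := ℂ) he
    (r := fun i => map (algebraMap ℤ ℂ) (r i)) (fun i => (hr i).map _)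
  simp only [Fintype.card_fin] at h2 h3
  have key : ∀ (η : Fin n → ℂ) (g : MvPolynomial (Fin n) ℤ),
      eval η (map (algebraMap ℤ ℂ) g) = aeval η g := fun η g => by rw [eval_map, aeval_def]
  have hQ : (QQ (e ^ n) : ℂ) ≠ 0 := by exact_mod_cast (QQ_pos _).ne'
  have h4 : ∀ t : ℂ, Polynomial.aeval t (sepT e K1 K2 r i) = QQ (e ^ n) *
      (Z.map fun x => (QQ (e ^ n) : ℂ) * (Z.map fun y => x i - t - y i).prod).prod := by
    intro t
    have h5 := map_EE (Polynomial.aeval t : Polynomial ℤ →ₐ[ℤ] ℂ).toRingHom e K2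
      (fun j => map Polynomial.C (r j))
      (UT e K1 (fun j => map Polynomial.C (r j)) i 1 (-Polynomial.X)) (e ^ n)
    rw [map_UT] at h5
    simp only [map_specialize, ← algebraMap_int_eq] at h5
    simp only [AlgHom.toRingHom_eq_coe, RingHom.coe_coe, map_one, map_neg,
      Polynomial.aeval_X] at h5
    rw [sepT, h5, h3 K2 _ ((Nat.mul_le_mul_left _ (dg_UT _ _ _ _ _ _).totalDegree_le).trans hK2)
      _ le_rfl]
    have h7 := esymm_card_eq (Z.map fun η => eval η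
      (UT e K1 (fun j => map (algebraMap ℤ ℂ) (r j)) i 1 (-t)))
    rw [Multiset.card_map, h2] at h7
    rw [h7]
    congr 2
    refine Multiset.map_congr rfl fun x _ => ?_
    rw [UT, map_UV, UV_esymm (Z.map fun η => eval η (XN n ℂ i)) (by rw [Multiset.card_map, h2])
      (QQ (e ^ n) : ℂ) fun j hj => by
        rw [eval_C]
        exact h3 K1 _ ((Nat.mul_le_mul_left _ (totalDegree_XN_le n ℂ i)).trans (by omega)) j hj]
    simp [XN, Multiset.map_map, sub_eq_add_neg]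
  constructor
  · obtain ⟨t, ht⟩ := Infinite.exists_notMem_finset
      ((Z.toFinset ×ˢ Z.toFinset).image fun q => q.1 i - q.2 i)
    intro h0
    have h5 := h4 t
    rw [h0, map_zero] at h5
    refine mul_ne_zero hQ (Multiset.prod_ne_zero fun h6 => ?_) h5.symm
    obtain ⟨x, hx, h7⟩ := Multiset.mem_map.1 h6
    refine mul_ne_zero hQ (Multiset.prod_ne_zero fun h8 => ?_) h7
    obtain ⟨y, hy, h9⟩ := Multiset.mem_map.1 h8
    refine ht (mem_image.2 ⟨(x, y), mem_product.2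
      ⟨Multiset.mem_toFinset.2 hx, Multiset.mem_toFinset.2 hy⟩, ?_⟩)
    linear_combination h9
  · intro x y hx hy
    have h5 : ∀ z : Fin n → ℂ, (∀ j, aeval z (sys e r j) = 0) → z ∈ Z := fun z hz =>
      (h1 z).2 fun j => by rw [← map_sys, key, hz j]
    rw [h4]
    refine mul_eq_zero_of_right _ (Multiset.prod_eq_zero (Multiset.mem_map.2 ⟨x, h5 x hx, ?_⟩))
    refine mul_eq_zero_of_right _ (Multiset.prod_eq_zero (Multiset.mem_map.2 ⟨y, h5 y hy, ?_⟩))
    ring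

end Roots

/-- The real root test over the integers. -/
theorem stepD4_int {n e : ℕ} {r : Fin n → MvPolynomial (Fin n) ℤ} (he : 1 ≤ e)
    (hr : ∀ i, Dg ((e : ℤ) - 1) (r i)) (h0 : MvPolynomial (Fin n) ℤ)
    {d K0 K1 K2 K3 M0 M β lam b J0 B m T J : ℕ} (hd : h0.totalDegree ≤ d) (hDd : e ^ n ≤ d)
    (hK0 : e ^ n * (jac e r).totalDegree ≤ K0) (hjac : EE e K0 r (jac e r) (e ^ n) ≠ 0)
    (hK1 : e ^ n ≤ K1) (hK2 : e ^ n * d ≤ K2) (hK3 : e ^ n * (4 * d) ≤ K3)
    (hM0 : ∀ i < n, ∀ j, |(sepT e K1 K2 r i).coeff j| ≤ M0) (hβ : M0 + 1 ≤ 2 ^ β)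
    (hlam : 128 * (e ^ n + 1) ^ 4 ≤ 2 ^ lam) (hb : (e ^ n + 1) * 2 ^ (lam + 1) + 1 ≤ b)
    (hJn : n < J0) (hJk : 2 * β + lam + 1 < J0) (hJb : 2 * b < J0)
    (hM : ∀ τ < J0 ^ 3, ∀ k ≤ e ^ n, |EE e K2 r (UC e K1 r J0 b β τ) k| ≤ M)
    (hM' : ∀ k ≤ e ^ n, |EE e K2 r h0 k| ≤ M) (hB : (M + 1) ^ 2 ≤ 2 ^ B) (hm : e ^ n < 2 ^ m)
    (hT : 32 * (e ^ n + 1) ^ 3 * (m + 3) ≤ 2 ^ T) (hJ : J0 ^ 3 ≤ J) (hJ2 : 2 * B + T < J)
    (hJ3 : 2 ^ (T + 1) ≤ J) (hJ4 : e ^ n < J) :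
    (∃ x : Fin n → ℝ, (∀ i, aeval x (sys e r i) = 0) ∧ 0 < aeval x h0) ↔
      ∃ N < J ^ (3 * m + 3), EE e K3 r (G4 B m (e ^ n) (fun k => N / J ^ k % J)
        (UC e K1 r J0 b β) h0) (e ^ n) < 0 := by
  classical
  obtain ⟨Z, h1, h2, h3, h4⟩ := exists_roots_int he hr
  simp only [Fintype.card_fin] at h2 h3
  have hQ : (0 : ℝ) < QQ (e ^ n) := by exact_mod_cast QQ_pos _
  have htop : ∀ (N : ℕ) (g : MvPolynomial (Fin n) ℤ), e ^ n * g.totalDegree ≤ N →
      ((EE e N r g (e ^ n) : ℤ) : ℂ) = QQ (e ^ n) * (Z.map fun η => aeval η g).prod := by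
    intro N g hg
    rw [h3 N g hg _ le_rfl, ← esymm_card_eq, Multiset.card_map, h2]
  have hnd : Z.Nodup := by
    refine h4 fun η hη h => hjac ?_
    have := htop K0 _ hK0
    rw [Multiset.prod_eq_zero (Multiset.mem_map.2 ⟨η, hη, h⟩), mul_zero] at this
    exact_mod_cast this
  have hdU : ∀ τ, Dg d (UC e K1 r J0 b β τ) := fun τ =>
    (dg_UT _ _ _ _ _ _).mono (by exact_mod_cast hDd)
  have hroot : ∀ g : MvPolynomial (Fin n) ℤ, g.totalDegree ≤ d →
      (∀ k ≤ e ^ n, |EE e K2 r g k| ≤ M) → ∀ η ∈ Z, ‖aeval η g‖ ≤ M + 1 ∧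
        (aeval η g ≠ 0 → 1 ≤ (M + 1) * ‖aeval η g‖) := by
    intro g hg hgM η hη
    have hs : (Z.map fun η => aeval η g).card = e ^ Fintype.card (Fin n) := by
      rw [Multiset.card_map, h2, Fintype.card_fin]
    have h : ∀ k ≤ e ^ Fintype.card (Fin n), ((EE e K2 r g k : ℤ) : ℂ) =
        QQ (e ^ Fintype.card (Fin n)) * (Z.map fun η => aeval η g).esymm k := by
      rw [Fintype.card_fin]
      exact h3 K2 g ((Nat.mul_le_mul_left _ hg).trans hK2)
    have h5 := cpoly_ne_zero hs h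
    have h6 := aeval_cpoly_eq_zero hs h (Multiset.mem_map_of_mem _ hη)
    have h7 := abs_coeff_cpoly_le (e := e) (N := K2) (r := r) (g := g) (M := M)
      (by rwa [Fintype.card_fin])
    exact ⟨(norm_root_lt h5 h7 h6).le, fun h8 => (one_lt_mul_norm_root h5 h7 h6 h8).le⟩
  have hM1 : (1 : ℝ) ≤ M + 1 := by linarith [Nat.cast_nonneg (α := ℝ) M]
  have hB' : ((M : ℝ) + 1) ^ 2 ≤ 2 ^ B := by exact_mod_cast hB
  have hB'' : (M : ℝ) + 1 ≤ 2 ^ B := le_trans (by nlinarith) hB'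
  have hstar : ∀ η ∈ Z, star η ∈ Z := by
    intro η hη
    rw [h1] at hη ⊢
    intro i
    rw [aeval_star, hη i, map_zero]
  have main := stepD4 (⟨Z, hnd⟩ : Finset (Fin n → ℂ)) star hstar star_star
    (fun τ η => aeval η (UC e K1 r J0 b β τ)) (fun η => aeval η h0)
    (fun τ η => aeval_star η _) (fun η => aeval_star η _) (D := e ^ n) (m := m) (B := B) (T := T)
    (J := J) (J1 := J0 ^ 3) (le_of_eq h2) hm (pow_pos (by omega) 3) hJ hJ2 hJ3 hJ4 hT ?_ ?_ ?_ ?_ ?_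
  · have hfin : ∀ f, (∏ η ∈ (⟨Z, hnd⟩ : Finset (Fin n → ℂ)),
        G4 B m (e ^ n) f (fun τ => aeval η (UC e K1 r J0 b β τ)) (aeval η h0)).re < 0 ↔
        EE e K3 r (G4 B m (e ^ n) f (UC e K1 r J0 b β) h0) (e ^ n) < 0 := by
      intro f
      have h5 := htop K3 _ ((Nat.mul_le_mul_left _ (dg_G4 B m (e ^ n) f hdU
        (dg_iff.2 hd)).totalDegree_le).trans hK3)
      have h6 : ∀ η : Fin n → ℂ, aeval η (G4 B m (e ^ n) f (UC e K1 r J0 b β) h0) =
          G4 B m (e ^ n) f (fun τ => aeval η (UC e K1 r J0 b β τ)) (aeval η h0) := fun η =>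
        map_G4 (aeval η : MvPolynomial (Fin n) ℤ →ₐ[ℤ] ℂ).toRingHom B m (e ^ n) f _ _
      simp only [h6] at h5
      have h7 := congrArg Complex.re h5
      rw [Complex.intCast_re, ← Complex.ofReal_natCast, Complex.re_ofReal_mul] at h7
      rw [prod_mk, ← Int.cast_lt (R := ℝ), h7, Int.cast_zero, mul_neg_iff]
      constructor
      · exact fun h => Or.inl ⟨hQ, h⟩
      · rintro (h | h)
        · exact h.2
        · exact absurd h.1 (not_lt.2 hQ.le)
    simp only [hfin] at main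
    rw [← main]
    constructor
    · rintro ⟨x, hx, hpos⟩
      refine ⟨fun i => (x i : ℂ), ?_, ?_, ?_⟩
      · refine (h1 _).2 fun i => ?_
        rw [aeval_ofReal, hx i, Complex.ofReal_zero]
      · exact funext fun i => Complex.conj_ofReal _
      · rwa [aeval_ofReal, Complex.ofReal_re]
    · rintro ⟨η, hη, hfix, hpos⟩
      rw [eq_ofReal_of_star_eq hfix, aeval_ofReal, Complex.ofReal_re] at hpos
      refine ⟨fun i => (η i).re, fun i => ?_, hpos⟩
      have := (h1 η).1 hη i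
      rw [eq_ofReal_of_star_eq hfix, aeval_ofReal] at this
      exact_mod_cast this
  · have key : ∀ x ∈ Z, ∀ y ∈ Z, star x = x → star y = y → ∀ i : Fin n, (x i).re < (y i).re →
        ∃ τ < J0 ^ 3, Apart (1 / (8 * (((e ^ n : ℕ) : ℝ) + 1) ^ 2))
          (‖aeval x (UC e K1 r J0 b β τ)‖ ^ 2) (‖aeval y (UC e K1 r J0 b β τ)‖ ^ 2) := by
      intro x hx y hy hxf hyf i hlt
      have hx' := congrFun (eq_ofReal_of_star_eq hxf) i
      have hy' := congrFun (eq_ofReal_of_star_eq hyf) i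
      obtain ⟨h5, h6⟩ := aeval_sepT he hr hK1 ((Nat.mul_le_mul_left _ hDd).trans hK2) i
      have h7 := h6 y x ((h1 y).1 hy) ((h1 x).1 hx)
      have h8 : ∀ j, |(((sepT e K1 K2 r i).coeff j : ℤ) : ℝ)| ≤ M0 := fun j => by
        exact_mod_cast hM0 i i.2 j
      have h9 : ‖y i - x i‖ = (y i).re - (x i).re := by
        conv_lhs => rw [hx', hy', ← Complex.ofReal_sub, Complex.norm_real, Real.norm_eq_abs,
          abs_of_pos (sub_pos.2 hlt)]
      have h10 := norm_root_lt h5 h8 h7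
      have h11 := one_lt_mul_norm_root h5 h8 h7 fun h => by
        rw [h, norm_zero] at h9
        linarith
      rw [h9] at h10 h11
      have hβ' : (M0 : ℝ) + 1 ≤ 2 ^ β := by exact_mod_cast hβ
      have hXi : ∀ η : Fin n → ℂ, aeval η (XN n ℤ i) = η i := fun η => by simp [XN]
      obtain ⟨k, hk, c, hc, hap⟩ := exists_test (Z.map fun η => aeval η (XN n ℤ i))
        (D := e ^ n) (β := β) (lam := lam) (by rw [Multiset.card_map, h2]) (x := (x i).re)
        (x' := (y i).re) (Multiset.mem_map.2 ⟨x, hx, by rw [hXi, ← hx']⟩) hlt (by linarith)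
        (by nlinarith [sub_pos.2 hlt]) hlam
      obtain ⟨c', hc'⟩ : ∃ c' : ℕ, (c' : ℤ) = c + b := ⟨(c + b).toNat, by omega⟩
      have hc1 : c' < J0 := by omega
      have hi : (i : ℕ) < J0 := i.2.trans hJn
      have hk1 : k < J0 := by omega
      have hJ0 : 0 < J0 := by omega
      have g1 : (i + J0 * (k + J0 * c')) % J0 = i := by
        rw [Nat.add_mul_mod_self_left, Nat.mod_eq_of_lt hi]
      have g2 : (i + J0 * (k + J0 * c')) / J0 = k + J0 * c' := by
        rw [Nat.add_mul_div_left _ _ hJ0, Nat.div_eq_of_lt hi, zero_add]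
      have g3 : (k + J0 * c') % J0 = k := by
        rw [Nat.add_mul_mod_self_left, Nat.mod_eq_of_lt hk1]
      have g4 : (k + J0 * c') / J0 = c' := by
        rw [Nat.add_mul_div_left _ _ hJ0, Nat.div_eq_of_lt hk1, zero_add]
      refine ⟨i + J0 * (k + J0 * c'), ?_, ?_⟩
      · have g5 : k + J0 * c' + 1 ≤ J0 * J0 := by nlinarith
        have g6 := Nat.mul_le_mul_left J0 g5
        calc i + J0 * (k + J0 * c') < J0 * (k + J0 * c' + 1) := by rw [mul_add _ _ 1]; omega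
          _ ≤ J0 ^ 3 := by rw [show J0 ^ 3 = J0 * (J0 * J0) by ring]; exact g6
      · have g5 := h3 K1 _ ((Nat.mul_le_mul_left _ (totalDegree_XN_le n ℤ i)).trans (by omega))
        rw [UC, g1, g2, g3, g4, hc', add_sub_cancel_right, aeval_UT h2 g5, aeval_UT h2 g5,
          norm_mul, norm_mul, mul_pow, mul_pow, hXi, hXi]
        rw [← hx', ← hy'] at hap
        push_cast
        push_cast at hap
        exact hap.smul (pow_pos (by rw [Complex.norm_natCast]; exact hQ) 2)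
    intro x hx y hy hxf hyf hxy
    obtain ⟨i, hi⟩ := Function.ne_iff.1 hxy
    have hne : (x i).re ≠ (y i).re := fun h => hi (by
      rw [congrFun (eq_ofReal_of_star_eq hxf) i, congrFun (eq_ofReal_of_star_eq hyf) i, h])
    rcases hne.lt_or_gt with h | h
    · exact key x hx y hy hxf hyf i h
    · obtain ⟨τ, h5, h6⟩ := key y hy x hx hyf hxf i h
      exact ⟨τ, h5, h6.symm⟩
  · intro τ hτ x hx hne
    have h5 := (hroot _ (hdU τ).totalDegree_le (hM τ hτ) x hx).2 hne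
    have h6 := one_le_pow₀ (n := 2) h5
    rw [mul_pow] at h6
    exact h6.trans (mul_le_mul_of_nonneg_right hB' (sq_nonneg _))
  · intro τ hτ x hx
    exact (pow_le_pow_left₀ (norm_nonneg _) (hroot _ (hdU τ).totalDegree_le (hM τ hτ) x hx).1
      2).trans hB'
  · intro x hx hne
    exact ((hroot _ hd hM' x hx).2 hne).trans (mul_le_mul_of_nonneg_right hB'' (norm_nonneg _))
  · intro x hx
    exact (hroot _ hd hM' x hx).1.trans hB''

/-- Reduction to the real roots of the critical point system. -/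
theorem core4 {n e : ℕ} {P : MvPolynomial (Fin n) ℤ} (he : Odd e) (hP : P.totalDegree ≤ e)
    (hP0 : ∀ x : Fin n → ℝ, 0 ≤ aeval x P) {KE KD M1 R t : ℕ}
    (hKE : e ^ n * (e + 1) ≤ KE) (hKD : e ^ n * (n * e) ≤ KD)
    (hE : ∀ k ≤ e ^ n, ∀ j, |(epsT e KE P k).coeff j| ≤ M1)
    (hD : ∀ j, |(delT e KD P).coeff j| ≤ M1)
    (hR : M1 + 1 ≤ R) (ht : M1 * (e ^ n + 1) * (2 * R) ^ (e ^ n) + 1 ≤ t) :
    EE e KD (rr (t : ℤ) P) (jac e (rr (t : ℤ) P)) (e ^ n) ≠ 0 ∧
    ((∃ x : Fin n → ℝ, aeval x P = 0) ↔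
      ∃ x : Fin n → ℝ, (∀ i, aeval x (sys e (rr (t : ℤ) P) i) = 0) ∧
        0 < aeval x (hzero e (R : ℤ) (t : ℤ) P)) := by
  have he1 : 1 ≤ e := he.pos
  have hc : Fintype.card (Fin n) = n := Fintype.card_fin n
  have hKD' : e ^ Fintype.card (Fin n) * (Fintype.card (Fin n) * e) ≤ KD := by rwa [hc]
  have htM : M1 + 1 ≤ t := by
    refine le_trans (Nat.succ_le_succ ?_) ht
    have h1 : 1 ≤ (2 * R) ^ (e ^ n) := Nat.one_le_pow _ _ (by omega)
    calc M1 = M1 * 1 * 1 := by ring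
      _ ≤ _ := Nat.mul_le_mul (Nat.mul_le_mul_left _ (by omega)) h1
  have hjac : EE e KD (rr (t : ℤ) P) (jac e (rr (t : ℤ) P)) (e ^ n) ≠ 0 := by
    have h1 : Polynomial.aeval (t : ℝ) (delT e KD P) ≠ 0 :=
      aeval_ne_zero_of_le (delT_ne_zero he1 hP hKD') (M := M1)
        (fun j => by exact_mod_cast hD j) (by
          rw [Real.norm_natCast]
          exact_mod_cast htM)
    intro h0
    apply h1
    have h2 := map_EE (Int.castRingHom ℝ) e KD (rr (t : ℤ) P) (jac e (rr (t : ℤ) P)) (e ^ n)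
    rw [h0, map_zero, map_jac] at h2
    simp only [map_rr, map_natCast] at h2
    rw [aeval_delT, hc]
    exact h2.symm
  refine ⟨hjac, ?_⟩
  have hC := stepC (P := P) (K := KE) he hP (by simpa only [eval_map_intCast] using hP0)
    (by rwa [hc]) (M := M1) (R := R) (t₀ := t)
    (fun k hk j => by exact_mod_cast hE k (by rwa [hc] at hk) j) (by exact_mod_cast hR)
    (by rw [hc]; exact_mod_cast ht)
  simp only [eval_map_intCast] at hC
  rw [hC]
  refine exists_congr fun x => and_congr (forall_congr' fun i => ?_) ?_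
  · have h1 := map_sys (Int.castRingHom ℝ) e (rr (t : ℤ) P) i
    simp only [map_rr, map_natCast] at h1
    rw [← eval_map_intCast, h1]
  · have h1 := map_hh (Int.castRingHom ℝ) e (t : ℤ) P
    rw [map_natCast] at h1
    rw [hzero, map_sub, ← h1, eval_map_intCast, aeval_C, sub_pos]
    simp

end Vale.Agent.N47
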