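import Vale.Agent.N47.PW
import Vale.Agent.P337.SignCRT

/-!
The guess and check sign test: the existence of a negative member in a family of huge integers,
whose residues are flat sums of terms of level two, is decided at level four.
-/

namespace Vale.Agent.N47

open Vale.Agent.Lib.PolyTime Vale.Agent.P337 Finset

theorem le_card_window (lo b hi : ℕ) (hhi : 2 * (lo + b + 2) ^ 2 < hi) :
    b ≤ (window lo hi).card := by
  have h1 := le_card_primes (lo + b + 2) (by omega)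
  have h2 : (range (2 * (lo + b + 2) ^ 2 + 1)).filter Nat.Prime ⊆
      window lo hi ∪ range (lo + 1) := by
    intro p hp
    rw [mem_filter, mem_range] at hp
    rw [mem_union, mem_window, mem_range]
    by_cases h : lo < p
    · exact Or.inl ⟨by omega, h, hp.2⟩
    · exact Or.inr (by omega)
  have h3 := (card_le_card h2).trans (card_union_le _ _)
  rw [card_range] at h3
  omega

theorem card_le_of_dvd {F : Finset ℕ} (hF : ∀ q ∈ F, q.Prime) {Δ : ℤ} (h0 : Δ ≠ 0)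
    (hd : ∀ q ∈ F, (q : ℤ) ∣ Δ) {L : ℕ} (hL : Δ.natAbs ≤ 2 ^ L) : F.card ≤ L := by
  have h1 : ∏ q ∈ F, q ∣ Δ.natAbs :=
    Finset.prod_primes_dvd _ (fun q hq => (hF q hq).prime) fun q hq =>
      Int.natCast_dvd.1 (hd q hq)
  have h2 := Nat.le_of_dvd (Int.natAbs_pos.2 h0) h1
  have h3 : 2 ^ F.card ≤ ∏ q ∈ F, q := pow_card_le_prod _ _ _ fun q hq => (hF q hq).two_le
  exact (Nat.pow_le_pow_iff_right (by norm_num : 1 < 2)).1 (h3.trans (h2.trans hL))

/-- The candidate obtained by Chinese remaindering. -/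
theorem crt_candidate (S : Finset ℕ) (hS : ∀ p ∈ S, p.Prime) (Y : ℤ) (m : ℕ → ℕ) (y : ℕ → ℕ → ℕ)
    (u : ℕ) (hu : ∑ p ∈ S, m p < u)
    (hy : ∀ p ∈ S, ((∑ s ∈ range (m p), y p s : ℕ) : ℤ) * ((∏ q ∈ S.erase p, q : ℕ) : ℤ) ≡ Y
      [ZMOD p]) (X : ℤ)
    (hX : X = ((∑ p ∈ S, ∑ s ∈ range (m p), y p s * ∏ q ∈ S.erase p, q : ℕ) : ℤ) -
      ((((∑ p ∈ S, ∑ s ∈ range (m p), 2 * u * y p s / p) + u) / (2 * u) + 1 : ℕ) : ℤ) *
        ((∏ p ∈ S, p : ℕ) : ℤ)) :
    X < 0 ∧ -(2 * ((∏ p ∈ S, p : ℕ) : ℤ)) ≤ X ∧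
      (-((∏ p ∈ S, p : ℕ) : ℤ) ≤ Y → 2 * Y < -((∏ p ∈ S, p : ℕ) : ℤ) → X = Y) := by
  set M : ℕ := ∏ p ∈ S, p with hM
  set Z : ℕ := ∑ p ∈ S, ∑ s ∈ range (m p), y p s * ∏ q ∈ S.erase p, q with hZ
  set A : ℕ := ∑ p ∈ S, ∑ s ∈ range (m p), 2 * u * y p s / p with hA
  have hu0 : 0 < u := by omega
  have hM0 : 0 < M := prod_pos fun p hp => (hS p hp).pos
  have hMp : ∀ p ∈ S, p * ∏ q ∈ S.erase p, q = M := fun p hp => mul_prod_erase S (fun q => q) hp
  have hdvd : (M : ℤ) ∣ (Z : ℤ) - Y := by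
    rw [hM, Nat.cast_prod]
    refine prod_dvd_of_coprime ?_ fun p hp => ?_
    · intro p hp q hq hpq
      exact Nat.isCoprime_iff_coprime.2 ((Nat.coprime_primes (hS p hp) (hS q hq)).2 hpq)
    · have h1 : (Z : ℤ) ≡ ((∑ s ∈ range (m p), y p s : ℕ) : ℤ) *
          ((∏ q ∈ S.erase p, q : ℕ) : ℤ) [ZMOD p] := by
        rw [hZ, ← add_sum_erase S _ hp, Nat.cast_add, ← sum_mul, Nat.cast_mul]
        refine (Int.ModEq.add_left _ (Int.modEq_zero_iff_dvd.2 ?_)).trans (by rw [add_zero])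
        refine Int.natCast_dvd_natCast.2 (dvd_sum fun q hq => dvd_sum fun s _ =>
          dvd_mul_of_dvd_right ?_ _)
        rw [mem_erase] at hq
        exact dvd_prod_of_mem _ (mem_erase.2 ⟨hq.1.symm, hp⟩)
      exact (h1.trans (hy p hp)).symm.dvd
  obtain ⟨z, hz⟩ := hdvd
  have h1 : M * A ≤ 2 * u * Z := by
    rw [hA, hZ, mul_sum, mul_sum]
    refine sum_le_sum fun p hp => ?_
    rw [mul_sum, mul_sum]
    refine sum_le_sum fun s _ => ?_
    rw [← hMp p hp]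
    have := Nat.mul_div_le (2 * u * y p s) p
    calc p * (∏ q ∈ S.erase p, q) * (2 * u * y p s / p)
        = p * (2 * u * y p s / p) * ∏ q ∈ S.erase p, q := by ring
      _ ≤ 2 * u * y p s * ∏ q ∈ S.erase p, q := Nat.mul_le_mul_right _ this
      _ = _ := by ring
  have h2 : 2 * u * Z ≤ M * A + M * u := by
    have h3 : 2 * u * Z ≤ ∑ p ∈ S, ∑ s ∈ range (m p), (M * (2 * u * y p s / p) + M) := by
      rw [hZ, mul_sum]
      refine sum_le_sum fun p hp => ?_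
      rw [mul_sum]
      refine sum_le_sum fun s _ => ?_
      rw [← hMp p hp]
      have := Nat.lt_mul_div_succ (2 * u * y p s) (hS p hp).pos
      calc 2 * u * (y p s * ∏ q ∈ S.erase p, q) = 2 * u * y p s * ∏ q ∈ S.erase p, q := by ring
        _ ≤ p * (2 * u * y p s / p + 1) * ∏ q ∈ S.erase p, q := Nat.mul_le_mul_right _ this.le
        _ = _ := by ring
    simp only [sum_add_distrib, ← mul_sum, sum_const, card_range, smul_eq_mul, ← sum_mul] at h3
    have := Nat.mul_le_mul_right M hu.le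
    rw [← hA] at h3
    nlinarith
  have h3 := Nat.lt_mul_div_succ (A + u) (show 0 < 2 * u by omega)
  have h4 := Nat.mul_div_le (A + u) (2 * u)
  generalize (A + u) / (2 * u) = r at *
  have hu' : (0 : ℤ) < u := by exact_mod_cast hu0
  have hM' : (0 : ℤ) < M := by exact_mod_cast hM0
  zify at h1 h2 h3 h4
  push_cast at hX
  have h5 : X < 0 := by
    rw [hX]
    refine lt_of_mul_lt_mul_left (a := 2 * (u : ℤ)) ?_ (by omega)
    nlinarith
  refine ⟨h5, ?_, fun h6 h7 => ?_⟩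
  · rw [hX]
    refine le_of_mul_le_mul_left (a := 2 * (u : ℤ)) ?_ (by omega)
    nlinarith
  · have e : (Z : ℤ) = Y + M * z := by linarith
    have h8 : z < r + 2 := by
      refine lt_of_mul_lt_mul_left (a := (M : ℤ)) ?_ hM'.le
      nlinarith
    have h9 : (r : ℤ) < z := by
      refine lt_of_mul_lt_mul_left (a := (M : ℤ) * (2 * u)) ?_ (by positivity)
      nlinarith
    have : z = r + 1 := by omega
    rw [hX, e, this]
    ring

theorem exists_scale {N M : ℤ} {K : ℕ} (hN : N < 0) (h1 : -M ≤ N) (h2 : M ≤ 2 ^ K) :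
    ∃ k < K + 1, -M ≤ 2 ^ k * N ∧ 2 * (2 ^ k * N) < -M := by
  have h3 : 2 * (2 ^ K * N) < -M := by
    have : (0 : ℤ) < 2 ^ K := by positivity
    nlinarith
  have hex : ∃ k, 2 * (2 ^ k * N) < -M := ⟨K, h3⟩
  refine ⟨Nat.find hex, Nat.lt_succ_of_le (Nat.find_min' hex h3), ?_, Nat.find_spec hex⟩
  rcases Nat.eq_zero_or_pos (Nat.find hex) with h0 | h0
  · rw [h0]; simpa using h1
  · have h4 := Nat.find_min hex (show Nat.find hex - 1 < Nat.find hex by omega)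
    have e : (2 : ℤ) ^ Nat.find hex = 2 * 2 ^ (Nat.find hex - 1) := by
      rw [← pow_succ']; congr 1; omega
    rw [e]
    push Not at h4
    linarith

theorem prod_window_erase (lo hi p : ℕ) : ∏ q ∈ (window lo hi).erase p, q =
    ∏ q ∈ range hi, if (lo < q ∧ q.Prime) ∧ q ≠ p then q else 1 := by
  rw [← prod_filter, ← filter_ne', window, filter_filter]

variable {α : Type*} [Enc α]

theorem CP_exists_neg {f : α → ℕ → ℤ} {M : α → ℕ} (hM : LF 0 M) {T V : α × ℕ → ℕ} (hT : CHF T)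
    (hV : CHF V) (hfV : ∀ a i, (f a i).natAbs ≤ 2 ^ V (a, i))
    (hres : ZS 2 (fun y : (α × ℕ) × ℕ => T y.1 < y.2 ∧ y.2.Prime) (fun y => y.2)
      (fun y => (f y.1.1 y.1.2 : ZMod y.2))) :
    CP 4 (fun a => ∃ i, i < M a ∧ f a i < 0) := by
  classical
  obtain ⟨T0, hT0, hT0'⟩ := bound0_lt (f := fun a i => T (a, i)) hT hM.toCHF
  obtain ⟨V0, hV0, hV0'⟩ := bound0_lt (f := fun a i => V (a, i)) hV hM.toCHF
  obtain ⟨hi, hhi, hhi'⟩ : ∃ hi : α → ℕ, LF 0 hi ∧ ∀ a, 2 * (T0 a + V0 a + 2) ^ 2 < hi a :=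
    ⟨fun a => 2 * (T0 a + V0 a + 2) ^ 2 + 1, by fun_prop, fun a => Nat.lt_succ_self _⟩
  have hfL := hres.toZL
  obtain ⟨g0, ⟨m, g, hm, hg, hg0⟩, hg'⟩ := hres
  obtain ⟨m1, hm1, hm1'⟩ := bound0_lt (f := fun (x : α × ℕ) p => m (x, p)) (m := fun x => hi x.1)
    hm.toCHF (by fun_prop)
  obtain ⟨m0, hm0, hm0'⟩ := bound0_lt (f := fun a i => m1 (a, i)) hm1.toCHF hM.toCHF
  obtain ⟨u, hu, hu'⟩ : ∃ u : α → ℕ, LF 0 u ∧ ∀ a, hi a * m0 a < u a :=
    ⟨fun a => hi a * m0 a + 1, by fun_prop, fun a => Nat.lt_succ_self _⟩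
  -- products of the primes of the window
  have hPP : ZL 2 (fun y : (α × ℕ) × ℕ => y.2.Prime) (fun y => y.2)
      (fun y => ((∏ q ∈ (window (T0 y.1.1) (hi y.1.1)).erase y.1.2, q : ℕ) : ZMod y.2)) := by
    refine (ZL_prod_long (m := fun y : (α × ℕ) × ℕ => hi y.1.1)
      (f := fun y q => if (T0 y.1.1 < q ∧ q.Prime) ∧ q ≠ y.1.2 then q else 1) ?_ (by fun_prop)
      (by fun_prop) fun _ h => h).congr' fun y _ => by rw [prod_window_erase, Nat.cast_prod]
    exact LF.ite (LP.and (LP.and (by fun_prop (disch := omega)) (LP.prime (j := 0) (by fun_prop)))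
      (by fun_prop)) (by fun_prop) (by fun_prop)
  -- the terms
  obtain ⟨y, hy, hy'⟩ : ZL 2 (fun z : (((α × ℕ) × ℕ) × ℕ) × ℕ => z.1.2.Prime) (fun z => z.1.2)
      (fun z => 2 ^ z.1.1.2 * ((g (z.1.1.1, z.1.2) z.2 : ℕ) : ZMod z.1.2) *
        ((∏ q ∈ (window (T0 z.1.1.1.1) (hi z.1.1.1.1)).erase z.1.2, q : ℕ) : ZMod z.1.2) ^
          (z.1.2 - 2)) :=
    ZL.mul (ZL.mul (ZL.two_pow (by fun_prop) (by fun_prop)) (ZL.natCast
      (hg.comp (f := fun z : (((α × ℕ) × ℕ) × ℕ) × ℕ => ((z.1.1.1, z.1.2), z.2)) (by fun_prop))))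
      (ZL.pow (by fun_prop) (hPP.re (fun z : (((α × ℕ) × ℕ) × ℕ) × ℕ =>
        ((z.1.1.1.1, z.1.2), z.1.2)) (by fun_prop) fun _ h => h) (by fun_prop))
  have hwin : LP 2 (fun z : α × ℕ => T0 z.1 < z.2 ∧ z.2.Prime) :=
    LP.and (by fun_prop (disch := omega)) (LP.prime (j := 1) (by fun_prop))
  have hhi2 : LF 2 hi := hhi.up
  have hu2 : LF 2 u := hu.up
  -- the approximation
  obtain ⟨A, hA, hA'⟩ : ∃ A : (α × ℕ) × ℕ → ℕ, LF 3 A ∧ ∀ x, A x =
      ∑ p ∈ window (T0 x.1.1) (hi x.1.1), ∑ s ∈ range (m (x.1, p)),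
        2 * u x.1.1 * y ((x, p), s) / p := by
    refine ⟨_, ?_, fun _ => rfl⟩
    have h1 : LS 2 (fun z : ((α × ℕ) × ℕ) × ℕ => ∑ s ∈ range (m (z.1.1, z.2)),
        2 * u z.1.1.1 * y (z, s) / z.2) :=
      LS.sum_range (f := fun (z : ((α × ℕ) × ℕ) × ℕ) s => 2 * u z.1.1.1 * y (z, s) / z.2)
        (LF.toLS (by fun_prop)) (by fun_prop)
    refine (LS.sum_range (f := fun (x : (α × ℕ) × ℕ) p => if T0 x.1.1 < p ∧ p.Prime then
      ∑ s ∈ range (m (x.1, p)), 2 * u x.1.1 * y ((x, p), s) / p else 0) (m := fun x => hi x.1.1)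
      (LS.ite (hwin.comp (f := fun z : ((α × ℕ) × ℕ) × ℕ => (z.1.1.1, z.2)) (by fun_prop)) h1
        (LF.toLS (by fun_prop))) (by fun_prop)).toLF.congr fun x => ?_
    rw [window, sum_filter]
  -- the candidate
  obtain ⟨X, hX⟩ : ∃ X : (α × ℕ) × ℕ → ℤ, ∀ x, X x =
      ((∑ p ∈ window (T0 x.1.1) (hi x.1.1), ∑ s ∈ range (m (x.1, p)),
        y ((x, p), s) * ∏ q ∈ (window (T0 x.1.1) (hi x.1.1)).erase p, q : ℕ) : ℤ) -
      (((A x + u x.1.1) / (2 * u x.1.1) + 1 : ℕ) : ℤ) *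
        ((∏ p ∈ window (T0 x.1.1) (hi x.1.1), p : ℕ) : ℤ) := ⟨_, fun _ => rfl⟩
  have hXL : ZL 3 (fun z : ((α × ℕ) × ℕ) × ℕ => z.2.Prime) (fun z => z.2)
      (fun z => (X z.1 : ZMod z.2)) := by
    have h1 : ZS 2 (fun z : ((α × ℕ) × ℕ) × ℕ => z.2.Prime) (fun z => z.2)
        (fun z => ∑ p ∈ range (hi z.1.1.1), if T0 z.1.1.1 < p ∧ p.Prime then
          ∑ s ∈ range (m (z.1.1, p)), ((y ((z.1, p), s) : ℕ) : ZMod z.2) *
            ((∏ q ∈ (window (T0 z.1.1.1) (hi z.1.1.1)).erase p, q : ℕ) : ZMod z.2) else 0) := by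
      refine ZS.sum_range (by fun_prop) (ZS.ite (hwin.comp
        (f := fun w : (((α × ℕ) × ℕ) × ℕ) × ℕ => (w.1.1.1.1, w.2)) (by fun_prop))
        (ZS.sum_range (by fun_prop) (ZL.mul (ZL.natCast (by fun_prop)) ?_).toZS) ZL.zero.toZS)
      exact hPP.re (fun v : ((((α × ℕ) × ℕ) × ℕ) × ℕ) × ℕ => ((v.1.1.1.1.1, v.1.2), v.1.1.2))
        (by fun_prop) fun _ h => h.1.1.1
    have h2 := (hPP.re (fun z : ((α × ℕ) × ℕ) × ℕ => ((z.1.1.1, 0), z.2)) (by fun_prop)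
      (E' := fun z => z.2.Prime) fun _ h => h).mono (show 2 ≤ 3 by omega)
    refine (ZL.sub (by fun_prop) h1.toZL (ZL.mul (ZL.natCast
      (f := fun z : ((α × ℕ) × ℕ) × ℕ => (A z.1 + u z.1.1.1) / (2 * u z.1.1.1) + 1)
      (by fun_prop (disch := omega))) h2)).congr' fun z _ => ?_
    rw [hX, erase_eq_of_notMem (by simp [mem_window]), ← sum_filter]
    simp only [Int.cast_sub, Int.cast_mul, Int.cast_natCast]
    rw [Nat.cast_sum]
    simp only [Nat.cast_sum (range _), Nat.cast_mul]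
    rfl
  obtain ⟨acc, hacc, hacc'⟩ := ZL.eq (j := 3)
    (E := fun z : ((α × ℕ) × ℕ) × ℕ => T z.1.1 < z.2 ∧ z.2.Prime) (by fun_prop)
    (hXL.weak fun _ h => h.2) (ZL.mul (ZL.two_pow (k := fun z => z.1.2) (by fun_prop)
      (by fun_prop)) (hfL.re (fun z : ((α × ℕ) × ℕ) × ℕ => (z.1.1, z.2)) (by fun_prop)
        fun _ h => h))
  -- the properties of the candidate
  have hS : ∀ a, ∀ p ∈ window (T0 a) (hi a), p.Prime := fun a p hp => (mem_window.1 hp).2.2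
  have hcand : ∀ a i k, i < M a → X ((a, i), k) < 0 ∧
      -(2 * ((∏ p ∈ window (T0 a) (hi a), p : ℕ) : ℤ)) ≤ X ((a, i), k) ∧
      (-((∏ p ∈ window (T0 a) (hi a), p : ℕ) : ℤ) ≤ 2 ^ k * f a i →
        2 * (2 ^ k * f a i) < -((∏ p ∈ window (T0 a) (hi a), p : ℕ) : ℤ) →
          X ((a, i), k) = 2 ^ k * f a i) := by
    intro a i k hi'
    refine crt_candidate _ (hS a) _ (fun p => m ((a, i), p)) (fun p s => y ((((a, i), k), p), s))
      (u a) ?_ (fun p hp => ?_) _ (by rw [hX, hA'])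
    · refine lt_of_le_of_lt ?_ (hu' a)
      refine (sum_le_card_nsmul _ _ (m0 a) fun p hp => ?_).trans ?_
      · exact (hm1' (a, i) p (mem_window.1 hp).1).trans (hm0' a i hi')
      · exact Nat.mul_le_mul_right _ (card_window_le _ _)
    · refine fermat_residue (hS a p hp) (not_dvd_prod_erase (hS a) hp) _ ?_
      have h1 : ((g0 ((a, i), p) : ℕ) : ZMod p) = (f a i : ZMod p) :=
        hg' ((a, i), p) ⟨(hT0' a i hi').trans_lt (mem_window.1 hp).2.1, hS a p hp⟩ (hS a p hp).pos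
      have h2 : ∀ s, ((y ((((a, i), k), p), s) : ℕ) : ZMod p) =
          2 ^ k * ((g ((a, i), p) s : ℕ) : ZMod p) *
            ((∏ q ∈ (window (T0 a) (hi a)).erase p, q : ℕ) : ZMod p) ^ (p - 2) :=
        fun s => hy' ((((a, i), k), p), s) (hS a p hp) (hS a p hp).pos
      rw [hg0, Nat.cast_sum] at h1
      rw [Nat.cast_sum, sum_congr rfl fun s _ => h2 s, ← sum_mul, ← mul_sum, h1]
      push_cast
      rfl
  -- the count
  obtain ⟨θ, hθ, hθ'⟩ : ∃ θ : α → ℕ, LF 0 θ ∧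
      ∀ a, θ a = M a * ((hi a * hi a + 1) * (hi a * hi a + V0 a + 2)) :=
    ⟨_, by fun_prop, fun _ => rfl⟩
  obtain ⟨H, hH, hH'⟩ : ∃ H : α → ℕ, LF 0 H ∧ ∀ a, 2 * (T0 a + (θ a + 1) + 2) ^ 2 < H a :=
    ⟨fun a => 2 * (T0 a + (θ a + 1) + 2) ^ 2 + 1, by fun_prop, fun a => Nat.lt_succ_self _⟩
  have hcnt : LS 3 (fun a => ∑ i ∈ range (M a), ∑ k ∈ range (hi a * hi a + 1),
      ∑ q ∈ range (H a), if (T0 a < q ∧ q.Prime) ∧ acc (((a, i), k), q) then 1 else 0) := by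
    refine LS.sum_range (LS.sum_range (m := fun x : α × ℕ => hi x.1 * hi x.1 + 1)
      (f := fun x k => ∑ q ∈ range (H x.1),
        if (T0 x.1 < q ∧ q.Prime) ∧ acc ((x, k), q) then 1 else 0)
      (LS.sum_range (m := fun x : (α × ℕ) × ℕ => H x.1.1)
        (f := fun x q => if (T0 x.1.1 < q ∧ q.Prime) ∧ acc (x, q) then 1 else 0)
        (LF.toLS (LF.ite (LP.and ((hwin.mono (by omega)).comp
          (f := fun z : ((α × ℕ) × ℕ) × ℕ => (z.1.1.1, z.2)) (by fun_prop)) hacc) (by fun_prop)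
          (by fun_prop))) (by fun_prop (disch := omega))) (by fun_prop (disch := omega))) hM.up
  have hinner : ∀ a i k, (∑ q ∈ range (H a),
      if (T0 a < q ∧ q.Prime) ∧ acc (((a, i), k), q) then 1 else 0) =
      ((window (T0 a) (H a)).filter fun q => acc (((a, i), k), q)).card := by
    intro a i k
    rw [window, filter_filter, card_filter]
  have hacc2 : ∀ a i k, i < M a → ∀ q ∈ window (T0 a) (H a),
      (acc (((a, i), k), q) ↔ (q : ℤ) ∣ X ((a, i), k) - 2 ^ k * f a i) := by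
    intro a i k hi' q hq
    obtain ⟨-, h1, h2⟩ := mem_window.1 hq
    rw [hacc' (((a, i), k), q) ⟨(hT0' a i hi').trans_lt h1, h2⟩ h2.pos,
      ← ZMod.intCast_zmod_eq_zero_iff_dvd, Int.cast_sub, sub_eq_zero]
    push_cast
    rfl
  have hMo : ∀ a, ∏ p ∈ window (T0 a) (hi a), p ≤ 2 ^ (hi a * hi a) :=
    fun a => prod_window_le _ _
  refine (CP_lt hcnt hθ.up).congr fun a => ?_
  simp only [hinner]
  constructor
  · intro h
    by_contra hcon
    push Not at hcon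
    refine absurd h (not_lt.2 ?_)
    rw [hθ']
    refine (sum_le_card_nsmul _ _ ((hi a * hi a + 1) * (hi a * hi a + V0 a + 2))
      fun i hi' => ?_).trans (by simp)
    refine (sum_le_card_nsmul _ _ (hi a * hi a + V0 a + 2) fun k hk => ?_).trans (by simp)
    have hi2 := mem_range.1 hi'
    have hk2 := mem_range.1 hk
    obtain ⟨h1, h2, -⟩ := hcand a i k hi2
    have h3 := hcon i hi2
    have h4 : 0 ≤ 2 ^ k * f a i := by positivity
    refine card_le_of_dvd (Δ := X ((a, i), k) - 2 ^ k * f a i)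
      (fun q hq => (mem_window.1 (mem_filter.1 hq).1).2.2) (by omega)
      (fun q hq => (hacc2 a i k hi2 q (mem_filter.1 hq).1).1 (mem_filter.1 hq).2) ?_
    have h5 : ((∏ p ∈ window (T0 a) (hi a), p : ℕ) : ℤ) ≤ 2 ^ (hi a * hi a) := by
      exact_mod_cast hMo a
    have h6 : f a i ≤ 2 ^ V0 a := by
      have h7 := (hfV a i).trans (Nat.pow_le_pow_right (by omega) (hV0' a i hi2))
      have h8 : ((f a i).natAbs : ℤ) ≤ 2 ^ V0 a := by exact_mod_cast h7
      omega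
    have h7 : (2 : ℤ) ^ k ≤ 2 ^ (hi a * hi a) := pow_le_pow_right₀ (by norm_num) (by omega)
    have h8 : 2 ^ k * f a i ≤ 2 ^ (hi a * hi a) * 2 ^ V0 a :=
      mul_le_mul h7 h6 h3 (by positivity)
    have h9 : (1 : ℤ) ≤ 2 ^ V0 a := one_le_pow₀ (by norm_num)
    have h10 : (0 : ℤ) < 2 ^ (hi a * hi a) := by positivity
    zify
    rw [abs_of_neg (by omega), pow_add, pow_add]
    nlinarith
  · rintro ⟨i, hi2, hneg⟩
    have h1 : 2 ^ V0 a ≤ ∏ p ∈ window (T0 a) (hi a), p :=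
      two_pow_le_prod_window _ _ _ (hhi' a)
    have h2 := ((hfV a i).trans (Nat.pow_le_pow_right (by omega) (hV0' a i hi2))).trans h1
    obtain ⟨k, hk, h3, h4⟩ := exists_scale (M := ((∏ p ∈ window (T0 a) (hi a), p : ℕ) : ℤ))
      (K := hi a * hi a) hneg (by omega) (by exact_mod_cast hMo a)
    have h5 := (hcand a i k hi2).2.2 h3 h4
    have h6 : (window (T0 a) (H a)).filter (fun q => acc (((a, i), k), q)) =
        window (T0 a) (H a) :=
      filter_true_of_mem fun q hq => (hacc2 a i k hi2 q hq).2 (by rw [h5, sub_self]; simp)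
    refine lt_of_lt_of_le (le_card_window _ _ _ (hH' a)) ?_
    refine le_trans ?_ (single_le_sum (f := fun i => ∑ k ∈ range (hi a * hi a + 1),
      ((window (T0 a) (H a)).filter fun q => acc (((a, i), k), q)).card)
      (fun _ _ => Nat.zero_le _) (mem_range.2 hi2))
    refine le_trans ?_ (single_le_sum (f := fun k =>
      ((window (T0 a) (H a)).filter fun q => acc (((a, i), k), q)).card)
      (fun _ _ => Nat.zero_le _) (mem_range.2 hk))
    simp only [h6, le_refl]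

end Vale.Agent.N47
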