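import Vale.Agent.N47.Lev
import Vale.Agent.N47.Sign
import Vale.Agent.P337.CH.CoreCH
import Vale.Agent.P337.Parse
import Vale.Agent.P337T.Final

/-!
The existential theory of the reals lies in the fourth level of the counting hierarchy.
-/

namespace Vale.Agent.N47

open Vale.Agent.Lib.PolyTime Vale.Agent.P337 Finset MvPolynomial

variable {α β : Type*} [Enc α] [Enc β]

/-- Predicates which say that one of exponentially many huge integers is negative, the residues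
of these integers being sums of terms of level `2`. -/
def NG (q : α → Prop) : Prop :=
  ∃ (f : α → ℕ → ℤ) (M : α → ℕ) (T V : α × ℕ → ℕ), LF 0 M ∧ CHF T ∧ CHF V ∧
    (∀ a i, (f a i).natAbs ≤ 2 ^ V (a, i)) ∧
    ZS 2 (fun y : (α × ℕ) × ℕ => T y.1 < y.2 ∧ y.2.Prime) (fun y => y.2)
      (fun y => (f y.1.1 y.1.2 : ZMod y.2)) ∧ ∀ a, q a ↔ ∃ i, i < M a ∧ f a i < 0

protected theorem NG.toCP {q : α → Prop} (h : NG q) : CP 4 q := by
  obtain ⟨f, M, T, V, hM, hT, hV, h1, h2, h3⟩ := h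
  exact (CP_exists_neg hM hT hV h1 h2).congr fun a => (h3 a).symm

protected theorem NG.congr {q q' : α → Prop} (h : NG q) (h' : ∀ a, q a ↔ q' a) : NG q' := by
  have : q = q' := funext fun a => propext (h' a)
  rwa [← this]

protected theorem NG.comp {q : α → Prop} (h : NG q) {u : β → α} (hu : LF 0 u) :
    NG (fun b => q (u b)) := by
  obtain ⟨f, M, T, V, hM, hT, hV, h1, h2, h3⟩ := h
  exact ⟨fun b => f (u b), fun b => M (u b), fun x => T (u x.1, x.2), fun x => V (u x.1, x.2),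
    by fun_prop, by fun_prop, by fun_prop, fun b i => h1 _ _,
    h2.re (fun y : (β × ℕ) × ℕ => ((u y.1.1, y.1.2), y.2)) (LF.up (by fun_prop)) fun _ h => h,
    fun b => h3 _⟩

protected theorem NG.and {c q : α → Prop} (hc : LP 0 c) (h : NG q) : NG (fun a => c a ∧ q a) := by
  classical
  obtain ⟨f, M, T, V, hM, hT, hV, h1, h2, h3⟩ := h
  refine ⟨fun a i => if c a then f a i else 0, M, T, V, hM, hT, hV, fun a i => ?_,
    (ZS.ite (q := fun y : (α × ℕ) × ℕ => c y.1.1) (inst := fun _ => inferInstance)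
      (LP.up (by fun_prop)) (h2.weak fun _ h => h.1) ZL.zero.toZS).congr' fun y _ => ?_,
    fun a => ?_⟩
  · dsimp only
    split_ifs
    · exact h1 a i
    · simp
  · dsimp only
    split_ifs <;> simp
  · by_cases hca : c a
    · simp only [hca, true_and, if_true, h3]
    · simp [hca]

protected theorem NG.exists_lt {q : α → ℕ → Prop} {m : α → ℕ} (hm : LF 0 m)
    (h : NG (fun x : α × ℕ => q x.1 x.2)) : NG (fun a => ∃ s, s < m a ∧ q a s) := by
  obtain ⟨f, M, T, V, hM, hT, hV, h1, h2, h3⟩ := h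
  obtain ⟨W, hW, hW'⟩ := bound0_lt (f := fun a s => M (a, s)) hM.toCHF hm.toCHF
  refine ⟨fun a i => if i % W a < M (a, i / W a) then f (a, i / W a) (i % W a) else 0,
    fun a => m a * W a, fun x => T ((x.1, x.2 / W x.1), x.2 % W x.1),
    fun x => V ((x.1, x.2 / W x.1), x.2 % W x.1), by fun_prop, by fun_prop, by fun_prop,
    fun a i => ?_, (ZS.ite (q := fun y : (α × ℕ) × ℕ =>
      y.1.2 % W y.1.1 < M (y.1.1, y.1.2 / W y.1.1)) (inst := fun _ => inferInstance)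
      (LP.up (by fun_prop)) (h2.re (fun y : (α × ℕ) × ℕ =>
        (((y.1.1, y.1.2 / W y.1.1), y.1.2 % W y.1.1), y.2)) (LF.up (by fun_prop)) fun _ h => h.1)
      ZL.zero.toZS).congr' fun y _ => ?_, fun a => ⟨?_, ?_⟩⟩
  · dsimp only
    split_ifs
    · exact h1 _ _
    · simp
  · dsimp only
    split_ifs <;> simp
  · rintro ⟨s, hs, hq⟩
    obtain ⟨i, hi, hf⟩ := (h3 (a, s)).1 hq
    have hiW : i < W a := hi.trans_le (hW' a s hs)
    have e1 : (i + W a * s) % W a = i := by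
      rw [Nat.add_mul_mod_self_left, Nat.mod_eq_of_lt hiW]
    have e2 : (i + W a * s) / W a = s := by
      rw [Nat.add_mul_div_left _ _ (by omega), Nat.div_eq_of_lt hiW, zero_add]
    refine ⟨i + W a * s, ?_, ?_⟩
    · calc i + W a * s < W a * (s + 1) := by rw [mul_add]; omega
        _ ≤ m a * W a := by rw [mul_comm]; exact Nat.mul_le_mul_right _ hs
    · dsimp only
      rwa [e1, e2, if_pos hi]
  · rintro ⟨i, hi, hf⟩
    dsimp only at hi hf
    split_ifs at hf with hc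
    · exact ⟨i / W a, Nat.div_lt_of_lt_mul (by rwa [mul_comm]), (h3 (a, _)).2 ⟨_, hc, hf⟩⟩
    · exact absurd hf (lt_irrefl 0)

theorem G4_congr {S : Type*} [CommRing S] (B m D : ℕ) {f g : ℕ → ℕ} (u : ℕ → S) (h : S)
    (hfg : ∀ k < 3 * m + 3, f k = g k) : G4 B m D f u h = G4 B m D g u h := by
  unfold G4
  rw [G3_congr B m u h (fun i hi => hfg _ (by omega)) (fun i hi => hfg _ (by omega))
    (fun i hi => hfg _ (by omega)), hfg _ (by omega)]

/-- The test integers for given parameters. -/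
theorem NG_test {n e K1 K3 d J0 b β B m J : α → ℕ} (hn : LF 0 n) (hnb : PBd n) (he : LF 0 e)
    (hK1 : CHF K1) (hK3 : LF 0 K3) (hd : CHF d) (hJ0 : LF 0 J0) (hb : LF 0 b) (hβ : LF 0 β)
    (hB : LF 0 B) (hm : LF 0 m) (hmb : PBd m) (hJ : LF 0 J)
    {r : (a : α) → Fin (n a) → MvPolynomial (Fin (n a)) ℤ}
    {h : (a : α) → MvPolynomial (Fin (n a)) ℤ}
    (hr : MR1 (R := fun a => MvPolynomial (Fin (n a)) ℤ) fun a => ext (r a))
    (hh : MR0 (R := fun a => MvPolynomial (Fin (n a)) ℤ) h)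
    (hr' : AM (fun x : α × ℕ => x.2 < n x.1) (fun x => n x.1) (fun x => ext (r x.1) x.2))
    (hh' : AM (fun _ => True) n h) (hdr : ∀ a i, Dg ((e a : ℤ) - 1) (r a i))
    (he1 : ∀ a, 1 ≤ e a) (hK1' : ∀ a, e a ^ n a ≤ K1 a) (hd1 : ∀ a, e a ^ n a ≤ d a)
    (hd2 : ∀ a, (h a).totalDegree ≤ d a) :
    NG (fun a => ∃ N < J a ^ (3 * m a + 3), EE (e a) (K3 a) (r a) (G4 (B a) (m a) (e a ^ n a)
      (fun k => N / J a ^ k % J a) (UC (e a) (K1 a) (r a) (J0 a) (b a) (β a)) (h a))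
        (e a ^ n a) < 0) := by
  have hD : LF 0 (fun a => e a ^ n a) := by fun_prop
  obtain ⟨V, hV, hV'⟩ := (MR_EE (D := fun _ (_ : ℕ) => True) hn.toCHF hnb he.toCHF hK3.toCHF hr
    (MR_G4 hB.toCHF hm.toCHF hD.toCHF
      (f := fun a N k => (digs (J a) (3 * m a + 3) N).getD k 0) (by fun_prop)
      (MR_UC hn.toCHF hnb he.toCHF hK1 hr hJ0.toCHF hb.toCHF hβ.toCHF) hh)
    (k := fun a _ => e a ^ n a) (by fun_prop)).toMC.gro
  obtain ⟨T, hT, hT1, hT2, hT3⟩ : ∃ T : α → ℕ, CHF T ∧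
      (∀ a, e a ^ n a * (4 * e a ^ n a) + (n a + 1) * (e a * (e a ^ n a * (4 * e a ^ n a) + 1)) +
        e a ^ n a * e a ^ n a + e a ^ n a + 1 ≤ T a) ∧
      (∀ a, (m a + 2) * e a ^ n a + 1 ≤ T a) ∧ ∀ a, e a ^ n a * (4 * d a) +
        (n a + 1) * (e a * (K3 a + 1)) + e a ^ n a * e a ^ n a + e a ^ n a + 1 ≤ T a :=
    ⟨fun a => (e a ^ n a * (4 * e a ^ n a) +
      (n a + 1) * (e a * (e a ^ n a * (4 * e a ^ n a) + 1)) +
        e a ^ n a * e a ^ n a + e a ^ n a + 1) + ((m a + 2) * e a ^ n a + 1) +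
        (e a ^ n a * (4 * d a) + (n a + 1) * (e a * (K3 a + 1)) + e a ^ n a * e a ^ n a +
          e a ^ n a + 1), by fun_prop, fun a => by dsimp only; omega,
      fun a => by dsimp only; omega, fun a => by dsimp only; omega⟩
  refine ⟨fun a N => EE (e a) (K3 a) (r a) (G4 (B a) (m a) (e a ^ n a)
      (fun k => (digs (J a) (3 * m a + 3) N).getD k 0)
      (UC (e a) (K1 a) (r a) (J0 a) (b a) (β a)) (h a)) (e a ^ n a),
    fun a => J a ^ (3 * m a + 3), fun x => T x.1, V, by fun_prop, by fun_prop, hV,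
    fun a i => hV' a i trivial, ?_, fun a => exists_congr fun N => and_congr_right fun _ => ?_⟩
  · have hU := PW_UT (γ := ((α × ℕ) × ℕ) × ℕ)
      (E := fun z => T z.1.1.1 < z.1.2 ∧ z.1.2.Prime) (p := fun z => z.1.2)
      (n := fun z => n z.1.1.1) (e := fun z => e z.1.1.1) (K := fun z => K1 z.1.1.1)
      (r := fun z => r z.1.1.1) (by fun_prop) (by fun_prop) (by fun_prop) (by fun_prop)
      (hr'.re (fun w : (((α × ℕ) × ℕ) × ℕ) × ℕ => (w.1.1.1.1, w.2)) (by fun_prop) fun _ h => h)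
      (fun z _ => hdr _) (i := fun z => z.2 % J0 z.1.1.1)
      (B := fun z => 4 * e z.1.1.1 ^ n z.1.1.1) (by fun_prop)
      (a := fun z => 2 ^ (z.2 / J0 z.1.1.1 % J0 z.1.1.1))
      (b := fun z => (((z.2 / J0 z.1.1.1 / J0 z.1.1.1 : ℕ) : ℤ) - (b z.1.1.1 : ℤ)) *
        2 ^ β z.1.1.1) ((RM.intCast (LF.const 2)).pow (by fun_prop))
      (((RM.natCast (by fun_prop)).sub (RM.natCast (by fun_prop))).mul
        ((RM.intCast (LF.const 2)).pow (by fun_prop)))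
      fun z hz => ⟨hz.2, he1 _, hK1' _, (hT1 _).trans_lt hz.1⟩
    have hU' : PW 1 (fun w : (((α × ℕ) × ℕ) × List ℕ) × ℕ => T w.1.1.1.1 < w.1.1.2 ∧ w.1.1.2.Prime)
        (fun w => w.1.1.2) (fun w => 4 * e w.1.1.1.1 ^ n w.1.1.1.1)
        (fun w => vl (n w.1.1.1.1) w.1.1.2 w.1.2 (UC (e w.1.1.1.1) (K1 w.1.1.1.1) (r w.1.1.1.1)
          (J0 w.1.1.1.1) (b w.1.1.1.1) (β w.1.1.1.1) w.2)) :=
      hU.re (fun w : (((α × ℕ) × ℕ) × List ℕ) × ℕ => ((w.1.1, w.2), w.1.2)) (LF.up (by fun_prop))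
        fun _ h => ⟨h, le_rfl⟩
    have hG := PW_G4 (γ := ((α × ℕ) × ℕ) × List ℕ)
      (E := fun y => T y.1.1.1 < y.1.2 ∧ y.1.2.Prime) (p := fun y => y.1.2) (by fun_prop)
      (B := fun y => B y.1.1.1) (m := fun y => m y.1.1.1) (D := fun y => e y.1.1.1 ^ n y.1.1.1)
      (Bd := fun y => e y.1.1.1 ^ n y.1.1.1) (by fun_prop) (by fun_prop) (by fun_prop)
      (by fun_prop) (f := fun y k => (digs (J y.1.1.1) (3 * m y.1.1.1 + 3) y.1.1.2).getD k 0)
      (by fun_prop) (u := fun y τ => vl (n y.1.1.1) y.1.2 y.2 (UC (e y.1.1.1) (K1 y.1.1.1)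
        (r y.1.1.1) (J0 y.1.1.1) (b y.1.1.1) (β y.1.1.1) τ))
      (h := fun y => vl (n y.1.1.1) y.1.2 y.2 (h y.1.1.1))
      (fun y hy => ⟨hy.2, (hT2 _).trans_lt hy.1⟩) hU'
      (hh'.at (by fun_prop) (by fun_prop) (fun y : ((α × ℕ) × ℕ) × List ℕ => y.1.1.1)
        (by fun_prop) fun _ _ => trivial)
    refine ZS_EE (j := 1) (γ := (α × ℕ) × ℕ) (n := fun y => n y.1.1) (e := fun y => e y.1.1)
      (K := fun y => K3 y.1.1) (r := fun y => r y.1.1) (by fun_prop) (by fun_prop) (by fun_prop)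
      (by fun_prop) (by fun_prop)
      (hr'.re (fun w : ((α × ℕ) × ℕ) × ℕ => (w.1.1.1, w.2)) (by fun_prop) fun _ h => h)
      (fun y _ => hdr _) (d := fun y => 4 * d y.1.1) (fun y _ => ?_)
      (fun y hy => ⟨hy.2, (hT3 _).trans_lt hy.1⟩) (hG.congr' fun y _ => (map_G4 _ _ _ _ _ _ _).symm)
    exact (dg_G4 _ _ _ _ (fun τ => (dg_UT _ _ _ _ _ _).mono (by exact_mod_cast hd1 _))
      (dg_iff.2 (hd2 _))).totalDegree_le
  · dsimp only
    rw [G4_congr _ _ _ _ _ fun k hk => getD_digs (J a) (3 * m a + 3) N hk]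

theorem abs_le_two_pow {u v : ℕ} {z : ℤ} (h1 : u ≤ v) (h2 : z.natAbs ≤ 2 ^ u) :
    |z| ≤ ((2 ^ v : ℕ) : ℤ) :=
  abs_le_of_natAbs_le (h2.trans (Nat.pow_le_pow_right (by omega) h1))

theorem exists_EE_bound {n e K N : α → ℕ} (hn : CHF n) (hnb : PBd n) (he : CHF e) (hK : CHF K)
    (hN : CHF N) {r : (a : α) → Fin (n a) → MvPolynomial (Fin (n a)) ℤ}
    (hr : MR1 (R := fun a => MvPolynomial (Fin (n a)) ℤ) fun a => ext (r a))
    {g : (a : α) → ℕ → MvPolynomial (Fin (n a)) ℤ}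
    (hg : MR1 (R := fun a => MvPolynomial (Fin (n a)) ℤ) g) : ∃ V : α → ℕ, CHF V ∧
      ∀ a, ∀ i ≤ N a, ∀ k ≤ e a ^ n a, (EE (e a) (K a) (r a) (g a i) k).natAbs ≤ 2 ^ V a := by
  have h3 : MC (fun a (x : ℕ × ℕ) => x.1 ≤ N a ∧ x.2 ≤ e a ^ n a)
      (fun a x => EE (e a) (K a) (r a) (g a x.1) x.2) :=
    (MR_EE hn hnb he hK hr (hg.at (by fun_prop)) (by fun_prop)).toMC
  obtain ⟨V, hV, hV'⟩ := h3.exists_bound
    (k := fun a => 2 * esize (N a) + esize (e a ^ n a) + 1) (by fun_prop) fun a x hx => by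
      have h2 := esize_nat_mono hx.1
      have h3 := esize_nat_mono hx.2
      have h4 := esize_pair x.1 x.2
      change esize (x.1, x.2) ≤ _
      omega
  exact ⟨V, hV, fun a i hi k hk => hV' a (i, k) ⟨hi, hk⟩⟩

/-- The real root test. -/
theorem NG_roots {n e d K0 : α → ℕ} (hn : LF 0 n) (hnb : PBd n) (he : LF 0 e) (hd : LF 0 d)
    {r : (a : α) → Fin (n a) → MvPolynomial (Fin (n a)) ℤ}
    {h : (a : α) → MvPolynomial (Fin (n a)) ℤ}
    (hr : MR1 (R := fun a => MvPolynomial (Fin (n a)) ℤ) fun a => ext (r a))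
    (hh : MR0 (R := fun a => MvPolynomial (Fin (n a)) ℤ) h)
    (hr' : AM (fun x : α × ℕ => x.2 < n x.1) (fun x => n x.1) (fun x => ext (r x.1) x.2))
    (hh' : AM (fun _ => True) n h) (hdr : ∀ a i, Dg ((e a : ℤ) - 1) (r a i))
    (he1 : ∀ a, 1 ≤ e a) (hd1 : ∀ a, e a ^ n a ≤ d a) (hd2 : ∀ a, (h a).totalDegree ≤ d a)
    (hK0 : ∀ a, e a ^ n a * (jac (e a) (r a)).totalDegree ≤ K0 a)
    (hjac : ∀ a, EE (e a) (K0 a) (r a) (jac (e a) (r a)) (e a ^ n a) ≠ 0) :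
    NG (fun a => ∃ x : Fin (n a) → ℝ, (∀ i, aeval x (sys (e a) (r a) i) = 0) ∧
      0 < aeval x (h a)) := by
  obtain ⟨D, hD0, hD'⟩ : ∃ D : α → ℕ, LF 0 D ∧ ∀ a, D a = e a ^ n a :=
    ⟨_, he.pow hn hnb, fun _ => rfl⟩
  have hn' := hn.toCHF
  have he' := he.toCHF
  have hD := hD0.toCHF
  have hK2 : CHF (fun a => D a * d a) := by fun_prop
  obtain ⟨V0, hV0, hV0'⟩ := exists_coeff_bound (MR_sepT hn' hnb he' hD hK2 hr) hn'
  obtain ⟨W0, hW0, hW0'⟩ := bound0 hV0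
  obtain ⟨lam, hlam, hlamb, hlam'⟩ : ∃ lam : α → ℕ, LF 0 lam ∧ PBd lam ∧
      ∀ a, 128 * (D a + 1) ^ 4 ≤ 2 ^ lam a :=
    ⟨fun a => (128 * (D a + 1) ^ 4).size, by fun_prop, by fun_prop,
      fun a => (Nat.lt_size_self _).le⟩
  obtain ⟨b, hb, hb'⟩ : ∃ b : α → ℕ, LF 0 b ∧ ∀ a, (D a + 1) * 2 ^ (lam a + 1) + 1 ≤ b a :=
    ⟨fun a => (D a + 1) * 2 ^ (lam a + 1) + 1, by fun_prop, fun _ => le_rfl⟩
  obtain ⟨J0, hJ0, hJ1, hJ2, hJ3⟩ : ∃ J0 : α → ℕ, LF 0 J0 ∧ (∀ a, n a < J0 a) ∧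
      (∀ a, 2 * (W0 a + 1) + lam a + 1 < J0 a) ∧ ∀ a, 2 * b a < J0 a :=
    ⟨fun a => n a + (2 * (W0 a + 1) + lam a + 1) + 2 * b a + 1, by fun_prop,
      fun a => by dsimp only; omega, fun a => by dsimp only; omega, fun a => by dsimp only; omega⟩
  have hβ : LF 0 (fun a => W0 a + 1) := by fun_prop
  obtain ⟨V3, hV3, hV3'⟩ := exists_EE_bound (N := fun a => J0 a ^ 3) hn' hnb he' hK2 (by fun_prop)
    hr (MR_UC hn' hnb he' hD hr hJ0.toCHF hb.toCHF hβ.toCHF)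
  obtain ⟨V4, hV4, hV4'⟩ := exists_EE_bound (N := fun _ => 0) hn' hnb he' hK2 (by fun_prop)
    hr (g := fun a _ => h a) hh.inst
  obtain ⟨W3, hW3, hW3'⟩ := bound0 (hV3.add hV4)
  obtain ⟨m, hm, hmb, hm'⟩ : ∃ m : α → ℕ, LF 0 m ∧ PBd m ∧ ∀ a, D a < 2 ^ m a :=
    ⟨fun a => (D a).size, by fun_prop, by fun_prop, fun a => Nat.lt_size_self _⟩
  obtain ⟨T, hT, hTb, hT'⟩ : ∃ T : α → ℕ, LF 0 T ∧ PBd T ∧
      ∀ a, 32 * (D a + 1) ^ 3 * (m a + 3) ≤ 2 ^ T a :=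
    ⟨fun a => (32 * (D a + 1) ^ 3 * (m a + 3)).size, by fun_prop, by fun_prop,
      fun a => (Nat.lt_size_self _).le⟩
  obtain ⟨J, hJ, hJ'⟩ : ∃ J : α → ℕ, LF 0 J ∧ ∀ a,
      J0 a ^ 3 + (2 * (2 * W3 a + 2) + T a) + 2 ^ (T a + 1) + D a < J a :=
    ⟨fun a => J0 a ^ 3 + (2 * (2 * W3 a + 2) + T a) + 2 ^ (T a + 1) + D a + 1, by fun_prop,
      fun a => Nat.lt_succ_self _⟩
  refine (NG_test (K3 := fun a => D a * (4 * d a)) (B := fun a => 2 * W3 a + 2) hn hnb he hD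
    (by fun_prop) hd.toCHF hJ0 hb hβ (by fun_prop) hm hmb hJ hr hh hr' hh' hdr he1
    (fun a => (hD' a).ge) hd1 hd2).congr fun a => ?_
  have g3 := hW3' a
  have g4 := hJ' a
  have g5 : 0 < 2 ^ (T a + 1) := Nat.two_pow_pos _
  refine (stepD4_int (M0 := 2 ^ W0 a) (M := 2 ^ W3 a) (K2 := D a * d a) (lam := lam a) (T := T a)
    (he1 a) (hdr a) (h a) (hd2 a) (hd1 a) (hK0 a) (hjac a) (hD' a).ge (by rw [hD']) (by rw [hD'])
    (fun i hi j => abs_le_two_pow (hW0' a) (hV0' a i hi.le j)) ?_ (hD' a ▸ hlam' a)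
    (hD' a ▸ hb' a) (hJ1 a) (hJ2 a) (hJ3 a)
    (fun τ hτ k hk => abs_le_two_pow (by omega) (hV3' a τ hτ.le k hk))
    (fun k hk => abs_le_two_pow (by omega) (hV4' a 0 le_rfl k hk)) ?_ (hD' a ▸ hm' a)
    (hD' a ▸ hT' a) (by omega) (by omega) (by omega) (by rw [← hD']; omega)).symm
  · have h5 : 1 ≤ 2 ^ W0 a := Nat.one_le_two_pow
    rw [pow_succ]
    omega
  · have h5 : 1 ≤ 2 ^ W3 a := Nat.one_le_two_pow
    have h6 : 2 ^ (2 * W3 a + 2) = 4 * (2 ^ W3 a * 2 ^ W3 a) := by ring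
    rw [h6]
    nlinarith

theorem core_NG {n s : α → ℕ} (hn : LF 0 n) (hnb : PBd n) (hs : LF 0 s)
    {Q : (a : α) → MvPolynomial (Fin (n a)) ℤ}
    (hQ : MR0 (R := fun a => MvPolynomial (Fin (n a)) ℤ) Q) (hQ' : AM (fun _ => True) n Q)
    (hdeg : ∀ a, (Q a).totalDegree ≤ s a) (hpos : ∀ a (x : Fin (n a) → ℝ), 0 ≤ aeval x (Q a)) :
    NG (fun a => ∃ x : Fin (n a) → ℝ, aeval x (Q a) = 0) := by
  obtain ⟨e, he0, heo, hes⟩ : ∃ e : α → ℕ, LF 0 e ∧ (∀ a, Odd (e a)) ∧ ∀ a, s a ≤ e a :=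
    ⟨fun a => 2 * s a + 1, by fun_prop, fun a => odd_two_mul_add_one _, fun a => by
      dsimp only
      omega⟩
  have hn' := hn.toCHF
  have he := he0.toCHF
  have hD0 : LF 0 (fun a => e a ^ n a) := by fun_prop
  have hD := hD0.toCHF
  have hQT : MR0 (R := fun a => MvPolynomial (Fin (n a)) (Polynomial ℤ))
      (fun a => map Polynomial.C (Q a)) := MR_map_int hQ fun _ => Polynomial.C
  have hX : MR0 (R := fun _ : α => Polynomial ℤ) (fun _ => Polynomial.X) :=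
    MR.polyX (R := fun _ => ℤ)
  have hrT := MR_rr hn' hnb hX hQT
  obtain ⟨V1, hV1, hV1'⟩ := exists_coeff_bound
    (F := fun a k => epsT (e a) (e a ^ n a * (e a + 1)) (Q a) k)
    (MR_EE hn' hnb he (by fun_prop) hrT (MR_hh hn' he hX hQT).inst (by fun_prop)) hD
  obtain ⟨V2, hV2, hV2'⟩ := exists_coeff_bound
    (F := fun a _ => delT (e a) (e a ^ n a * (n a * e a)) (Q a))
    (MR_EE hn' hnb he (by fun_prop) hrT (MR_jac hn' hnb he hrT).inst
      (k := fun a _ => e a ^ Fintype.card (Fin (n a))) (by simp only [Fintype.card_fin]; fun_prop))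
    (CHF.const 0)
  obtain ⟨W1, hW1, hW1'⟩ := bound0 (hV1.add hV2)
  obtain ⟨ρ, hρ⟩ : ∃ ρ : α → ℕ, ∀ a, ρ a = 2 ^ W1 a + 1 := ⟨_, fun _ => rfl⟩
  obtain ⟨t, ht⟩ : ∃ t : α → ℕ, ∀ a,
    t a = 2 ^ W1 a * (e a ^ n a + 1) * (2 * ρ a) ^ (e a ^ n a) + 1 := ⟨_, fun _ => rfl⟩
  have hM1 : MC (fun _ (_ : Unit) => True) (fun a _ => (2 : ℤ) ^ W1 a) :=
    (MC.const 2).pow (by fun_prop)
  have hρ' : MC (fun _ (_ : Unit) => True) (fun a _ => (ρ a : ℤ)) :=
    (hM1.add (MC.const 1)).congr' fun a _ _ => by rw [hρ]; push_cast; rfl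
  have ht' : MC (fun _ (_ : Unit) => True) (fun a _ => (t a : ℤ)) :=
    (((hM1.mul (MC.natCast (h := fun a _ => e a ^ n a + 1) (by fun_prop))).mul
      (((MC.const 2).mul hρ').pow (k := fun a _ => e a ^ n a) (by fun_prop))).add
      (MC.const 1)).congr' fun a _ _ => by rw [ht]; push_cast; rfl
  have gM1 : RM (fun _ => True) (fun a => (2 : ℤ) ^ W1 a) := (RM.intCast (LF.const 2)).pow hW1
  have gρ : RM (fun _ => True) (fun a => (ρ a : ℤ)) :=
    (gM1.add (RM.intCast (LF.const 1))).congr' fun a _ => by rw [hρ]; push_cast; rfl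
  have gt : RM (fun _ => True) (fun a => (t a : ℤ)) :=
    (((gM1.mul (RM.natCast (k := fun a => e a ^ n a + 1) (by fun_prop))).mul
      (((RM.intCast (LF.const 2)).mul gρ).pow hD0)).add
      (RM.intCast (LF.const 1))).congr' fun a _ => by rw [ht]; push_cast; rfl
  have hP : ∀ a, Dg (e a) (Q a) := fun a => dg_iff.2 ((hdeg a).trans (hes a))
  have hdr := fun a => dg_rr (heo a).pos (hP a) (t a : ℤ)
  have hc := fun a => core4 (M1 := 2 ^ W1 a) (heo a) ((hdeg a).trans (hes a)) (hpos a) le_rfl le_rfl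
    (fun k hk j => abs_le_two_pow (by have := hW1' a; omega) (hV1' a k hk j))
    (fun j => abs_le_two_pow (by have := hW1' a; omega) (hV2' a 0 le_rfl j)) (hρ a).ge (ht a).ge
  have hr := MR_rr (R := fun _ => ℤ) hn' hnb ht'.toMR hQ
  have hh0 : MR0 (R := fun a => MvPolynomial (Fin (n a)) ℤ)
      (fun a => hzero (e a) (ρ a : ℤ) (t a : ℤ) (Q a)) :=
    MR.sub (MR.mvC hρ'.toMR) (MR_hh hn' he ht'.toMR hQ)
  have gh0 : AM (fun _ => True) n (fun a => hzero (e a) (ρ a : ℤ) (t a : ℤ) (Q a)) :=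
    (AM.C gρ).sub (AM_hh hn hnb he0 gt hQ')
  have hd : ∀ a, (hzero (e a) (ρ a : ℤ) (t a : ℤ) (Q a)).totalDegree ≤ e a ^ n a + (e a + 1) :=
    fun a => dg_iff.1 (((Dg.C _).mono (Int.natCast_nonneg _)).sub
      ((dg_hh (hP a) _).mono (by exact_mod_cast Nat.le_add_left _ _)))
  have hK0 : ∀ a, e a ^ n a * (jac (e a) (rr (t a : ℤ) (Q a))).totalDegree ≤
      e a ^ n a * (n a * e a) := fun a =>
    Nat.mul_le_mul_left _ ((totalDegree_jac_le (hdr a)).trans (by rw [Fintype.card_fin]))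
  have gr := AM_rr hn hnb gt hQ'
  have h1 := NG_roots (d := fun a => e a ^ n a + (e a + 1)) (r := fun a => rr (t a : ℤ) (Q a))
    hn hnb he0 (by fun_prop) hr hh0 gr gh0 hdr (fun a => (heo a).pos)
    (fun a => Nat.le_add_right _ _) hd hK0 fun a => (hc a).1
  exact h1.congr fun a => (hc a).2.symm

theorem NG_signFeas : NG SignFeas :=
  (core_NG (by unfold nA; fun_prop) PBd_nA (by unfold sA; fun_prop) MR_polyA AM_polyA
    totalDegree_polyA_le aeval_polyA_nonneg).congr fun a => (signFeas_iff_polyA a).symm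

theorem LF_run : LF 0 run := by
  refine LF.foldr (l := fun l : List (Tok × ℕ) => l) (init := fun _ => (true, []))
    (f := fun _ t s => step t s) LF.id (LF.const _) ?_
    (b := fun l => 3 * l.length + 3) (by fun_prop) fun l i => ?_
  · unfold step
    fun_prop
  · have h1 := length_foldr_step (l.drop i)
    have h2 := esize_list_le (l := ((l.drop i).foldr step (true, [])).2) (B := 1)
      fun x _ => le_rfl
    rw [List.length_drop] at h1
    rw [show (l.drop i).foldr step (true, []) = (((l.drop i).foldr step (true, [])).1,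
      ((l.drop i).foldr step (true, [])).2) from rfl, esize_pair, esize_bool]
    omega

theorem NG_good : NG Good := by
  have h1 : LF 0 (fun I : Inst => I.2.all fun t => t.2.all fun m =>
      decide (m.2.length = I.1.v)) := by fun_prop
  have h2 : LP 0 (fun I : Inst => ∀ t ∈ I.2, WF I.1.v t.2) :=
    (LP.of_bool h1).congr fun I => by simp [WF]
  have h3 : LP 0 (fun x : Inst × ℕ =>
      run (x.1.2.zip (digs 3 x.1.2.length x.2)) = (true, [true])) :=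
    LP.eq (LF_run.comp (by fun_prop)) (LF.const _)
  have h4 : NG (fun x : Inst × ℕ =>
      SignFeas (x.1.1, x.1.2.map Prod.snd, digs 3 x.1.2.length x.2)) :=
    NG_signFeas.comp (u := fun x : Inst × ℕ =>
      (x.1.1, x.1.2.map Prod.snd, digs 3 x.1.2.length x.2)) (by fun_prop)
  refine (NG.and h2 (NG.exists_lt (m := fun I : Inst => 3 ^ I.2.length) (by fun_prop)
    (q := fun I s => run (I.2.zip (digs 3 I.2.length s)) = (true, [true]) ∧
      SignFeas (I.1, I.2.map Prod.snd, digs 3 I.2.length s)) (NG.and h3 h4))).congr fun I => ?_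
  rw [good_iff]
  refine and_congr_right fun _ => ⟨?_, ?_⟩
  · rintro ⟨s, -, h⟩
    refine ⟨_, length_digs _ _ _, fun x hx => ?_, h⟩
    obtain ⟨i, -, rfl⟩ := List.mem_map.1 hx
    exact Nat.mod_lt _ (by omega)
  · rintro ⟨σ, hl, hσ, h⟩
    obtain ⟨s, hs, rfl⟩ := exists_digs hl hσ
    exact ⟨s, hs, h⟩

theorem NG_ETR : NG (fun w : Raw => w.w ∈ P337.ETR) := by
  have hd : LF 0 (fun w : Raw => (dec w.w : Inst)) := LF.of_PT Dec.pt
  have h1 : LP 0 (fun w : Raw => Raw.mk (enc (dec w.w : Inst)) = w) :=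
    LP.eq (LF.of_PT (PT_toRaw Dec.pt)) LF.id
  rw [P337.ETR_eq]
  refine (NG.and h1 (NG_good.comp hd)).congr fun w => ⟨?_, ?_⟩
  · rintro ⟨h2, h3⟩
    exact ⟨_, (congrArg Raw.w h2).symm, h3⟩
  · rintro ⟨a, h2, h3⟩
    rw [h2, dec_enc]
    exact ⟨by rw [← h2], h3⟩

theorem existsR_subset_C4 : P337.ExistsR ⊆ Lib.PolyTime.C 4 := by
  rintro L ⟨f, hf, hL⟩
  have h1 : LF 0 (fun w : Raw => Raw.mk (f w.w)) :=
    LF.of_PT (PT_ofFP (polyTimeFun_iff.1 hf) PT.id)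
  exact mem_C_of_CP ((NG_ETR.comp h1).toCP.congr fun w => (hL w.w).symm)

theorem ETR_mem_C4 : P337.ETR ∈ Lib.PolyTime.C 4 := mem_C_of_CP NG_ETR.toCP

theorem tm_ETR_mem_C4 : P337T.ETR ∈ P337T.C 4 := by
  rw [P337T.ETR_eq]
  exact P337T.C_subset 4 ETR_mem_C4

theorem tm_existsR_subset_C4 : P337T.ExistsR ⊆ P337T.C 4 := by
  rintro L ⟨f, hf, hL⟩
  exact P337T.C_subset 4 (existsR_subset_C4
    ⟨f, P337T.polyTime_iff.1 hf, fun x => by rw [hL, P337T.ETR_eq]⟩)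

end Vale.Agent.N47
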