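import Vale.Agent.P337.CH.Count

/-!
Functions computable in polynomial time with an oracle from a fixed level of the counting
hierarchy (`LF j`) and predicates decidable in this way (`LP j`).
-/

namespace Vale.Agent.N47

open Vale.Agent.Lib.PolyTime Vale.Agent.P337 Finset

variable {α β γ δ : Type*} [Enc α] [Enc β] [Enc γ] [Enc δ] {j : ℕ}

/-- Functions computable in polynomial time with an oracle from level `j`. -/
@[fun_prop]
def LF (j : ℕ) (f : α → β) : Prop := ∃ A ∈ C j, PT A f

/-- Predicates decidable in polynomial time with an oracle from level `j`. -/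
@[fun_prop]
def LP (j : ℕ) (p : α → Prop) : Prop := LF j fun a => @decide (p a) (Classical.propDecidable _)

theorem empty_mem_C (j : ℕ) : (∅ : Set Word) ∈ C j :=
  C_mono (Nat.zero_le j) (mem_P_iff.2 ((FP.const [false]).congr fun x => by simp [chi]))

/-- The filter of sufficiently strong oracles. -/
def orL (j : ℕ) : Filter (Set Word) where
  sets := {S | ∃ A ∈ C j, ∀ B, FP B (chi A) → B ∈ S}
  univ_sets := ⟨∅, empty_mem_C j, fun _ _ => trivial⟩
  sets_of_superset := by
    rintro S T ⟨A, hA, h⟩ hST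
    exact ⟨A, hA, fun B hB => hST (h B hB)⟩
  inter_sets := by
    rintro S T ⟨A, hA, h⟩ ⟨A', hA', h'⟩
    exact ⟨join A A', join_mem_C j hA hA', fun B hB =>
      ⟨h B (FP.subst hB FP_join_left), h' B (FP.subst hB FP_join_right)⟩⟩

protected theorem LF.ev {f : α → β} (hf : LF j f) : ∀ᶠ A in orL j, PT A f := by
  obtain ⟨A, hA, h⟩ := hf
  exact ⟨A, hA, fun B hB => PT_subst hB h⟩

protected theorem LF.of_ev {f : α → β} (hf : ∀ᶠ A in orL j, PT A f) : LF j f := by
  obtain ⟨A, hA, h⟩ := hf
  exact ⟨A, hA, h A FP.oracle⟩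

theorem orL_exists {p : Set Word → Prop} (h : ∀ᶠ A in orL j, p A) : ∃ A ∈ C j, p A := by
  obtain ⟨A, hA, h⟩ := h
  exact ⟨A, hA, h A FP.oracle⟩

protected theorem LF.of_PT {f : α → β} (hf : PT ∅ f) : LF j f := ⟨∅, empty_mem_C j, hf⟩

@[fun_prop]
protected theorem LF.mono {i : ℕ} {f : α → β} (hf : LF i f) (h : i ≤ j) : LF j f := by
  obtain ⟨A, hA, hf⟩ := hf
  exact ⟨A, C_mono h hA, hf⟩

@[fun_prop]
protected theorem LP.mono {i : ℕ} {p : α → Prop} (hp : LP i p) (h : i ≤ j) : LP j p :=
  LF.mono hp h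

/-- Level `0` facts hold at every level. -/
protected theorem LF.up {f : α → β} (hf : LF 0 f) : LF j f := hf.mono (Nat.zero_le j)

protected theorem LP.up {p : α → Prop} (hp : LP 0 p) : LP j p := hp.mono (Nat.zero_le j)

@[fun_prop]
protected theorem LF.toCHF {f : α → β} (hf : LF j f) : CHF f := by
  obtain ⟨A, hA, hf⟩ := hf
  exact ⟨A, mem_CH.2 ⟨j, hA⟩, hf⟩

@[fun_prop]
protected theorem LP.toCHP {p : α → Prop} (hp : LP j p) : CHP p := LF.toCHF hp

protected theorem LF.congr {f g : α → β} (hf : LF j f) (h : ∀ a, f a = g a) : LF j g := by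
  have : f = g := funext h
  rwa [← this]

protected theorem LF.lift1 {α' β' : Type*} [Enc α'] [Enc β'] {f : α → β} {k : α' → β'}
    (hf : LF j f) (h : ∀ A, PT A f → PT A k) : LF j k := by
  obtain ⟨A, hA, hf⟩ := hf
  exact ⟨A, hA, h A hf⟩

protected theorem LF.lift2 {α' β' α'' β'' : Type*} [Enc α'] [Enc β'] [Enc α''] [Enc β'']
    {f : α → β} {g : α' → β'} {k : α'' → β''} (hf : LF j f) (hg : LF j g)
    (h : ∀ A, PT A f → PT A g → PT A k) : LF j k := by
  refine LF.of_ev ?_
  filter_upwards [hf.ev, hg.ev] with A hf hg using h A hf hg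

protected theorem LF.lift3 {α' β' α'' β'' α''' β''' : Type*} [Enc α'] [Enc β'] [Enc α'']
    [Enc β''] [Enc α'''] [Enc β'''] {f : α → β} {g : α' → β'} {g' : α'' → β''} {k : α''' → β'''}
    (hf : LF j f) (hg : LF j g) (hg' : LF j g')
    (h : ∀ A, PT A f → PT A g → PT A g' → PT A k) : LF j k := by
  refine LF.of_ev ?_
  filter_upwards [hf.ev, hg.ev, hg'.ev] with A hf hg hg' using h A hf hg hg'

protected theorem LF.pbd {f : α → β} (hf : LF j f) : PBd (fun a => esize (f a)) :=
  hf.toCHF.pbd

/-! ### Lambda calculus -/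

@[fun_prop]
protected theorem LF.id : LF j (fun a : α => a) := LF.of_PT PT.id

@[fun_prop]
protected theorem LF.const (b : β) : LF j (fun _ : α => b) := LF.of_PT (PT.const b)

@[fun_prop]
protected theorem LF.comp {g : β → γ} {f : α → β} (hg : LF j g) (hf : LF j f) : LF j (fun a => g (f a)) :=
  hg.lift2 hf fun _ => PT.comp

@[fun_prop]
protected theorem LF.pair {f : α → β} {g : α → γ} (hf : LF j f) (hg : LF j g) : LF j (fun a => (f a, g a)) :=
  hf.lift2 hg fun _ => PT.pair

@[fun_prop]
protected theorem LF.fst {f : α → β × γ} (hf : LF j f) : LF j (fun a => (f a).1) := hf.lift1 fun _ => PT.fst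

@[fun_prop]
protected theorem LF.snd {f : α → β × γ} (hf : LF j f) : LF j (fun a => (f a).2) := hf.lift1 fun _ => PT.snd

protected theorem LP.dec {p : α → Prop} (hp : LP j p) [DecidablePred p] : LF j (fun a => decide (p a)) :=
  LF.congr hp fun _ => by congr

@[fun_prop]
protected theorem LF.decide {p : α → Prop} {inst : ∀ a, Decidable (p a)} (hp : LP j p) :
    LF j (fun a => @Decidable.decide (p a) (inst a)) :=
  LF.congr hp fun _ => by congr

protected theorem LP.of_dec {p : α → Prop} [DecidablePred p] (hp : LF j (fun a => decide (p a))) : LP j p :=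
  LF.congr hp fun _ => by congr

protected theorem LP.congr {p q : α → Prop} (hp : LP j p) (h : ∀ a, p a ↔ q a) : LP j q := by
  have : p = q := funext fun a => propext (h a)
  rwa [← this]

@[fun_prop]
protected theorem LP.const (q : Prop) : LP j (fun _ : α => q) := LF.const _

@[fun_prop]
protected theorem LP.comp {p : β → Prop} {f : α → β} (hp : LP j p) (hf : LF j f) : LP j (fun a => p (f a)) :=
  LF.comp hp hf

/-! ### Booleans and propositions -/

@[fun_prop]
protected theorem LF.cond {c : α → Bool} {f g : α → β} (hc : LF j c) (hf : LF j f) (hg : LF j g) :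
    LF j (fun a => bif c a then f a else g a) := hc.lift3 hf hg fun _ => PT.cond

@[fun_prop]
protected theorem LF.ite {p : α → Prop} {inst : ∀ a, Decidable (p a)} {f g : α → β} (hp : LP j p)
    (hf : LF j f) (hg : LF j g) : LF j (fun a => @ite _ (p a) (inst a) (f a) (g a)) :=
  (LF.cond hp hf hg).congr fun a => by by_cases h : p a <;> simp [h]

@[fun_prop]
protected theorem LF.not {f : α → Bool} (hf : LF j f) : LF j (fun a => !(f a)) := hf.lift1 fun _ => PT.not

@[fun_prop]
protected theorem LF.and {f g : α → Bool} (hf : LF j f) (hg : LF j g) : LF j (fun a => f a && g a) :=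
  hf.lift2 hg fun _ => PT.and

@[fun_prop]
protected theorem LF.or {f g : α → Bool} (hf : LF j f) (hg : LF j g) : LF j (fun a => f a || g a) :=
  hf.lift2 hg fun _ => PT.or

@[fun_prop]
protected theorem LP.not {p : α → Prop} (hp : LP j p) : LP j (fun a => ¬ p a) :=
  (LF.not hp).congr fun a => by by_cases h : p a <;> simp [h]

@[fun_prop]
protected theorem LP.and {p q : α → Prop} (hp : LP j p) (hq : LP j q) : LP j (fun a => p a ∧ q a) :=
  (LF.and hp hq).congr fun a => by by_cases h : p a <;> by_cases h' : q a <;> simp [h, h']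

@[fun_prop]
protected theorem LP.or {p q : α → Prop} (hp : LP j p) (hq : LP j q) : LP j (fun a => p a ∨ q a) :=
  (LF.or hp hq).congr fun a => by by_cases h : p a <;> by_cases h' : q a <;> simp [h, h']

protected theorem LP.imp {p q : α → Prop} (hp : LP j p) (hq : LP j q) : LP j (fun a => p a → q a) :=
  (hp.not.or hq).congr fun _ => imp_iff_not_or.symm

@[fun_prop]
protected theorem LP.iff {p q : α → Prop} (hp : LP j p) (hq : LP j q) : LP j (fun a => p a ↔ q a) :=
  ((hp.imp hq).and (hq.imp hp)).congr fun _ => iff_def.symm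

protected theorem LP.of_bool {f : α → Bool} (hf : LF j f) : LP j (fun a => f a = true) :=
  hf.congr fun a => by simp

@[fun_prop]
protected theorem LP.eq [EncInj β] {f g : α → β} (hf : LF j f) (hg : LF j g) : LP j (fun a => f a = g a) := by
  classical
  exact LP.of_dec (hf.lift2 hg fun _ => PT.eq)

@[fun_prop]
protected theorem LP.ne [EncInj β] {f g : α → β} (hf : LF j f) (hg : LF j g) : LP j (fun a => f a ≠ g a) :=
  (LP.eq hf hg).not


/-! ### Natural numbers -/

@[fun_prop]
protected theorem LF.add {f g : α → ℕ} (hf : LF j f) (hg : LF j g) : LF j (fun a => f a + g a) :=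
  hf.lift2 hg fun _ => PT.add

@[fun_prop]
protected theorem LF.sub {f g : α → ℕ} (hf : LF j f) (hg : LF j g) : LF j (fun a => f a - g a) :=
  hf.lift2 hg fun _ => PT.sub

@[fun_prop]
protected theorem LF.mul {f g : α → ℕ} (hf : LF j f) (hg : LF j g) : LF j (fun a => f a * g a) :=
  hf.lift2 hg fun _ => PT.mul

@[fun_prop]
protected theorem LF.div {f g : α → ℕ} (hf : LF j f) (hg : LF j g) : LF j (fun a => f a / g a) :=
  hf.lift2 hg fun _ => PT.div

@[fun_prop]
protected theorem LF.mod {f g : α → ℕ} (hf : LF j f) (hg : LF j g) : LF j (fun a => f a % g a) :=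
  hf.lift2 hg fun _ => PT.mod

@[fun_prop]
protected theorem LF.min {f g : α → ℕ} (hf : LF j f) (hg : LF j g) : LF j (fun a => min (f a) (g a)) :=
  hf.lift2 hg fun _ => PT.min

@[fun_prop]
protected theorem LF.max {f g : α → ℕ} (hf : LF j f) (hg : LF j g) : LF j (fun a => max (f a) (g a)) :=
  hf.lift2 hg fun _ => PT.max

@[fun_prop]
protected theorem LF.succ {f : α → ℕ} (hf : LF j f) : LF j (fun a => Nat.succ (f a)) :=
  hf.lift1 fun _ => PT.succ

@[fun_prop]
protected theorem LF.pow {f g : α → ℕ} (hf : LF j f) (hg : LF j g) (hb : PBd g) :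
    LF j (fun a => f a ^ g a) := hf.lift2 hg fun _ hf hg => PT.pow hf hg hb

protected theorem LF.powMod {f g m : α → ℕ} (hf : LF j f) (hg : LF j g) (hm : LF j m) :
    LF j (fun a => f a ^ g a % (m a + 1)) :=
  hf.lift3 hg hm fun _ hf hg hm => PT.powModPos hf hg (hm.add (PT.const 1)) fun _ => Nat.succ_pos _

@[fun_prop]
protected theorem LF.natSize {f : α → ℕ} (hf : LF j f) : LF j (fun a => Nat.size (f a)) :=
  hf.lift1 fun _ => PT.natSize

@[fun_prop]
protected theorem LF.esize {f : α → β} (hf : LF j f) : LF j (fun a => esize (f a)) :=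
  hf.lift1 fun _ => PT.size

@[fun_prop]
protected theorem LF.pb (c : ℕ) {f : α → ℕ} (hf : LF j f) : LF j (fun a => pb c (f a)) :=
  LF.pow (hf.add (LF.const 2)) (LF.const c) (PBd.const c)

@[fun_prop]
protected theorem LP.lt {f g : α → ℕ} (hf : LF j f) (hg : LF j g) : LP j (fun a => f a < g a) :=
  LP.of_dec (hf.lift2 hg fun _ => PT.lt)

@[fun_prop]
protected theorem LP.le {f g : α → ℕ} (hf : LF j f) (hg : LF j g) : LP j (fun a => f a ≤ g a) :=
  LP.of_dec (hf.lift2 hg fun _ => PT.le)

@[fun_prop]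
protected theorem LP.dvd {f g : α → ℕ} (hf : LF j f) (hg : LF j g) : LP j (fun a => f a ∣ g a) :=
  LP.of_dec (hf.lift2 hg fun _ => PT.decDvd)

@[fun_prop]
protected theorem LF.unVal {f : α → Un} (hf : LF j f) : LF j (fun a => (f a).v) := hf.lift1 fun _ => PT.unVal

@[fun_prop]
protected theorem LF.mkUn {f : α → ℕ} (hf : LF j f) (hb : PBd f) : LF j (fun a => Un.mk (f a)) :=
  hf.lift1 fun _ hf => PT.mkUn hf hb

/-! ### Integers -/

@[fun_prop]
protected theorem LF.natAbs {f : α → ℤ} (hf : LF j f) : LF j (fun a => (f a).natAbs) :=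
  hf.lift1 fun _ => PT.natAbs

@[fun_prop]
protected theorem LF.toNat {f : α → ℤ} (hf : LF j f) : LF j (fun a => (f a).toNat) :=
  hf.lift1 fun _ => PT.toNat

@[fun_prop]
protected theorem LF.natCast {f : α → ℕ} (hf : LF j f) : LF j (fun a => (f a : ℤ)) :=
  hf.lift1 fun _ => PT.natCast

@[fun_prop]
protected theorem LF.intNeg {f : α → ℤ} (hf : LF j f) : LF j (fun a => - f a) := hf.lift1 fun _ => PT.intNeg

@[fun_prop]
protected theorem LF.intAdd {f g : α → ℤ} (hf : LF j f) (hg : LF j g) : LF j (fun a => f a + g a) :=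
  hf.lift2 hg fun _ => PT.intAdd

@[fun_prop]
protected theorem LF.intSub {f g : α → ℤ} (hf : LF j f) (hg : LF j g) : LF j (fun a => f a - g a) :=
  hf.lift2 hg fun _ => PT.intSub

@[fun_prop]
protected theorem LF.intMul {f g : α → ℤ} (hf : LF j f) (hg : LF j g) : LF j (fun a => f a * g a) :=
  hf.lift2 hg fun _ => PT.intMul

@[fun_prop]
protected theorem LF.intMod {f g : α → ℤ} (hf : LF j f) (hg : LF j g) : LF j (fun a => f a % g a) :=
  hf.lift2 hg fun _ => PT.intMod

@[fun_prop]
protected theorem LP.intLt {f g : α → ℤ} (hf : LF j f) (hg : LF j g) : LP j (fun a => f a < g a) :=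
  LP.of_dec (hf.lift2 hg fun _ => PT.intLt)

@[fun_prop]
protected theorem LP.intLe {f g : α → ℤ} (hf : LF j f) (hg : LF j g) : LP j (fun a => f a ≤ g a) :=
  LP.of_dec (hf.lift2 hg fun _ => PT.intLe)

/-! ### Lists and options -/

@[fun_prop]
protected theorem LF.cons {f : α → β} {g : α → List β} (hf : LF j f) (hg : LF j g) :
    LF j (fun a => f a :: g a) := hf.lift2 hg fun _ => PT.cons

@[fun_prop]
protected theorem LF.tail {f : α → List β} (hf : LF j f) : LF j (fun a => (f a).tail) :=
  hf.lift1 fun _ => PT.tail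

@[fun_prop]
protected theorem LF.headD {f : α → List β} {d : α → β} (hf : LF j f) (hd : LF j d) :
    LF j (fun a => (f a).headD (d a)) := hf.lift2 hd fun _ => PT.headD

@[fun_prop]
protected theorem LF.length {f : α → List β} (hf : LF j f) : LF j (fun a => (f a).length) :=
  hf.lift1 fun _ => PT.length

@[fun_prop]
protected theorem LF.append {f g : α → List β} (hf : LF j f) (hg : LF j g) : LF j (fun a => f a ++ g a) :=
  hf.lift2 hg fun _ => PT.append

@[fun_prop]
protected theorem LF.reverse {f : α → List β} (hf : LF j f) : LF j (fun a => (f a).reverse) :=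
  hf.lift1 fun _ => PT.reverse

@[fun_prop]
protected theorem LF.drop {l : α → List β} {i : α → ℕ} (hl : LF j l) (hi : LF j i) :
    LF j (fun a => (l a).drop (i a)) := hl.lift2 hi fun _ => PT.drop

@[fun_prop]
protected theorem LF.take {l : α → List β} {i : α → ℕ} (hl : LF j l) (hi : LF j i) :
    LF j (fun a => (l a).take (i a)) := hl.lift2 hi fun _ => PT.take

@[fun_prop]
protected theorem LF.getD {l : α → List β} {i : α → ℕ} {d : α → β} (hl : LF j l) (hi : LF j i)
    (hd : LF j d) : LF j (fun a => (l a).getD (i a) (d a)) := hl.lift3 hi hd fun _ => PT.getD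

@[fun_prop]
protected theorem LF.range {k : α → ℕ} (hk : LF j k) (hb : PBd k) : LF j (fun a => List.range (k a)) :=
  hk.lift1 fun _ hk => PT.range hk hb

@[fun_prop]
protected theorem LF.replicate {n : α → ℕ} {x : α → β} (hn : LF j n) (hb : PBd n) (hx : LF j x) :
    LF j (fun a => List.replicate (n a) (x a)) := hn.lift2 hx fun _ hn hx => PT.replicate hn hb hx

@[fun_prop]
protected theorem LF.map {l : α → List γ} {f : α → γ → β} (hl : LF j l)
    (hf : LF j (fun p : α × γ => f p.1 p.2)) : LF j (fun a => (l a).map (f a)) :=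
  hl.lift2 hf fun _ => PT.map

@[fun_prop]
protected theorem LF.all {l : α → List γ} {f : α → γ → Bool} (hl : LF j l)
    (hf : LF j (fun p : α × γ => f p.1 p.2)) : LF j (fun a => (l a).all (f a)) :=
  hl.lift2 hf fun _ => PT.all

@[fun_prop]
protected theorem LF.zip {f : α → List β} {g : α → List γ} (hf : LF j f) (hg : LF j g) :
    LF j (fun a => (f a).zip (g a)) := hf.lift2 hg fun _ => PT.zip

@[fun_prop]
protected theorem LF.listSum {l : α → List ℕ} (hl : LF j l) : LF j (fun a => (l a).sum) :=
  hl.lift1 fun _ => PT.sum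

protected theorem LF.foldr {l : α → List γ} {init : α → β} {f : α → γ → β → β} (hl : LF j l)
    (hi : LF j init) (hf : LF j (fun p : α × γ × β => f p.1 p.2.1 p.2.2)) {b : α → ℕ} (hb : PBd b)
    (h : ∀ a i, esize (((l a).drop i).foldr (f a) (init a)) ≤ b a) :
    LF j (fun a => (l a).foldr (f a) (init a)) :=
  hl.lift3 hi hf fun _ hl hi hf => PT.foldr hl hi hf hb h

protected theorem LF.natRec {k : α → ℕ} {init : α → β} {step : α → ℕ → β → β} (hk : LF j k) (hkb : PBd k)
    (hi : LF j init) (hs : LF j (fun p : α × ℕ × β => step p.1 p.2.1 p.2.2)) {b : α → ℕ}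
    (hb : PBd b)
    (h : ∀ a, ∀ i ≤ k a,
      esize (Nat.rec (motive := fun _ => β) (init a) (step a) i) ≤ b a) :
    LF j (fun a => Nat.rec (motive := fun _ => β) (init a) (step a) (k a)) :=
  hk.lift3 hi hs fun _ hk hi hs => PT.natRec hk hkb hi hs hb h

@[fun_prop]
protected theorem LF.listProd {l : α → List ℕ} (hl : LF j l) : LF j (fun a => (l a).prod) :=
  hl.lift1 fun _ => PT.prod

end Vale.Agent.N47
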