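import Vale.Agent.N47.Tau
import Vale.Agent.N47.Core4

/-!
The levels of the test polynomials, and their growth.
-/

namespace Vale.Agent.N47

open Vale.Agent.Lib.PolyTime Vale.Agent.P337 Finset MvPolynomial

section Level

variable {γ : Type*} [Enc γ] {j : ℕ} {E : γ → Prop} {p n e K : γ → ℕ}
  {r : (x : γ) → Fin (n x) → MvPolynomial (Fin (n x)) ℤ}

theorem vl_UT (n W : ℕ) (l : List ℕ) (e K : ℕ) (r : Fin n → MvPolynomial (Fin n) ℤ) (i : ℕ)
    (a b : ℤ) : vl n W l (UT e K r i a b) = ((UV (e ^ n) (fun k => EE e K r (XN n ℤ i) k) a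
      (a * ((if i < n then l.getD i 0 else 0 : ℕ) : ℤ) + b) : ℤ) : ZMod W) := by
  have h1 := map_UV (Int.castRingHom (ZMod W)) (e ^ n) (fun k => EE e K r (XN n ℤ i) k) a
    (a * ((if i < n then l.getD i 0 else 0 : ℕ) : ℤ) + b)
  simp only [eq_intCast (Int.castRingHom (ZMod W))] at h1
  rw [h1, UT, map_UV]
  simp only [vl_C, map_add, map_mul, vl_XN, Int.cast_add, Int.cast_mul, Int.cast_natCast]

theorem cast_UV_pow {n e p : ℕ} {r : Fin n → MvPolynomial (Fin n) ℤ} (hp : p.Prime) (he : 1 ≤ e)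
    (hr : ∀ i, Dg ((e : ℤ) - 1) (r i)) {K1 : ℕ} (hK1 : e ^ n ≤ K1) (hD : e ^ n < p) (k i : ℕ)
    (a T : ℤ) : (QQ (e ^ n) : ZMod p) ^ (p - 2) * (QQ (e ^ n) : ZMod p) ^ k *
      ((EE e (e ^ n * k) r ((C T - C a * XN n ℤ i) ^ k) (e ^ n) : ℤ) : ZMod p) =
      ((UV (e ^ n) (fun j => EE e K1 r (XN n ℤ i) j) a T : ℤ) : ZMod p) ^ k := by
  have h6 := congrArg (Int.cast : ℤ → ZMod p) (UV_pow he hr hK1 (le_refl (e ^ n * k)) i a T)
  have h7 : (QQ (e ^ n) : ZMod p) ≠ 0 := by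
    have := Fact.mk hp
    rw [QQ, Nat.cast_pow]
    exact pow_ne_zero _ (factorial_ne_zero_zmod hp hD)
  have h8 := pow_sub_two_mul hp h7
  rw [Int.cast_mul, Int.cast_mul, Int.cast_pow, Int.cast_pow, Int.cast_natCast] at h6
  rw [mul_assoc, ← h6, mul_comm _ (QQ (e ^ n) : ZMod p), ← mul_assoc, h8, one_mul]

theorem totalDegree_lin_pow (n i k : ℕ) (a T : ℤ) :
    ((C T - C a * XN n ℤ i) ^ k).totalDegree ≤ k :=
  dg_iff.1 (by simpa using (((Dg.C T).mono (by omega)).sub ((dg_XN n ℤ i).C_mul a)).pow k)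

theorem ZS_UV_pow (hp : LF 0 p) (hn : LF 0 n) (hnb : PBd n) (he : LF 0 e)
    (hr : AM (fun x : γ × ℕ => x.2 < n x.1) (fun x => n x.1) (fun x => ext (r x.1) x.2))
    (hdr : ∀ x, E x → ∀ i, Dg ((e x : ℤ) - 1) (r x i)) {i k : γ → ℕ} (hi : LF 0 i) (hk : LF 0 k)
    {a T : γ → ℤ} (ha : RM E a) (hT : RM E T)
    (hE : ∀ x, E x → (p x).Prime ∧ 1 ≤ e x ∧ e x ^ n x ≤ K x ∧ e x ^ n x * k x +
      (n x + 1) * (e x * (e x ^ n x * k x + 1)) + e x ^ n x * e x ^ n x + e x ^ n x + 1 < p x) :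
    ZS 1 E p (fun x => ((UV (e x ^ n x) (fun j => EE (e x) (K x) (r x) (XN (n x) ℤ (i x)) j)
      (a x) (T x) : ℤ) : ZMod (p x)) ^ k x) := by
  have hp1 : LF 1 p := hp.up
  have hg : AM E n (fun x => (C (T x) - C (a x) * XN (n x) ℤ (i x)) ^ k x) :=
    ((AM.C hT).sub ((AM.C ha).mul (AM.XN hn hi))).pow hk
  have hg' : ZL 0 (fun y : γ × List ℕ => E y.1) (fun y => p y.1) (fun y =>
      vl (n y.1) (p y.1) y.2 ((C (T y.1) - C (a y.1) * XN (n y.1) ℤ (i y.1)) ^ k y.1)) :=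
    hg.at (by fun_prop) (by fun_prop) (fun y : γ × List ℕ => y.1) (by fun_prop) fun _ h => h
  have h1 := ZS_EE (j := 0) (K := fun x => e x ^ n x * k x) hp hn hnb he (by fun_prop) hr hdr
    (g := fun x => (C (T x) - C (a x) * XN (n x) ℤ (i x)) ^ k x) (d := k)
    (fun x _ => totalDegree_lin_pow _ _ _ _ _) (fun x hx => ⟨(hE x hx).1, (hE x hx).2.2.2⟩)
    (ZL.toPW (by fun_prop) hg')
  have hQ : ZL 1 E p (fun x => (QQ (e x ^ n x) : ZMod (p x))) :=
    (ZL.pow hp1 (ZL.factorial (k := fun x => e x ^ n x) hp (by fun_prop) fun x hx =>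
      ⟨(hE x hx).1, lt_of_le_of_lt (by omega) (hE x hx).2.2.2⟩)
      (k := fun x => e x ^ n x + 1) (LF.up (by fun_prop))).congr' fun z _ => by
      rw [QQ, Nat.cast_pow]
  refine (ZS.mul (ZL.mul (ZL.pow hp1 hQ (k := fun x => p x - 2) (by fun_prop))
    (ZL.pow hp1 hQ hk.up)).toZS h1).congr' fun x hx => ?_
  obtain ⟨h2, h3, h4, h5⟩ := hE _ hx
  exact cast_UV_pow h2 h3 (hdr _ hx) h4 (by omega) _ _ _ _

theorem PW_UT (hp : LF 0 p) (hn : LF 0 n) (hnb : PBd n) (he : LF 0 e)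
    (hr : AM (fun x : γ × ℕ => x.2 < n x.1) (fun x => n x.1) (fun x => ext (r x.1) x.2))
    (hdr : ∀ x, E x → ∀ i, Dg ((e x : ℤ) - 1) (r x i)) {i B : γ → ℕ} (hi : LF 0 i)
    {a b : γ → ℤ} (ha : RM E a) (hb : RM E b)
    (hE : ∀ x, E x → (p x).Prime ∧ 1 ≤ e x ∧ e x ^ n x ≤ K x ∧ e x ^ n x * B x +
      (n x + 1) * (e x * (e x ^ n x * B x + 1)) + e x ^ n x * e x ^ n x + e x ^ n x + 1 < p x) :
    PW 1 (fun y : γ × List ℕ => E y.1) (fun y => p y.1) (fun y => B y.1)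
      (fun y => vl (n y.1) (p y.1) y.2 (UT (e y.1) (K y.1) (r y.1) (i y.1) (a y.1) (b y.1))) := by
  have hT : RM (fun z : (γ × List ℕ) × ℕ => E z.1.1 ∧ z.2 ≤ B z.1.1) (fun z => a z.1.1 *
      ((if i z.1.1 < n z.1.1 then z.1.2.getD (i z.1.1) 0 else 0 : ℕ) : ℤ) + b z.1.1) :=
    ((ha.re (fun z : (γ × List ℕ) × ℕ => z.1.1) (by fun_prop) fun _ h => h.1).mul
      (RM.natCast (by fun_prop))).add
      (hb.re (fun z : (γ × List ℕ) × ℕ => z.1.1) (by fun_prop) fun _ h => h.1)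
  have h1 := ZS_UV_pow (γ := (γ × List ℕ) × ℕ) (E := fun z => E z.1.1 ∧ z.2 ≤ B z.1.1)
    (p := fun z => p z.1.1) (n := fun z => n z.1.1) (e := fun z => e z.1.1)
    (K := fun z => K z.1.1) (r := fun z => r z.1.1) (by fun_prop) (by fun_prop)
    (by fun_prop) (by fun_prop)
    (hr.re (fun w : ((γ × List ℕ) × ℕ) × ℕ => (w.1.1.1, w.2)) (by fun_prop) fun _ h => h)
    (fun z hz => hdr _ hz.1) (i := fun z => i z.1.1) (k := fun z => z.2) (by fun_prop)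
    (by fun_prop) (ha.re (fun z : (γ × List ℕ) × ℕ => z.1.1) (by fun_prop) fun _ h => h.1) hT
    (fun z hz => by
      obtain ⟨h1, h2, h3, h4⟩ := hE _ hz.1
      refine ⟨h1, h2, h3, lt_of_le_of_lt ?_ h4⟩
      have := hz.2
      gcongr)
  exact h1.congr' fun z _ => congrArg (· ^ z.2) (vl_UT _ _ _ _ _ _ _ _ _).symm

protected theorem PW.sub_ZL {B : γ → ℕ} {A A' : (x : γ) → ZMod (p x)} (hp : LF j p)
    (hE : ∀ x, E x → (p x).Prime ∧ B x + 1 < p x) (hA : PW j E p B A) (hA' : ZL j E p A') :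
    PW j E p B (fun x => A x - A' x) :=
  (PW.add hp hE hA (ZL.toPW hp (hA'.neg hp))).congr' fun _ _ => (sub_eq_add_neg _ _).symm

theorem PW_G4 (hp : LF 0 p) {B m D Bd : γ → ℕ} (hB : LF 0 B) (hm : LF 0 m) (hmb : PBd m)
    (hD : LF 0 D) {f : γ → ℕ → ℕ} (hf : LF 0 (fun x : γ × ℕ => f x.1 x.2))
    {u : (x : γ) → ℕ → ZMod (p x)} {h : (x : γ) → ZMod (p x)}
    (hE : ∀ x, E x → (p x).Prime ∧ (m x + 2) * Bd x + 1 < p x)
    (hu : PW 1 (fun y : γ × ℕ => E y.1) (fun y => p y.1) (fun y => 4 * Bd y.1)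
      (fun y => u y.1 y.2)) (hh : ZL 0 E p h) :
    PW 1 E p Bd (fun x => G4 (B x) (m x) (D x) (f x) (u x) (h x)) := by
  have hp1 : LF 1 p := hp.up
  have hE1 : ∀ x, E x → (p x).Prime ∧ Bd x + 1 < p x := fun x hx => by
    obtain ⟨h1, h2⟩ := hE x hx
    rw [add_mul] at h2
    exact ⟨h1, by omega⟩
  have hf' : ∀ {δ : Type} [Enc δ] (v : γ × δ → γ) (k : γ × δ → ℕ), LF 0 v → LF 0 k →
      LF 0 (fun y => f (v y) (k y)) := fun v k hv hk =>
    hf.comp (f := fun y => (v y, k y)) (hv.pair hk)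
  have hf0 : ∀ k : γ → ℕ, LF 0 k → LF 0 (fun x => f x (k x)) := fun k hk =>
    hf.comp (f := fun x => (x, k x)) (LF.id.pair hk)
  have h1 : PW 1 E p Bd (fun x => ∑ l ∈ range (m x), (2 ^ f x (3 * l) * u x (f x (3 * l + 1)) ^ 2 -
      (f x (3 * l + 2) : ZMod (p x)) * 2 ^ B x) ^ 2) := by
    refine PW.sum_poly (j := 0) hp hm hmb (fun x hx => ?_) (PW.sq (B' := fun y => 2 * Bd y.1)
      (PW.sub_ZL (by fun_prop) (fun y hy => ?_) (PW.mul (ZL.toPW (by fun_prop) (ZL.two_pow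
        (by fun_prop) (hf' (fun y => y.1) _ (by fun_prop) (by fun_prop)).up))
        (PW.sq (B' := fun y => 4 * Bd y.1) ?_ fun _ _ => by omega))
        (ZL.mul (ZL.natCast (hf' (fun y => y.1) _ (by fun_prop) (by fun_prop)).up)
          (ZL.two_pow (by fun_prop) (LF.up (by fun_prop))))) fun _ _ => le_rfl)
    · obtain ⟨h1, h2⟩ := hE x hx
      refine ⟨h1, lt_of_le_of_lt ?_ h2⟩
      gcongr
      omega
    · obtain ⟨h1, h2⟩ := hE y.1 hy.1
      rw [add_mul] at h2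
      exact ⟨h1, by omega⟩
    · exact hu.re (fun y : γ × ℕ => (y.1, f y.1 (3 * y.2 + 1)))
        (LF.up (LF.pair (by fun_prop) (hf' (fun y => y.1) _ (by fun_prop) (by fun_prop))))
        fun _ h => ⟨h.1, le_rfl⟩
  have h2 : ZL 0 E p (fun x => (2 ^ f x (3 * m x) * h x -
      ((f x (3 * m x + 2) + m x + 2 : ℕ) : ZMod (p x)) * 2 ^ B x) ^ 2) :=
    ZL.pow hp (ZL.sub hp (ZL.mul (ZL.two_pow hp (hf0 _ (by fun_prop))) hh)
      (ZL.mul (ZL.natCast (((hf0 _ (by fun_prop)).add hm).add (LF.const 2)))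
        (ZL.two_pow hp hB))) (LF.const 2)
  have h3 : ZL 0 E p (fun x => ((m x + 2 : ℕ) : ZMod (p x)) * (2 ^ B x) ^ 2) :=
    ZL.mul (ZL.natCast (by fun_prop)) (ZL.pow hp (ZL.two_pow hp hB) (LF.const 2))
  exact PW.add hp1 hE1 (PW.mul (ZL.toPW hp1 (ZL.natCast (LF.up (by fun_prop))))
    (PW.sub_ZL hp1 hE1 (PW.add hp1 hE1 h1 (ZL.toPW hp1 (h2.mono zero_le_one)))
      (h3.mono zero_le_one)))
    (ZL.toPW hp1 (ZL.natCast ((hf0 _ (by fun_prop)).add (LF.const 1)).up))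

end Level

section Growth

variable {α β : Type*} [Enc α] [Enc β] {P : Type} [Enc P]
  {R : α → Type} [∀ a, CommRing (R a)] [∀ a, PRing P (R a)] {D : α → β → Prop}

theorem MR_G4 {B m N : α → ℕ} (hB : CHF B) (hm : CHF m) (hN : CHF N) {f : α → β → ℕ → ℕ}
    (hf : CHF (fun x : (α × β) × ℕ => f x.1.1 x.1.2 x.2)) {u : (a : α) → ℕ → R a} (hu : MR1 u)
    {h : (a : α) → R a} (hh : MR0 h) :
    MR D (fun a b => G4 (B a) (m a) (N a) (f a b) (u a) (h a)) := by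
  have hf1 : ∀ k : ℕ → ℕ, CHF k → CHF (fun x : α × β × ℕ => f x.1 x.2.1 (k x.2.2)) := fun k hk =>
    hf.comp (f := fun x : α × β × ℕ => ((x.1, x.2.1), k x.2.2)) (by fun_prop)
  have hf0 : ∀ k : α → ℕ, CHF k → CHF (fun x : α × β => f x.1 x.2 (k x.1)) := fun k hk =>
    hf.comp (f := fun x : α × β => (x, k x.1)) (by fun_prop)
  unfold G4 G3
  refine MR.add (MR.mul (MR.natCast' (by fun_prop)) (MR.sub (MR.add
    (MR.sum_range (by fun_prop) (MR.pow' (MR.sub (MR.mul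
      (MR.two_pow (hf1 (fun l => 3 * l) (by fun_prop)))
      (MR.pow' (hu.at (hf1 (fun l => 3 * l + 1) (by fun_prop))) (CHF.const 2)))
      (MR.mul (MR.natCast' (hf1 (fun l => 3 * l + 2) (by fun_prop)))
        (MR.two_pow (by fun_prop)))) (CHF.const 2)))
    (MR.pow' (MR.sub (MR.mul (MR.two_pow (hf0 (fun a => 3 * m a) (by fun_prop))) hh.inst)
      (MR.mul (MR.natCast' (((hf0 (fun a => 3 * m a + 2) (by fun_prop)).add (by fun_prop)).add
        (CHF.const 2))) (MR.two_pow (by fun_prop)))) (CHF.const 2)))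
    (MR.mul (MR.natCast' (by fun_prop)) (MR.pow' (MR.two_pow (by fun_prop)) (CHF.const 2)))))
    (MR.natCast' ((hf0 (fun a => 3 * m a + 1) (by fun_prop)).add (CHF.const 1)))

variable {n e K : α → ℕ} {r : (a : α) → Fin (n a) → MvPolynomial (Fin (n a)) (R a)}

theorem MR_UT (hn : CHF n) (hnb : PBd n) (he : CHF e) (hK : CHF K)
    (hr : MR1 (R := fun a => MvPolynomial (Fin (n a)) (R a)) fun a => ext (r a))
    {i : α → β → ℕ} (hi : CHF (fun x : α × β => i x.1 x.2)) {s t : (a : α) → β → R a}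
    (hs : MR D s) (ht : MR D t) :
    MR (R := fun a => MvPolynomial (Fin (n a)) (R a)) D
      (fun a b => UT (e a) (K a) (r a) (i a b) (s a b) (t a b)) := by
  have hi' : CHF (fun x : α × β × ℕ => i x.1 x.2.1) :=
    hi.comp (f := fun x : α × β × ℕ => (x.1, x.2.1)) (by fun_prop)
  unfold UT UV
  exact MR.sum_range (by fun_prop) (MR.mul (MR.mul (MR.mul (MR.neg_one_pow (by fun_prop))
    (MR.mvC (MR_EE hn hnb he hK hr ((MR_XN hn).at hi') (by fun_prop))))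
    (MR.pow (MR.mvC (hs.weak fun _ _ h => h.1)) (by fun_prop)
      (EB.of_le (fun a => e a ^ n a + 1) (by fun_prop) fun _ _ h => h.2.le)))
    (MR.pow (MR.add (MR.mul (MR.mvC (hs.weak fun _ _ h => h.1)) ((MR_XN hn).at hi'))
      (MR.mvC (ht.weak fun _ _ h => h.1))) (by fun_prop)
      (EB.of_le (fun a => e a ^ n a) (by fun_prop) fun _ _ _ => Nat.sub_le _ _)))

theorem MR_UC (hn : CHF n) (hnb : PBd n) (he : CHF e) (hK : CHF K)
    (hr : MR1 (R := fun a => MvPolynomial (Fin (n a)) (R a)) fun a => ext (r a))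
    {J b β : α → ℕ} (hJ : CHF J) (hb : CHF b) (hβ : CHF β) :
    MR1 (R := fun a => MvPolynomial (Fin (n a)) (R a))
      (fun a => UC (e a) (K a) (r a) (J a) (b a) (β a)) := by
  unfold UC
  exact MR_UT hn hnb he hK hr (by fun_prop) (MR.two_pow (by fun_prop))
    (MR.mul (MR.sub (MR.natCast' (by fun_prop)) (MR.natCast' (by fun_prop)))
      (MR.two_pow (by fun_prop)))

end Growth

theorem MR_sepT {α : Type*} [Enc α] {n e K1 K2 : α → ℕ}
    {r : (a : α) → Fin (n a) → MvPolynomial (Fin (n a)) ℤ} (hn : CHF n) (hnb : PBd n)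
    (he : CHF e) (hK1 : CHF K1) (hK2 : CHF K2)
    (hr : MR1 (R := fun a => MvPolynomial (Fin (n a)) ℤ) fun a => ext (r a)) :
    MR1 (R := fun _ => Polynomial ℤ) (fun a i => sepT (e a) (K1 a) (K2 a) (r a) i) := by
  have hr' : MR1 (R := fun a => MvPolynomial (Fin (n a)) (Polynomial ℤ))
      fun a => ext (fun j => map Polynomial.C (r a j)) :=
    (MR_map_int (R := fun _ => Polynomial ℤ) hr fun _ => Polynomial.C).congr' fun a i _ => by
      unfold Vale.Agent.P337.ext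
      split_ifs
      · rfl
      · exact map_zero _
  unfold sepT
  exact MR_EE (R := fun _ => Polynomial ℤ) hn hnb he hK2 hr'
    (MR_UT (R := fun _ => Polynomial ℤ) hn hnb he hK1 hr' (by fun_prop) MR.one
      (MR.neg (MR.polyX (R := fun _ => ℤ)))) (by fun_prop)

end Vale.Agent.N47
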