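import Vale.Agent.N47.ZL

/-!
Residues all of whose powers are flat sums (`PW`), and long products modulo a prime.
-/

namespace Vale.Agent.N47

open Vale.Agent.Lib.PolyTime Vale.Agent.P337 Finset

variable {α β γ γ' : Type*} [Enc α] [Enc β] [Enc γ] [Enc γ'] {j : ℕ}

/-- All powers with exponent at most `B x` are flat sums of terms of level `j`. -/
def PW (j : ℕ) (E : γ → Prop) (p B : γ → ℕ) (A : (x : γ) → ZMod (p x)) : Prop :=
  ZS j (fun y : γ × ℕ => E y.1 ∧ y.2 ≤ B y.1) (fun y => p y.1) (fun y => A y.1 ^ y.2)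

variable {E E' : γ → Prop} {p B B' : γ → ℕ} {A A' : (x : γ) → ZMod (p x)}

protected theorem PW.congr' (hA : PW j E p B A) (h : ∀ x, E x → A x = A' x) : PW j E p B A' :=
  ZS.congr' hA fun y hy => by rw [h _ hy.1]

protected theorem PW.re (hA : PW j E p B A) {E' : γ' → Prop} {B' : γ' → ℕ} (u : γ' → γ)
    (hu : LF j u) (h : ∀ y, E' y → E (u y) ∧ B' y ≤ B (u y)) :
    PW j E' (fun y => p (u y)) B' (fun y => A (u y)) :=
  ZS.re hA (fun y : γ' × ℕ => (u y.1, y.2)) (by fun_prop) fun y hy =>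
    ⟨(h _ hy.1).1, hy.2.trans (h _ hy.1).2⟩

protected theorem ZL.toPW (hp : LF j p) (hA : ZL j E p A) : PW j E p B A :=
  (ZL.pow (by fun_prop) (hA.re (fun y : γ × ℕ => y.1) (by fun_prop) fun _ h => h.1)
    (by fun_prop)).toZS

protected theorem PW.mul (hA : PW j E p B A) (hA' : PW j E p B A') :
    PW j E p B (fun x => A x * A' x) :=
  (ZS.mul hA hA').congr' fun _ _ => (mul_pow _ _ _).symm

protected theorem PW.add (hp : LF j p) (hE : ∀ x, E x → (p x).Prime ∧ B x + 1 < p x)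
    (hA : PW j E p B A) (hA' : PW j E p B A') : PW j E p B (fun x => A x + A' x) := by
  refine (ZS.sum_range (m := fun y : γ × ℕ => y.2 + 1) (by fun_prop)
    (H := fun y i => A y.1 ^ i * A' y.1 ^ (y.2 - i) * (y.2.choose i : ZMod (p y.1)))
    (ZS.mul (ZS.mul ?_ ?_) (ZS.choose (by fun_prop) (by fun_prop) (by fun_prop)
      fun z hz => ?_))).congr' fun y _ => (add_pow _ _ _).symm
  · exact ZS.re hA (fun z : (γ × ℕ) × ℕ => (z.1.1, z.2)) (by fun_prop) fun z hz =>
      ⟨hz.1.1, by have := hz.1.2; have := hz.2; dsimp only; omega⟩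
  · exact ZS.re hA' (fun z : (γ × ℕ) × ℕ => (z.1.1, z.1.2 - z.2)) (by fun_prop) fun z hz =>
      ⟨hz.1.1, by have := hz.1.2; dsimp only; omega⟩
  · obtain ⟨h1, h2⟩ := hE _ hz.1.1
    have := hz.1.2
    have := hz.2
    exact ⟨h1, by omega, by omega⟩

protected theorem PW.sq (hA : PW j E p B' A) (h : ∀ x, E x → 2 * B x ≤ B' x) :
    PW j E p B (fun x => A x ^ 2) :=
  (ZS.re hA (fun y : γ × ℕ => (y.1, 2 * y.2)) (by fun_prop) fun y hy =>
    ⟨hy.1, by have := hy.2; have := h _ hy.1; dsimp only; omega⟩).congr' fun _ _ => pow_mul _ _ _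

theorem coeff_prod_exp {K : Type*} [CommRing K] (g c : ℕ → K) (k : ℕ)
    (hc : ∀ i ≤ k, c i * (i.factorial : K) = 1) (m : ℕ) : ∀ k' ≤ k,
    (∏ l ∈ range m, ∑ i ∈ range (k + 1),
      Polynomial.C (g l ^ i * c i) * Polynomial.X ^ i).coeff k' =
        c k' * (∑ l ∈ range m, g l) ^ k' := by
  induction m with
  | zero =>
    intro k' hk'
    rcases k' with _ | k'
    · simpa using (hc 0 hk').symm
    · simp [Polynomial.coeff_one]
  | succ m ih =>
    intro k' hk'
    rw [prod_range_succ, sum_range_succ g, Polynomial.coeff_mul,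
      (Commute.all (∑ l ∈ range m, g l) (g m)).add_pow', mul_sum]
    refine sum_congr rfl fun x hx => ?_
    have hx' := mem_antidiagonal.1 hx
    rw [ih x.1 (by omega)]
    have h1 : (∑ i ∈ range (k + 1), Polynomial.C (g m ^ i * c i) * Polynomial.X ^ i).coeff x.2 =
        g m ^ x.2 * c x.2 := by
      simp only [Polynomial.finsetSum_coeff, Polynomial.coeff_C_mul_X_pow]
      rw [sum_ite_eq, if_pos (mem_range.2 (by omega))]
    have h2 : (k'.choose x.1 : K) * (x.1.factorial : K) * (x.2.factorial : K) = k'.factorial := by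
      have := Nat.choose_mul_factorial_mul_factorial (show x.1 ≤ k' by omega)
      rw [show k' - x.1 = x.2 by omega] at this
      exact_mod_cast congrArg (Nat.cast : ℕ → K) this
    have h3 : c k' * (k'.choose x.1 : K) = c x.1 * c x.2 := by
      have a1 := hc x.1 (by omega)
      have a2 := hc x.2 (by omega)
      have a3 := hc k' hk'
      calc c k' * (k'.choose x.1 : K)
          = c k' * (k'.choose x.1 : K) * (c x.1 * x.1.factorial) * (c x.2 * x.2.factorial) := by
            rw [a1, a2, mul_one, mul_one]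
        _ = c k' * ((k'.choose x.1 : K) * x.1.factorial * x.2.factorial) * (c x.1 * c x.2) := by
            ring
        _ = _ := by rw [h2, a3, one_mul]
    rw [h1, nsmul_eq_mul, ← mul_assoc (c k'), h3]
    ring

/-- Polynomially long sums. -/
protected theorem PW.sum_poly (hp : LF j p) {m : γ → ℕ} (hm : LF j m) (hb : PBd m)
    (hE : ∀ x, E x → (p x).Prime ∧ (m x + 1) * B x + 1 < p x)
    {H : (x : γ) → ℕ → ZMod (p x)}
    (hH : PW (j + 1) (fun y : γ × ℕ => E y.1 ∧ y.2 < m y.1) (fun y => p y.1) (fun y => B y.1)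
      (fun y => H y.1 y.2)) :
    PW (j + 1) E p B (fun x => ∑ l ∈ range (m x), H x l) := by
  have hk : ∀ y : γ × ℕ, E y.1 ∧ y.2 ≤ B y.1 →
      (p y.1).Prime ∧ m y.1 * y.2 + 1 < p y.1 ∧ y.2 + 1 < p y.1 := by
    intro y hy
    obtain ⟨h1, h2⟩ := hE _ hy.1
    have h3 := Nat.mul_le_mul_left (m y.1) hy.2
    have h4 := hy.2
    rw [add_mul] at h2
    exact ⟨h1, by omega, by omega⟩
  have h1 : ZS (j + 1) (fun y : γ × ℕ => E y.1 ∧ y.2 ≤ B y.1) (fun y => p y.1)
      (fun y => (∏ l ∈ range (m y.1), ∑ i ∈ range (y.2 + 1),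
        Polynomial.C (H y.1 l ^ i * (i.factorial : ZMod (p y.1)) ^ (p y.1 - 2)) *
          Polynomial.X ^ i).coeff y.2) := by
    refine ZS.coeff (by fun_prop (disch := omega)) (by fun_prop) (fun y hy => ?_) ?_
    · obtain ⟨h1, h2, h3⟩ := hk y hy
      refine ⟨h1, lt_of_le_of_lt (Nat.succ_le_succ ?_) h2, h3⟩
      refine (Polynomial.natDegree_prod_le _ _).trans ?_
      refine (sum_le_card_nsmul _ _ y.2 fun l _ => ?_).trans (by simp)
      exact Polynomial.natDegree_sum_le_of_forall_le _ _ fun i hi =>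
        (Polynomial.natDegree_C_mul_X_pow_le _ _).trans (Nat.lt_succ_iff.1 (mem_range.1 hi))
    · refine (ZS.prod_poly (m := fun z : (γ × ℕ) × ℕ => m z.1.1) (by fun_prop (disch := omega))
        (by fun_prop) (H := fun z l => ∑ i ∈ range (z.1.2 + 1),
          H z.1.1 l ^ i * ((i.factorial : ZMod (p z.1.1)) ^ (p z.1.1 - 2) *
            (z.2 : ZMod (p z.1.1)) ^ i))
        (ZS.sum_range (by fun_prop) (ZS.mul ?_ (ZL.mul (ZL.pow (by fun_prop (disch := omega))
          (ZL.factorial (by fun_prop) (by fun_prop) fun w hw => ?_)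
          (by fun_prop (disch := omega))) (ZL.pow (by fun_prop (disch := omega))
          (ZL.natCast (by fun_prop)) (by fun_prop))).toZS))).congr' fun z _ => ?_
      · exact ZS.re hH (fun w : (((γ × ℕ) × ℕ) × ℕ) × ℕ => ((w.1.1.1.1, w.1.2), w.2))
          (by fun_prop) fun w hw => ⟨⟨hw.1.1.1, hw.1.2⟩, by
            have := hw.1.1.2; have := hw.2; dsimp only; omega⟩
      · obtain ⟨h1, -, h3⟩ := hk _ hw.1.1
        have := hw.2
        exact ⟨h1, by omega⟩
      · simp [Polynomial.eval_prod, Polynomial.eval_finsetSum, mul_assoc]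
  refine ((ZL.factorial (k := fun y : γ × ℕ => y.2) (by fun_prop) (by fun_prop)
    fun y hy => ⟨(hk y hy).1, (hk y hy).2.2⟩).toZS.mul h1).congr' fun y hy => ?_
  obtain ⟨h2, -, h3⟩ := hk y hy
  have hc : ∀ i ≤ y.2, (i.factorial : ZMod (p y.1)) ^ (p y.1 - 2) * (i.factorial : ZMod (p y.1)) =
      1 := fun i hi => pow_sub_two_mul h2 (factorial_ne_zero_zmod h2 (by omega))
  rw [coeff_prod_exp (H y.1) (fun i => (i.factorial : ZMod (p y.1)) ^ (p y.1 - 2)) y.2 hc _ _ le_rfl,
    ← mul_assoc, mul_comm (y.2.factorial : ZMod (p y.1)), hc _ le_rfl, one_mul]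

/-! ### Long products modulo a prime -/

/-- `g` generates the multiplicative group modulo `p`. -/
def IsGen (p g : ℕ) : Prop := g ≠ 0 ∧ ¬ ∃ e, e < p - 1 ∧ (0 < e ∧ powMod g e p = 1)

theorem exists_isGen {p : ℕ} (hp : p.Prime) : ∃ g, g < p ∧ IsGen p g := by
  have := Fact.mk hp
  obtain ⟨g, hg⟩ := IsCyclic.exists_ofOrder_eq_natCard (α := (ZMod p)ˣ)
  rw [Nat.card_eq_fintype_card, ZMod.card_units] at hg
  refine ⟨(g : ZMod p).val, ZMod.val_lt _, fun h => g.ne_zero ((ZMod.val_eq_zero _).1 h), ?_⟩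
  rintro ⟨e, he, he0, h1⟩
  have h2 := cast_powMod hp.pos (g : ZMod p).val e
  rw [h1, ZMod.natCast_zmod_val, Nat.cast_one, ← Units.val_pow_eq_pow_val] at h2
  exact pow_ne_one_of_lt_orderOf he0.ne' (hg ▸ he) (Units.ext h2.symm)

theorem pow_dlog {p g v : ℕ} (hp : p.Prime) (hg : g < p) (hgen : IsGen p g)
    (hv : (v : ZMod p) ≠ 0) :
    (g : ZMod p) ^ (∑ e ∈ range (p - 1), if powMod g e p = v % p then e else 0) = v := by
  have := Fact.mk hp
  have hg0 : (g : ZMod p) ≠ 0 := by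
    rw [Ne, ZMod.natCast_eq_zero_iff]
    exact Nat.not_dvd_of_pos_of_lt (Nat.pos_of_ne_zero hgen.1) hg
  set u : (ZMod p)ˣ := Units.mk0 _ hg0 with hu
  have hcond : ∀ e, powMod g e p = v % p ↔ u ^ e = Units.mk0 _ hv := by
    intro e
    rw [Units.ext_iff, Units.val_pow_eq_pow_val, hu, Units.val_mk0, Units.val_mk0,
      ← Nat.cast_pow, ZMod.natCast_eq_natCast_iff', powMod_eq hp.pos]
  have hord : orderOf u = p - 1 := by
    refine le_antisymm ?_ (not_lt.1 fun hlt => hgen.2 ⟨orderOf u, hlt, orderOf_pos u, ?_⟩)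
    · have := orderOf_le_card_univ (x := u)
      rwa [ZMod.card_units] at this
    · have h1 := congrArg (fun x : (ZMod p)ˣ => (x : ZMod p)) (pow_orderOf_eq_one u)
      simp only [Units.val_pow_eq_pow_val, Units.val_one] at h1
      rw [hu, Units.val_mk0, ← hu, ← Nat.cast_pow, ← Nat.cast_one, ZMod.natCast_eq_natCast_iff',
        Nat.mod_eq_of_lt hp.one_lt] at h1
      rw [powMod_eq hp.pos, h1]
  have htop : Subgroup.zpowers u = ⊤ := by
    apply Subgroup.eq_top_of_card_eq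
    rw [Nat.card_zpowers, hord, Nat.card_eq_fintype_card, ZMod.card_units]
  obtain ⟨e0, he0, he0'⟩ := Finset.mem_image.1 (mem_zpowers_iff_mem_range_orderOf.1
    (htop ▸ Subgroup.mem_top (Units.mk0 _ hv) : Units.mk0 _ hv ∈ Subgroup.zpowers u))
  rw [hord] at he0
  rw [sum_eq_single e0, if_pos ((hcond e0).2 he0')]
  · have := congrArg (fun x : (ZMod p)ˣ => (x : ZMod p)) he0'
    simpa [hu] using this
  · intro e he hne
    refine if_neg fun h => hne ?_
    rw [hcond, ← he0'] at h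
    exact pow_injOn_Iio_orderOf (by rw [hord]; exact mem_range.1 he)
      (by rw [hord]; exact mem_range.1 he0) h
  · intro h
    exact absurd he0 h

/-- An exponentially long product of terms of level one has level two. -/
theorem ZL_prod_long {f : γ → ℕ → ℕ} {m : γ → ℕ} (hf : LF 1 (fun x : γ × ℕ => f x.1 x.2))
    (hm : LF 0 m) (hp : LF 0 p) (hE : ∀ x, E x → (p x).Prime) :
    ZL 2 E p (fun x => ∏ s ∈ range (m x), (f x s : ZMod (p x))) := by
  classical
  obtain ⟨gen, hgen, hgen'⟩ : ∃ gen : γ → ℕ, LF 2 gen ∧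
      ∀ x, (p x).Prime → gen x < p x ∧ IsGen (p x) (gen x) := by
    refine ⟨fun x => least (p x) (IsGen (p x)), ?_, fun x hx => least_spec (exists_isGen hx)⟩
    refine LF.least (j := 1) (p := fun x g => IsGen (p x) g) ?_ hp.up
    exact LP.and (by fun_prop) (LP.exists_lt (j := 0) (m := fun x : γ × ℕ => p x.1 - 1)
      (p := fun x e => 0 < e ∧ powMod x.2 e (p x.1) = 1) (by fun_prop) (by fun_prop)).not
  have hf' : LF 1 (fun z : ((γ × ℕ) × ℕ) × ℕ => f z.1.1.1 z.1.2) :=
    hf.comp (f := fun z : ((γ × ℕ) × ℕ) × ℕ => (z.1.1.1, z.1.2)) (by fun_prop)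
  have hp1 : LF 1 p := hp.up
  have hm1 : LF 1 m := hm.up
  obtain ⟨S, hS, hS'⟩ : ∃ S : γ × ℕ → ℕ, LF 2 S ∧ ∀ y, S y = ∑ s ∈ range (m y.1),
      ∑ e ∈ range (p y.1 - 1), if powMod y.2 e (p y.1) = f y.1 s % p y.1 then e else 0 := by
    refine ⟨_, ?_, fun _ => rfl⟩
    have h1 : LF 1 (fun z : ((γ × ℕ) × ℕ) × ℕ =>
        if powMod z.1.1.2 z.2 (p z.1.1.1) = f z.1.1.1 z.1.2 % p z.1.1.1 then z.2 else 0) :=
      LF.ite (LP.eq (by fun_prop) (hf'.mod (by fun_prop))) (by fun_prop) (by fun_prop)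
    have h2 := LS.sum_range (f := fun (y : (γ × ℕ) × ℕ) e =>
      if powMod y.1.2 e (p y.1.1) = f y.1.1 y.2 % p y.1.1 then e else 0)
      (m := fun y => p y.1.1 - 1) h1.toLS (by fun_prop)
    exact (LS.sum_range (f := fun (y : γ × ℕ) s => ∑ e ∈ range (p y.1 - 1),
      if powMod y.2 e (p y.1) = f y.1 s % p y.1 then e else 0) (m := fun y => m y.1) h2
      (by fun_prop)).toLF
  have hzero : LP 2 (fun x => ∃ s, s < m x ∧ f x s % p x = 0) :=
    LP.exists_lt (j := 1) (p := fun x s => f x s % p x = 0)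
      (LP.eq (hf.mod (by fun_prop)) (by fun_prop)) hm1
  have hp2 : LF 2 p := hp.up
  refine ⟨fun x => if ∃ s, s < m x ∧ f x s % p x = 0 then 0 else
    powMod (gen x) (S (x, gen x)) (p x), LF.ite hzero (by fun_prop) (by fun_prop),
    fun x hx _ => ?_⟩
  have hpx := hE x hx
  dsimp only
  split_ifs with h
  · obtain ⟨s, hs, h⟩ := h
    rw [prod_eq_zero (mem_range.2 hs), Nat.cast_zero]
    rw [← ZMod.natCast_mod, h, Nat.cast_zero]
  · obtain ⟨h1, h2⟩ := hgen' x hpx
    rw [cast_powMod hpx.pos, hS', ← prod_pow_eq_pow_sum]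
    refine prod_congr rfl fun s hs => pow_dlog hpx h1 h2 fun h3 => h ⟨s, mem_range.1 hs, ?_⟩
    rw [ZMod.natCast_eq_zero_iff] at h3
    exact Nat.mod_eq_zero_of_dvd h3

end Vale.Agent.N47
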