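import Vale.Agent.P337.Thom
import Mathlib.LinearAlgebra.Lagrange
import Mathlib.Analysis.Complex.Basic
import Mathlib.Data.Nat.Choose.Central
import Mathlib.Tactic

/-!
A polynomial with a real root cannot be almost periodic in absolute value along an arithmetic
progression around the root; isolation of one point of a finite set by few multiplicative tests.
-/

namespace Vale.Agent.N47

open Finset

theorem exists_offset (A : Multiset ℂ) (D : ℕ) (hA : A.card ≤ D) :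
    ∃ t : ℝ, |t| ≤ 1 / 2 ∧ ∀ a ∈ A, ∀ k : ℤ, 1 / (2 * ((D : ℝ) + 1)) ≤ |t + k - a.re| := by
  classical
  have hD : (0 : ℝ) < (D : ℝ) + 1 := by positivity
  obtain ⟨m, hm, hm'⟩ := exists_mem_notMem_of_card_lt_card (t := range (D + 1))
    (s := (A.map fun a => (⌊((D : ℝ) + 1) * a.re⌋ % ((D : ℤ) + 1)).toNat).toFinset)
    (by
      refine lt_of_le_of_lt (Multiset.toFinset_card_le _) ?_
      rw [Multiset.card_map, card_range]
      omega)
  have hmD : m ≤ D := Nat.lt_succ_iff.1 (mem_range.1 hm)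
  have key : ∀ a ∈ A, ∀ k : ℤ,
      1 / (2 * ((D : ℝ) + 1)) ≤ |((m : ℝ) + 1 / 2) / ((D : ℝ) + 1) + k - a.re| := by
    intro a ha k
    by_contra hcon
    push Not at hcon
    apply hm'
    rw [Multiset.mem_toFinset, Multiset.mem_map]
    refine ⟨a, ha, ?_⟩
    have h1 : |(m : ℝ) + 1 / 2 + k * ((D : ℝ) + 1) - ((D : ℝ) + 1) * a.re| < 1 / 2 := by
      have e : (m : ℝ) + 1 / 2 + k * ((D : ℝ) + 1) - ((D : ℝ) + 1) * a.re =
          ((D : ℝ) + 1) * (((m : ℝ) + 1 / 2) / ((D : ℝ) + 1) + k - a.re) := by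
        field_simp
      rw [e, abs_mul, abs_of_pos hD]
      calc _ < ((D : ℝ) + 1) * (1 / (2 * ((D : ℝ) + 1))) := mul_lt_mul_of_pos_left hcon hD
        _ = 1 / 2 := by field_simp
    have h2 : ⌊((D : ℝ) + 1) * a.re⌋ = (m : ℤ) + k * ((D : ℤ) + 1) := by
      rw [Int.floor_eq_iff]
      rw [abs_lt] at h1
      push_cast
      constructor <;> linarith [h1.1, h1.2]
    rw [h2, Int.add_mul_emod_self_right, Int.emod_eq_of_lt (by omega) (by omega)]
    simp
  have h0 : 0 < ((m : ℝ) + 1 / 2) / ((D : ℝ) + 1) := by positivity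
  have h1 : ((m : ℝ) + 1 / 2) / ((D : ℝ) + 1) < 1 := by
    rw [div_lt_one hD]
    have : (m : ℝ) ≤ D := by exact_mod_cast hmD
    linarith
  by_cases h : ((m : ℝ) + 1 / 2) / ((D : ℝ) + 1) ≤ 1 / 2
  · exact ⟨_, abs_le.2 ⟨by linarith, h⟩, key⟩
  · refine ⟨((m : ℝ) + 1 / 2) / ((D : ℝ) + 1) - 1, abs_le.2 ⟨by linarith, by linarith⟩,
      fun a ha k => ?_⟩
    have := key a ha (k - 1)
    push_cast at this
    convert this using 2
    ring

theorem prod_erase_abs (i : ℕ) : ∀ N, i ≤ N →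
    ∏ k ∈ (range (N + 1)).erase i, |(i : ℝ) - k| = i.factorial * (N - i).factorial := by
  intro N hN
  induction N, hN using Nat.le_induction with
  | base =>
    rw [range_add_one, erase_insert notMem_range_self, Nat.sub_self, ← Nat.descFactorial_self,
      Nat.descFactorial_eq_prod_range]
    simp only [Nat.factorial_zero, Nat.cast_one, mul_one, Nat.cast_prod]
    refine prod_congr rfl fun k hk => ?_
    have := (mem_range.1 hk).le
    rw [Nat.cast_sub this, abs_of_nonneg (sub_nonneg.2 (by exact_mod_cast this))]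
  | succ N hN ih =>
    rw [range_add_one (n := N + 1), erase_insert_of_ne (by omega), prod_insert (by simp), ih,
      Nat.succ_sub hN, Nat.factorial_succ]
    have : (i : ℝ) ≤ N := by exact_mod_cast hN
    rw [abs_of_nonpos (by push_cast; linarith)]
    push_cast [Nat.cast_sub hN]
    ring

theorem prod_nodes_le {t : ℝ} (ht : |t| ≤ 1) (D : ℕ) :
    ∏ k ∈ range (2 * D + 1), |t + k - D| ≤ |t| * (D.factorial : ℝ) ^ 2 := by
  induction D with
  | zero => simp
  | succ D ih =>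
    rw [show 2 * (D + 1) + 1 = 2 * D + 1 + 1 + 1 by ring, prod_range_succ, prod_range_succ']
    have e : ∀ k : ℕ, |t + ((k + 1 : ℕ) : ℝ) - ((D + 1 : ℕ) : ℝ)| = |t + k - D| := fun k => by
      push_cast; ring_nf
    simp only [e]
    have h1 : |t + ((0 : ℕ) : ℝ) - ((D + 1 : ℕ) : ℝ)| * |t + ((2 * D + 1 : ℕ) : ℝ) - D| ≤
        ((D : ℝ) + 1) ^ 2 := by
      rw [← abs_mul]
      have e2 : (t + ((0 : ℕ) : ℝ) - ((D + 1 : ℕ) : ℝ)) * (t + ((2 * D + 1 : ℕ) : ℝ) - D) =
          t ^ 2 - ((D : ℝ) + 1) ^ 2 := by push_cast; ring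
      have h2 : t ^ 2 ≤ 1 := by
        rw [← sq_abs]
        exact pow_le_one₀ (abs_nonneg _) ht
      have h3 : (1 : ℝ) ≤ ((D : ℝ) + 1) ^ 2 := one_le_pow₀ (by linarith [Nat.cast_nonneg (α := ℝ) D])
      rw [e2, abs_of_nonpos (by linarith)]
      linarith [sq_nonneg t]
    rw [mul_assoc, Nat.factorial_succ]
    calc _ ≤ |t| * (D.factorial : ℝ) ^ 2 * ((D : ℝ) + 1) ^ 2 :=
          mul_le_mul ih h1 (by positivity) (by positivity)
      _ = _ := by push_cast; ring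

theorem sq_factorial_le (D i : ℕ) (hi : i ≤ 2 * D) :
    D.factorial ^ 2 ≤ i.factorial * (2 * D - i).factorial := by
  have h1 := Nat.choose_mul_factorial_mul_factorial hi
  have h2 := Nat.choose_mul_factorial_mul_factorial (show D ≤ 2 * D by omega)
  rw [show 2 * D - D = D by omega] at h2
  have h3 : (2 * D).choose i ≤ (2 * D).choose D := Nat.choose_le_centralBinom i D
  have h4 : 0 < (2 * D).choose D := Nat.choose_pos (by omega)
  refine Nat.le_of_mul_le_mul_left ?_ h4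
  calc (2 * D).choose D * D.factorial ^ 2 = (2 * D).factorial := by rw [← h2]; ring
    _ = (2 * D).choose i * (i.factorial * (2 * D - i).factorial) := by rw [← h1]; ring
    _ ≤ _ := Nat.mul_le_mul_right _ h3

/-- The value at the centre of a system of equally spaced nodes. -/
theorem lagrange_center (q : Polynomial ℝ) (D : ℕ) (hq : q.natDegree ≤ 2 * D) {t B : ℝ}
    (ht : |t| ≤ 1 / 2) (ht0 : t ≠ 0) (hB : ∀ k ≤ 2 * D, |q.eval (t + k - D)| ≤ B) :
    |q.eval 0| ≤ (2 * D + 1) * B := by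
  classical
  set v : ℕ → ℝ := fun k => t + k - D with hv
  have hinj : Set.InjOn v (range (2 * D + 1) : Finset ℕ) := fun a _ b _ h => by
    simp only [hv] at h
    exact_mod_cast (show (a : ℝ) = b by linarith)
  have h1 := Lagrange.eq_interpolate (s := range (2 * D + 1)) (v := v) (f := q) hinj (by
    rw [card_range]
    exact lt_of_le_of_lt Polynomial.degree_le_natDegree (by exact_mod_cast Nat.lt_succ_of_le hq))
  have h2 := congrArg (Polynomial.eval 0) h1
  rw [Lagrange.interpolate_apply, Polynomial.eval_finsetSum] at h2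
  rw [h2]
  refine (abs_sum_le_sum_abs _ _).trans ((sum_le_card_nsmul _ _ B fun i hi => ?_).trans
    (by simp))
  have hi' : i ≤ 2 * D := Nat.lt_succ_iff.1 (mem_range.1 hi)
  rw [Polynomial.eval_mul, Polynomial.eval_C, abs_mul]
  refine (mul_le_of_le_one_right (abs_nonneg _) ?_).trans (hB i hi')
  have h3 : |(Lagrange.basis (range (2 * D + 1)) v i).eval 0| =
      (∏ k ∈ (range (2 * D + 1)).erase i, |v k|) /
        ∏ k ∈ (range (2 * D + 1)).erase i, |(i : ℝ) - k| := by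
    rw [Lagrange.basis, Polynomial.eval_prod, abs_prod, ← prod_div_distrib]
    refine prod_congr rfl fun k _ => ?_
    simp only [Lagrange.basisDivisor, Polynomial.eval_mul, Polynomial.eval_C, Polynomial.eval_sub,
      Polynomial.eval_X, zero_sub, abs_mul, abs_neg, abs_inv, hv]
    rw [div_eq_inv_mul]
    congr 3
    ring
  have h4 : |t| ≤ |v i| := by
    by_cases h : i = D
    · simp [hv, h]
    · have h5 : (1 : ℝ) ≤ |(i : ℝ) - D| := by
        have : (1 : ℤ) ≤ |(i : ℤ) - D| := Int.one_le_abs (by omega)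
        exact_mod_cast this
      have h6 := abs_sub_abs_le_abs_sub ((i : ℝ) - D) (-t)
      rw [abs_neg, show (i : ℝ) - D - -t = v i by simp only [hv]; ring] at h6
      linarith
  have h5 := prod_nodes_le (t := t) (by linarith) D
  rw [← mul_prod_erase _ _ hi] at h5
  have h6 : ((D.factorial : ℝ)) ^ 2 ≤ i.factorial * (2 * D - i).factorial := by
    exact_mod_cast sq_factorial_le D i hi'
  have h7 : 0 < |t| := abs_pos.2 ht0
  rw [h3, prod_erase_abs i _ hi', div_le_one (by positivity)]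
  refine le_trans (le_of_mul_le_mul_left ?_ h7) h6
  exact le_trans (mul_le_mul_of_nonneg_right h4 (prod_nonneg fun _ _ => abs_nonneg _)) h5

/-- The squared absolute value of the monic polynomial with the roots `A`. -/
noncomputable def FF (A : Multiset ℂ) (y : ℝ) : ℝ := (A.map fun a => ‖(y : ℂ) - a‖ ^ 2).prod

theorem FF_nonneg (A : Multiset ℂ) (y : ℝ) : 0 ≤ FF A y :=
  Multiset.prod_nonneg fun x hx => by
    obtain ⟨a, -, rfl⟩ := Multiset.mem_map.1 hx
    positivity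

theorem exists_poly_FF (A : Multiset ℂ) :
    ∃ q : Polynomial ℝ, q.natDegree ≤ 2 * A.card ∧ ∀ y, q.eval y = FF A y := by
  induction A using Multiset.induction_on with
  | empty => exact ⟨1, by simp, fun y => by simp [FF]⟩
  | cons a A ih =>
    obtain ⟨q, h1, h2⟩ := ih
    refine ⟨((Polynomial.X - Polynomial.C a.re) ^ 2 + Polynomial.C (a.im ^ 2)) * q, ?_,
      fun y => ?_⟩
    · refine Polynomial.natDegree_mul_le.trans ?_
      have : ((Polynomial.X - Polynomial.C a.re) ^ 2 + Polynomial.C (a.im ^ 2)).natDegree ≤ 2 := by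
        compute_degree
      rw [Multiset.card_cons]
      omega
    · rw [Polynomial.eval_mul, h2, FF, FF, Multiset.map_cons, Multiset.prod_cons,
        Complex.sq_norm, Complex.normSq_apply]
      simp [sq]

theorem FF_pos {A : Multiset ℂ} {y γ : ℝ} (hγ : 0 < γ) (h : ∀ a ∈ A, γ ≤ ‖(y : ℂ) - a‖) :
    0 < FF A y :=
  Multiset.prod_pos fun x hx => by
    obtain ⟨a, ha, rfl⟩ := Multiset.mem_map.1 hx
    exact pow_pos (hγ.trans_le (h a ha)) 2

theorem FF_perturb {y y' γ θ : ℝ} (h0 : 0 ≤ θ) (h1 : θ ≤ 1) (hy : |y' - y| ≤ θ * γ)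
    (A : Multiset ℂ) (h : ∀ a ∈ A, γ ≤ ‖(y : ℂ) - a‖) :
    (1 - θ) ^ (2 * A.card) * FF A y ≤ FF A y' ∧ (1 - θ) ^ (2 * A.card) * FF A y' ≤ FF A y := by
  induction A using Multiset.induction_on with
  | empty => simp [FF]
  | cons a A ih =>
    obtain ⟨h2, h3⟩ := ih fun b hb => h b (Multiset.mem_cons_of_mem hb)
    have h4 := h a (Multiset.mem_cons_self a A)
    have h5 : ‖((y' : ℂ) - a) - ((y : ℂ) - a)‖ ≤ θ * ‖(y : ℂ) - a‖ := by
      rw [sub_sub_sub_cancel_right, ← Complex.ofReal_sub, Complex.norm_real, Real.norm_eq_abs]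
      exact hy.trans (mul_le_mul_of_nonneg_left h4 h0)
    have h6 := abs_le.1 ((abs_norm_sub_norm_le _ _).trans h5)
    have h7 : ((1 - θ) * ‖(y : ℂ) - a‖) ^ 2 ≤ ‖(y' : ℂ) - a‖ ^ 2 :=
      pow_le_pow_left₀ (mul_nonneg (by linarith) (norm_nonneg _)) (by linarith [h6.1]) 2
    have h8 : ((1 - θ) * ‖(y' : ℂ) - a‖) ^ 2 ≤ ‖(y : ℂ) - a‖ ^ 2 := by
      refine pow_le_pow_left₀ (mul_nonneg (by linarith) (norm_nonneg _)) ?_ 2
      have h9 : ‖(y' : ℂ) - a‖ ≤ (1 + θ) * ‖(y : ℂ) - a‖ := by linarith [h6.2]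
      have h10 := mul_le_mul_of_nonneg_left h9 (show 0 ≤ 1 - θ by linarith)
      nlinarith [mul_nonneg (mul_nonneg h0 h0) (norm_nonneg ((y : ℂ) - a))]
    have e : ∀ z : ℝ, FF (a ::ₘ A) z = ‖(z : ℂ) - a‖ ^ 2 * FF A z := fun z => by
      rw [FF, FF, Multiset.map_cons, Multiset.prod_cons]
    have hp : 0 ≤ (1 - θ) ^ (2 * A.card) := pow_nonneg (by linarith) _
    rw [e, e, Multiset.card_cons, mul_add, pow_add, mul_one]
    constructor
    · calc _ = ((1 - θ) * ‖(y : ℂ) - a‖) ^ 2 * ((1 - θ) ^ (2 * A.card) * FF A y) := by ring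
        _ ≤ _ := mul_le_mul h7 h2 (mul_nonneg hp (FF_nonneg _ _)) (by positivity)
    · calc _ = ((1 - θ) * ‖(y' : ℂ) - a‖) ^ 2 * ((1 - θ) ^ (2 * A.card) * FF A y') := by ring
        _ ≤ _ := mul_le_mul h8 h3 (mul_nonneg hp (FF_nonneg _ _)) (by positivity)

/-- Two numbers differ by the factor `1 + ε`. -/
def Apart (ε u v : ℝ) : Prop := (0 < u ∧ (1 + ε) * u ≤ v) ∨ (0 < v ∧ (1 + ε) * v ≤ u)

theorem Apart.symm {ε u v : ℝ} (h : Apart ε u v) : Apart ε v u := Or.symm h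

theorem Apart.smul {ε u v c : ℝ} (h : Apart ε u v) (hc : 0 < c) : Apart ε (c * u) (c * v) := by
  rcases h with h | h
  · exact Or.inl ⟨mul_pos hc h.1, by nlinarith [h.2]⟩
  · exact Or.inr ⟨mul_pos hc h.1, by nlinarith [h.2]⟩

/-- The separation lemma. -/
theorem sep (A : Multiset ℂ) (D : ℕ) (hA : A.card ≤ D) (h0 : (0 : ℂ) ∈ A) :
    ∃ y : ℝ, |y| ≤ D + 1 ∧ ∀ y' : ℝ, |y' - y| ≤ 1 / (128 * ((D : ℝ) + 1) ^ 4) →
      Apart (1 / (8 * ((D : ℝ) + 1) ^ 2)) (FF A y') (FF A (y' + 1)) := by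
  obtain ⟨t, ht, ht'⟩ := exists_offset A D hA
  have hD : (0 : ℝ) < (D : ℝ) + 1 := by positivity
  have hD0 : (0 : ℝ) ≤ D := Nat.cast_nonneg D
  set γ : ℝ := 1 / (2 * ((D : ℝ) + 1)) with hγ
  set ε : ℝ := 1 / (4 * ((D : ℝ) + 1) ^ 2) with hε
  have hγ0 : 0 < γ := by positivity
  have hε0 : 0 < ε := by positivity
  have hε1 : ε ≤ 1 := by
    rw [hε, div_le_one (by positivity)]
    nlinarith
  have hdist : ∀ k : ℕ, ∀ a ∈ A, γ ≤ ‖((t + k - D : ℝ) : ℂ) - a‖ := by
    intro k a ha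
    refine (ht' a ha ((k : ℤ) - D)).trans (le_trans (le_of_eq ?_) (Complex.abs_re_le_norm _))
    congr 1
    simp only [Complex.sub_re, Complex.ofReal_re]
    push_cast
    ring
  have hpos : ∀ k : ℕ, 0 < FF A (t + k - D) := fun k => FF_pos hγ0 (hdist k)
  have hstep : ∃ k < 2 * D, (1 + ε) * FF A (t + k - D) ≤ FF A (t + (k + 1 : ℕ) - D) ∨
      (1 + ε) * FF A (t + (k + 1 : ℕ) - D) ≤ FF A (t + k - D) := by
    by_contra hcon
    push Not at hcon
    obtain ⟨k0, hk0, hM⟩ := exists_max_image (range (2 * D + 1)) (fun k => FF A (t + k - D))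
      ⟨0, by simp⟩
    set M := FF A (t + k0 - D) with hMdef
    have h1 : ∀ k ≤ 2 * D, |FF A (t + k - D) - FF A (t + (0 : ℕ) - D)| ≤ k * (ε * M) := by
      intro k
      induction k with
      | zero => simp
      | succ k ih =>
        intro hk
        obtain ⟨h2, h3⟩ := hcon k (by omega)
        have h4 := abs_le.1 (ih (by omega))
        have h5 := mul_le_mul_of_nonneg_left (hM k (mem_range.2 (by omega))) hε0.le
        have h6 := mul_le_mul_of_nonneg_left (hM (k + 1) (mem_range.2 (by omega))) hε0.le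
        rw [abs_le]
        push_cast at h2 h3 h4 h6 ⊢
        constructor <;> nlinarith [h4.1, h4.2]
    have hM0 : 0 < M := hpos k0
    have h2 : ∀ k ≤ 2 * D, |FF A (t + k - D) - FF A (t + (0 : ℕ) - D)| ≤ 2 * D * (ε * M) :=
      fun k hk => (h1 k hk).trans (mul_le_mul_of_nonneg_right (by exact_mod_cast hk)
        (by positivity))
    obtain ⟨q, hq, hq'⟩ := exists_poly_FF A
    have ht0 : t ≠ 0 := by
      rintro rfl
      have := ht' 0 h0 0
      simp only [Int.cast_zero, add_zero, Complex.zero_re, sub_zero, abs_zero] at this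
      linarith
    have h3 := lagrange_center (q - Polynomial.C (FF A (t + (0 : ℕ) - D))) D
      ((Polynomial.natDegree_sub_C).le.trans (hq.trans (by omega))) ht ht0
      (B := 2 * D * (ε * M)) fun k hk => by
        rw [Polynomial.eval_sub, Polynomial.eval_C, hq']
        exact h2 k hk
    have h4 : FF A 0 = 0 :=
      Multiset.prod_eq_zero (Multiset.mem_map.2 ⟨0, h0, by simp⟩)
    rw [Polynomial.eval_sub, Polynomial.eval_C, hq', h4, zero_sub, abs_neg,
      abs_of_pos (hpos 0)] at h3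
    have h5 := (abs_le.1 (h2 k0 (Nat.lt_succ_iff.1 (mem_range.1 hk0)))).2
    have h6 : (2 * D + 2) * (2 * D) * ε < 1 := by
      rw [hε, mul_one_div, div_lt_one (by positivity)]
      nlinarith
    nlinarith
  obtain ⟨k, hk, hk'⟩ := hstep
  refine ⟨t + k - D, ?_, fun y' hy' => ?_⟩
  · have h1 : (k : ℝ) ≤ 2 * D := by exact_mod_cast hk.le
    have h2 := abs_le.1 ht
    have h3 : (0 : ℝ) ≤ k := Nat.cast_nonneg k
    rw [abs_le]
    constructor <;> linarith [h2.1, h2.2]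
  set θ : ℝ := ε / (16 * ((D : ℝ) + 1)) with hθ
  have hθ0 : 0 ≤ θ := by positivity
  have hθ1 : θ ≤ 1 := by
    rw [hθ, div_le_one (by positivity)]
    linarith
  have e1 : 1 / (128 * ((D : ℝ) + 1) ^ 4) = θ * γ := by
    rw [hθ, hε, hγ]
    field_simp
    ring
  have e2 : 1 / (8 * ((D : ℝ) + 1) ^ 2) = ε / 2 := by
    rw [hε]
    field_simp
    ring
  rw [e1] at hy'
  rw [e2]
  obtain ⟨a1, a2⟩ := FF_perturb hθ0 hθ1 hy' A (hdist k)
  obtain ⟨b1, b2⟩ := FF_perturb (y := t + (k + 1 : ℕ) - D) (y' := y' + 1) hθ0 hθ1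
    (by push_cast; convert hy' using 2; ring) A (hdist (k + 1))
  have hκ : 1 - ε / 8 ≤ (1 - θ) ^ (2 * A.card) := by
    have h1 := one_add_mul_le_pow (a := -θ) (by linarith) (2 * A.card)
    have h2 : ((2 * A.card : ℕ) : ℝ) ≤ 2 * (D + 1) := by
      have : (A.card : ℝ) ≤ D := by exact_mod_cast hA
      push_cast
      linarith
    have h3 : 2 * ((D : ℝ) + 1) * θ = ε / 8 := by
      rw [hθ]
      field_simp
      ring
    have h4 := mul_le_mul_of_nonneg_right h2 hθ0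
    rw [sub_eq_add_neg 1 θ]
    linarith
  generalize (1 - θ) ^ (2 * A.card) = κ at *
  have p1 := hpos k
  have p2 := hpos (k + 1)
  have hκ0 : 0 < κ := by linarith
  have hκ2 : 1 + ε / 2 ≤ κ * κ * (1 + ε) := by
    have : (1 - ε / 8) * (1 - ε / 8) ≤ κ * κ := mul_le_mul hκ hκ (by linarith) hκ0.le
    have h1 := mul_le_mul_of_nonneg_right this (show 0 ≤ 1 + ε by linarith)
    nlinarith [mul_nonneg hε0.le (sub_nonneg.2 hε1), mul_nonneg hε0.le hε0.le,
      mul_nonneg (mul_nonneg hε0.le hε0.le) hε0.le]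
  have key : ∀ u v u' v' : ℝ, 0 < u → (1 + ε) * u ≤ v → κ * u ≤ u' → κ * u' ≤ u → κ * v ≤ v' →
      0 < u' ∧ (1 + ε / 2) * u' ≤ v' := by
    intro u v u' v' h1 h2 h3 h4 h5
    have h6 : 0 < u' := (mul_pos hκ0 h1).trans_le h3
    refine ⟨h6, ?_⟩
    calc (1 + ε / 2) * u' ≤ κ * κ * (1 + ε) * u' := mul_le_mul_of_nonneg_right hκ2 h6.le
      _ = κ * ((1 + ε) * (κ * u')) := by ring
      _ ≤ κ * ((1 + ε) * u) := by gcongr
      _ ≤ κ * v := by gcongr
      _ ≤ v' := h5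
  rcases hk' with h | h
  · exact Or.inl (key _ _ _ _ p1 h a1 a2 b1)
  · exact Or.inr (key _ _ _ _ p2 h b1 b2 a1)

/-! ### Isolation -/

/-- The larger of two numbers is positive and exceeds the other one by the factor `1 + ε`. -/
def Gap (ε u v : ℝ) : Prop := (0 < v ∧ (1 + ε) * u ≤ v) ∨ (0 < u ∧ (1 + ε) * v ≤ u)

theorem exists_gap {α : Type*} (S : Finset α) (f : α → ℝ) {D : ℕ} (hD : S.card ≤ D) {ε u : ℝ}
    (hε0 : 0 < ε) (hε1 : ε ≤ 1) (hu : 0 < u) :
    ∃ θ, u ≤ θ ∧ (1 + ε / (2 * ((D : ℝ) + 1))) * θ ≤ (1 + ε) * u ∧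
      ∀ a ∈ S, f a ≤ θ ∨ (1 + ε / (2 * ((D : ℝ) + 1))) * θ ≤ f a := by
  have hD0 : (0 : ℝ) < (D : ℝ) + 1 := by positivity
  set η : ℝ := ε / ((D : ℝ) + 1) with hη
  have hη0 : 0 < η := by positivity
  have e1 : ε / (2 * ((D : ℝ) + 1)) = η / 2 := by
    rw [hη]
    field_simp
  have e2 : ((D : ℝ) + 1) * η = ε := by
    rw [hη]
    field_simp
  rw [e1]
  have h1 : ∀ k : ℕ, k ≤ D → (1 + η / 2) * (u * (1 + k * η)) ≤ u * (1 + (k + 1) * η) := by
    intro k hk
    have h2 : (k : ℝ) ≤ D := by exact_mod_cast hk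
    have h3 : k * η ≤ 1 := by nlinarith
    have h4 := mul_le_mul_of_nonneg_left h3 (mul_pos hu hη0).le
    nlinarith
  by_contra hcon
  push Not at hcon
  have h2 : ∀ k : ℕ, k < D + 1 → ∃ a ∈ S, u * (1 + k * η) < f a ∧ f a < u * (1 + (k + 1) * η) := by
    intro k hk
    have h3 : (k : ℝ) ≤ D := by exact_mod_cast Nat.lt_succ_iff.1 hk
    have h4 := h1 k (by omega)
    have h5 : (0 : ℝ) ≤ k * η := by positivity
    obtain ⟨a, ha, h6, h7⟩ := hcon (u * (1 + k * η)) (by nlinarith) (h4.trans (by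
      have : (k + 1) * η ≤ ε := by nlinarith
      nlinarith))
    exact ⟨a, ha, h6, h7.trans_le h4⟩
  obtain ⟨a0, -⟩ := h2 0 (by omega)
  have : Nonempty α := ⟨a0⟩
  choose! g hg1 hg2 hg3 using h2
  obtain ⟨k, hk, k', hk', hne, heq⟩ := exists_ne_map_eq_of_card_lt_of_maps_to
    (s := range (D + 1)) (t := S) (by rw [card_range]; omega) (f := g)
    (fun k hk => hg1 k (mem_range.1 hk))
  have key : ∀ k k' : ℕ, k < D + 1 → k' < D + 1 → k < k' → g k ≠ g k' := by
    intro k k' hk hk' hlt heq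
    have h3 := hg3 k hk
    have h4 := hg2 k' hk'
    have h5 : (k : ℝ) + 1 ≤ k' := by exact_mod_cast hlt
    have h6 := mul_le_mul_of_nonneg_left h5 (mul_pos hu hη0).le
    rw [heq] at h3
    nlinarith
  rcases lt_or_gt_of_ne hne with h | h
  · exact key k k' (mem_range.1 hk) (mem_range.1 hk') h heq
  · exact key k' k (mem_range.1 hk') (mem_range.1 hk) h heq.symm

theorem isolate {α ι : Type*} [DecidableEq α] (S : Finset α) (hS : S.Nonempty) (w : ι → α → ℝ)
    (ok : ι → Prop) {ε : ℝ} (hε0 : 0 < ε) (hε1 : ε ≤ 1) {D : ℕ} (hD : S.card ≤ D)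
    (hsep : ∀ a ∈ S, ∀ b ∈ S, a ≠ b → ∃ τ, ok τ ∧ Apart ε (w τ a) (w τ b)) :
    ∃ (l : List ι) (a : α), a ∈ S ∧ 2 ^ l.length ≤ S.card ∧ (∀ τ ∈ l, ok τ) ∧
      ∀ b ∈ S, b ≠ a → ∃ τ ∈ l, Gap (ε / (2 * ((D : ℝ) + 1))) (w τ a) (w τ b) := by
  set η : ℝ := ε / (2 * ((D : ℝ) + 1)) with hη
  have hη0 : 0 < η := by positivity
  obtain ⟨l, a, ha, h1, h2, h3⟩ := Vale.Agent.P337.halving
    (fun (c : ι × ℝ × Bool) (a : α) =>
      if c.2.2 = true then (1 + η) * c.2.1 ≤ w c.1 a else w c.1 a ≤ c.2.1)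
    (fun c => ok c.1 ∧ 0 < c.2.1 ∧ ∀ a ∈ S, w c.1 a ≤ c.2.1 ∨ (1 + η) * c.2.1 ≤ w c.1 a)
    S.card S rfl hS
    (by
      rintro ⟨τ, θ, d⟩ ⟨h1, h2, h3⟩
      refine ⟨(τ, θ, !d), ⟨h1, h2, h3⟩, fun a ha => ?_⟩
      have h4 := h3 a ha
      have h5 : θ < (1 + η) * θ := by nlinarith [mul_pos hη0 h2]
      dsimp only at h4 ⊢
      cases d
      · simp only [Bool.not_false, if_true, Bool.false_eq_true, if_false, not_le]
        exact ⟨fun h => h5.trans_le h, fun h => h4.resolve_left (not_le.2 h)⟩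
      · simp only [Bool.not_true, if_true, Bool.false_eq_true, if_false, not_le]
        exact ⟨fun h => h.trans_lt h5, fun h => h4.resolve_right (not_le.2 h)⟩)
    (by
      intro a ha b hb hab
      obtain ⟨τ, h1, h2 | h2⟩ := hsep a ha b hb hab
      · obtain ⟨θ, h3, h4, h5⟩ := exists_gap S (w τ) hD hε0 hε1 h2.1
        have h6 : 0 < θ := h2.1.trans_le h3
        refine ⟨(τ, θ, false), ⟨h1, h6, h5⟩, by simpa using h3, ?_⟩
        simp only [Bool.false_eq_true, if_false, not_le]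
        nlinarith [mul_pos hη0 h6, h2.2]
      · obtain ⟨θ, h3, h4, h5⟩ := exists_gap S (w τ) hD hε0 hε1 h2.1
        have h6 : 0 < θ := h2.1.trans_le h3
        refine ⟨(τ, θ, true), ⟨h1, h6, h5⟩, by simpa using h4.trans h2.2, ?_⟩
        simp only [if_true, not_le]
        nlinarith [mul_pos hη0 h6])
  refine ⟨l.map Prod.fst, a, ha, by simpa using h1, fun τ hτ => ?_, fun b hb hba => ?_⟩
  · obtain ⟨c, hc, rfl⟩ := List.mem_map.1 hτ
    exact (h2 c hc).1.1
  · obtain ⟨⟨τ, θ, d⟩, hc, h4⟩ := h3 b hb hba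
    obtain ⟨⟨-, h5, h6⟩, h7⟩ := h2 _ hc
    have h8 := h6 b hb
    have h9 : 0 < (1 + η) * θ := by positivity
    refine ⟨τ, List.mem_map.2 ⟨_, hc, rfl⟩, ?_⟩
    dsimp only at h4 h5 h7 h8
    cases d
    · simp only [Bool.false_eq_true, if_false] at h4 h7
      have h10 := h8.resolve_left h4
      exact Or.inl ⟨h9.trans_le h10, (mul_le_mul_of_nonneg_left h7 (by linarith)).trans h10⟩
    · simp only [if_true] at h4 h7
      have h10 := h8.resolve_right h4
      exact Or.inr ⟨h9.trans_le h7, (mul_le_mul_of_nonneg_left h10 (by linarith)).trans h7⟩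

/-- A floating point window around `v0`. -/
theorem exists_window (B T : ℕ) {v0 : ℝ} (h0 : 0 ≤ v0) (hlow : v0 ≠ 0 → 1 ≤ 2 ^ B * v0)
    (hup : v0 ≤ 2 ^ B) : ∃ S ≤ 2 * B + T, ∃ c : ℕ, c < 2 ^ (T + 1) ∧
      |2 ^ S * v0 - c * 2 ^ B| ≤ 2 ^ B ∧ (0 < v0 → 2 ^ T ≤ c) ∧
      ∀ v ε κ : ℝ, (v ≠ 0 → 1 ≤ 2 ^ B * v) → 0 < ε → ε ≤ 1 → 0 ≤ κ → 2 * (κ + 1) ≤ ε * 2 ^ T →
        Gap ε v0 v → κ * 2 ^ B ≤ |2 ^ S * v - c * 2 ^ B| := by
  have hB : (0 : ℝ) < 2 ^ B := by positivity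
  have hT : (0 : ℝ) < 2 ^ T := by positivity
  rcases h0.eq_or_lt with rfl | hpos
  · refine ⟨2 * B + T, le_rfl, 0, by positivity, by simp, fun h => absurd h (lt_irrefl _),
      fun v ε κ h1 h2 h3 h4 h5 h6 => ?_⟩
    rcases h6 with h6 | h6
    · have h7 := h1 h6.1.ne'
      have h8 : κ ≤ 2 ^ T := by nlinarith
      rw [Nat.cast_zero, zero_mul, sub_zero, abs_of_pos (mul_pos (by positivity) h6.1)]
      calc κ * 2 ^ B ≤ 2 ^ T * 2 ^ B * 1 := by nlinarith
        _ ≤ 2 ^ T * 2 ^ B * (2 ^ B * v) := mul_le_mul_of_nonneg_left h7 (by positivity)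
        _ = _ := by ring
    · exact absurd h6.1 (lt_irrefl _)
  obtain ⟨n, hn1, hn2⟩ := exists_nat_pow_near (hlow hpos.ne') (by norm_num : (1 : ℝ) < 2)
  have hn : n ≤ 2 * B := by
    have h1 : (2 : ℝ) ^ n ≤ 2 ^ (2 * B) := by
      rw [two_mul, pow_add]
      exact hn1.trans (mul_le_mul_of_nonneg_left hup hB.le)
    exact (pow_le_pow_iff_right₀ (by norm_num : (1 : ℝ) < 2)).1 h1
  obtain ⟨z, hz1, hz2, hz⟩ : ∃ z : ℝ, 2 ^ T ≤ z ∧ z < 2 ^ (T + 1) ∧
      2 ^ (2 * B - n + T) * v0 = z * 2 ^ B := by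
    have hn0 : (0 : ℝ) < 2 ^ n := by positivity
    refine ⟨2 ^ T * (2 ^ B * v0 / 2 ^ n), le_mul_of_one_le_right hT.le ((one_le_div hn0).2 hn1),
      ?_, ?_⟩
    · rw [pow_succ]
      refine mul_lt_mul_of_pos_left ?_ hT
      rw [div_lt_iff₀ hn0]
      rw [pow_succ] at hn2
      linarith
    · have e : (2 : ℝ) ^ (2 * B - n) * 2 ^ n = 2 ^ B * 2 ^ B := by
        rw [← pow_add, ← pow_add]
        congr 1
        omega
      rw [pow_add]
      field_simp
      linear_combination e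
  have hz0 : 0 ≤ z := hT.le.trans hz1
  have hf1 := Nat.floor_le hz0
  have hf2 := Nat.lt_floor_add_one z
  refine ⟨2 * B - n + T, by omega, ⌊z⌋₊, ?_, ?_, fun _ => Nat.le_floor (by exact_mod_cast hz1),
    fun v ε κ _ h2 h3 h4 h5 h6 => ?_⟩
  · exact (Nat.floor_lt hz0).2 (by exact_mod_cast hz2)
  · rw [hz, abs_le]
    constructor <;> nlinarith
  have hS : (0 : ℝ) < 2 ^ (2 * B - n + T) := by positivity
  have h7 : 2 * (κ + 1) ≤ ε * z := h5.trans (mul_le_mul_of_nonneg_left hz1 h2.le)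
  have h8 := mul_le_mul_of_nonneg_right h7 hB.le
  rcases h6 with h6 | h6
  · have h9 := mul_le_mul_of_nonneg_left h6.2 hS.le
    rw [mul_left_comm, hz] at h9
    refine le_trans ?_ (le_abs_self _)
    nlinarith
  · have h9 := mul_le_mul_of_nonneg_left h6.2 hS.le
    rw [hz] at h9
    refine le_trans ?_ (neg_le_abs _)
    have h10 : 2 ^ (2 * B - n + T) * v ≤ (1 - ε / 2) * (z * 2 ^ B) := by
      refine le_of_mul_le_mul_left ?_ (show 0 < 1 + ε by linarith)
      have h11 : 0 ≤ z * 2 ^ B := by positivity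
      have h12 : 1 ≤ (1 + ε) * (1 - ε / 2) := by nlinarith
      nlinarith
    nlinarith

end Vale.Agent.N47
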