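import Vale.Agent.N47.Sep
import Vale.Agent.P337.StepD

/-!
The abstract real root test with a sum of squares of window tests.
-/

namespace Vale.Agent.N47

open Vale.Agent.P337 Finset ComplexConjugate

/-- The sum of the squared window tests, minus the threshold. -/
def G3 {S : Type*} [CommRing S] (B m : ℕ) (f : ℕ → ℕ) (u : ℕ → S) (h : S) : S :=
  ∑ l ∈ range m, (2 ^ f (3 * l) * u (f (3 * l + 1)) ^ 2 - (f (3 * l + 2) : S) * 2 ^ B) ^ 2 +
    (2 ^ f (3 * m) * h - ((f (3 * m + 2) + m + 2 : ℕ) : S) * 2 ^ B) ^ 2 -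
      ((m + 2 : ℕ) : S) * (2 ^ B) ^ 2

/-- The test element with code `f`. -/
def G4 {S : Type*} [CommRing S] (B m D : ℕ) (f : ℕ → ℕ) (u : ℕ → S) (h : S) : S :=
  ((D + 2 : ℕ) : S) * G3 B m f u h + ((f (3 * m + 1) + 1 : ℕ) : S)

theorem map_G3 {R S : Type*} [CommRing R] [CommRing S] (φ : R →+* S) (B m : ℕ) (f : ℕ → ℕ)
    (u : ℕ → R) (h : R) : φ (G3 B m f u h) = G3 B m f (fun j => φ (u j)) (φ h) := by
  simp only [G3, map_add, map_mul, map_natCast, map_sub, map_sum, map_pow, map_ofNat]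

theorem map_G4 {R S : Type*} [CommRing R] [CommRing S] (φ : R →+* S) (B m D : ℕ) (f : ℕ → ℕ)
    (u : ℕ → R) (h : R) : φ (G4 B m D f u h) = G4 B m D f (fun j => φ (u j)) (φ h) := by
  simp only [G4, map_add, map_mul, map_natCast, map_G3]

theorem G3_congr {S : Type*} [CommRing S] (B m : ℕ) {f g : ℕ → ℕ} (u : ℕ → S) (h : S)
    (h0 : ∀ l ≤ m, f (3 * l) = g (3 * l)) (h1 : ∀ l < m, f (3 * l + 1) = g (3 * l + 1))
    (h2 : ∀ l ≤ m, f (3 * l + 2) = g (3 * l + 2)) : G3 B m f u h = G3 B m g u h := by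
  unfold G3
  rw [h0 m le_rfl, h2 m le_rfl]
  congr 2
  refine sum_congr rfl fun l hl => ?_
  have := mem_range.1 hl
  rw [h0 l this.le, h1 l this, h2 l this.le]

theorem pos_of_G3_neg {B m : ℕ} {f : ℕ → ℕ} {u : ℕ → ℝ} {h : ℝ} (hneg : G3 B m f u h < 0) :
    0 < h := by
  by_contra hcon
  have h1 : h ≤ 0 := not_lt.1 hcon
  have h2 : 0 ≤ ∑ l ∈ range m,
      (2 ^ f (3 * l) * u (f (3 * l + 1)) ^ 2 - (f (3 * l + 2) : ℝ) * 2 ^ B) ^ 2 :=
    sum_nonneg fun _ _ => sq_nonneg _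
  have hB : (0 : ℝ) < 2 ^ B := by positivity
  have h3 : (2 : ℝ) ^ f (3 * m) * h ≤ 0 := mul_nonpos_of_nonneg_of_nonpos (by positivity) h1
  have h4 : (0 : ℝ) ≤ f (3 * m + 2) := Nat.cast_nonneg _
  have h5 : (0 : ℝ) ≤ m := Nat.cast_nonneg _
  have h6 : ((m : ℝ) + 2) * 2 ^ B ≤
      -(2 ^ f (3 * m) * h - ((f (3 * m + 2) : ℝ) + m + 2) * 2 ^ B) := by nlinarith
  have h7 := pow_le_pow_left₀ (by positivity) h6 2
  rw [neg_sq, mul_pow] at h7
  have h8 : ((m : ℝ) + 2) * (2 ^ B) ^ 2 ≤ ((m : ℝ) + 2) ^ 2 * (2 ^ B) ^ 2 :=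
    mul_le_mul_of_nonneg_right (by nlinarith) (by positivity)
  unfold G3 at hneg
  push_cast at hneg
  linarith

theorem G3_nonneg_of_far {B m : ℕ} {f : ℕ → ℕ} {u : ℕ → ℝ} {h : ℝ} {l : ℕ} (hl : l < m)
    (hfar : ((m : ℝ) + 2) * 2 ^ B ≤
      |2 ^ f (3 * l) * u (f (3 * l + 1)) ^ 2 - (f (3 * l + 2) : ℝ) * 2 ^ B|) :
    0 ≤ G3 B m f u h := by
  have h2 := single_le_sum (f := fun l =>
    (2 ^ f (3 * l) * u (f (3 * l + 1)) ^ 2 - (f (3 * l + 2) : ℝ) * 2 ^ B) ^ 2)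
    (fun _ _ => sq_nonneg _) (mem_range.2 hl)
  have h5 : (0 : ℝ) ≤ m := Nat.cast_nonneg _
  have h7 := pow_le_pow_left₀ (by positivity) hfar 2
  rw [sq_abs, mul_pow] at h7
  have h8 : ((m : ℝ) + 2) * (2 ^ B) ^ 2 ≤ ((m : ℝ) + 2) ^ 2 * (2 ^ B) ^ 2 :=
    mul_le_mul_of_nonneg_right (by nlinarith) (by positivity)
  have h9 := sq_nonneg (2 ^ f (3 * m) * h - ((f (3 * m + 2) + m + 2 : ℕ) : ℝ) * 2 ^ B)
  unfold G3
  push_cast at h9 ⊢
  linarith

theorem G3_le_of_near {B m : ℕ} {f : ℕ → ℕ} {u : ℕ → ℝ} {h : ℝ}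
    (hnear : ∀ l < m, |2 ^ f (3 * l) * u (f (3 * l + 1)) ^ 2 - (f (3 * l + 2) : ℝ) * 2 ^ B| ≤ 2 ^ B)
    (hnear0 : |2 ^ f (3 * m) * h - ((f (3 * m + 2) + m + 2 : ℕ) : ℝ) * 2 ^ B| ≤ 2 ^ B) :
    G3 B m f u h ≤ -1 := by
  have h1 : ∀ x : ℝ, |x| ≤ 2 ^ B → x ^ 2 ≤ (2 ^ B) ^ 2 := fun x hx => by
    rw [← sq_abs]
    exact pow_le_pow_left₀ (abs_nonneg _) hx 2
  have h2 := sum_le_card_nsmul (range m) (fun l =>
    (2 ^ f (3 * l) * u (f (3 * l + 1)) ^ 2 - (f (3 * l + 2) : ℝ) * 2 ^ B) ^ 2) ((2 ^ B) ^ 2)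
    fun l hl => h1 _ (hnear l (mem_range.1 hl))
  rw [card_range, nsmul_eq_mul] at h2
  have h3 := h1 _ hnear0
  have h4 : (1 : ℝ) ≤ (2 ^ B) ^ 2 := one_le_pow₀ (one_le_pow₀ (by norm_num))
  unfold G3
  push_cast at h3 ⊢
  linarith

variable {α : Type*} [DecidableEq α]

theorem stepD4 (Z : Finset α) (σ : α → α) (hZ : ∀ a ∈ Z, σ a ∈ Z) (hσ : ∀ a, σ (σ a) = a)
    (u : ℕ → α → ℂ) (h : α → ℂ) (hu : ∀ τ a, u τ (σ a) = conj (u τ a))
    (hh : ∀ a, h (σ a) = conj (h a)) {D m B T J J1 : ℕ} (hD : Z.card ≤ D) (hm : D < 2 ^ m)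
    (hJ1 : 0 < J1) (hJ : J1 ≤ J) (hJ2 : 2 * B + T < J) (hJ3 : 2 ^ (T + 1) ≤ J) (hJ4 : D < J)
    (hT : 32 * (D + 1) ^ 3 * (m + 3) ≤ 2 ^ T)
    (hsep : ∀ a ∈ Z, ∀ b ∈ Z, σ a = a → σ b = b → a ≠ b →
      ∃ τ < J1, Apart (1 / (8 * ((D : ℝ) + 1) ^ 2)) (‖u τ a‖ ^ 2) (‖u τ b‖ ^ 2))
    (hlow : ∀ τ < J1, ∀ a ∈ Z, u τ a ≠ 0 → 1 ≤ 2 ^ B * ‖u τ a‖ ^ 2)
    (hup : ∀ τ < J1, ∀ a ∈ Z, ‖u τ a‖ ^ 2 ≤ 2 ^ B)
    (hlow0 : ∀ a ∈ Z, h a ≠ 0 → 1 ≤ 2 ^ B * ‖h a‖) (hup0 : ∀ a ∈ Z, ‖h a‖ ≤ 2 ^ B) :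
    (∃ a ∈ Z, σ a = a ∧ 0 < (h a).re) ↔ ∃ N < J ^ (3 * m + 3),
      (∏ a ∈ Z, G4 B m D (fun k => N / J ^ k % J) (fun τ => u τ a) (h a)).re < 0 := by
  classical
  have hreal : ∀ a, σ a = a → ∀ τ, u τ a = ((u τ a).re : ℂ) := by
    intro a ha τ
    have h1 := hu τ a
    rw [ha] at h1
    exact (Complex.conj_eq_iff_re.1 h1.symm).symm
  have hreal0 : ∀ a, σ a = a → h a = ((h a).re : ℂ) := by
    intro a ha
    have h1 := hh a
    rw [ha] at h1
    exact (Complex.conj_eq_iff_re.1 h1.symm).symm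
  have hequi : ∀ f a, G4 B m D f (fun τ => u τ (σ a)) (h (σ a)) =
      conj (G4 B m D f (fun τ => u τ a) (h a)) := by
    intro f a
    rw [map_G4]
    simp only [hu, hh]
  have hG : ∀ f a, σ a = a → (G4 B m D f (fun τ => u τ a) (h a)).re =
      G4 B m D f (fun τ => (u τ a).re) (h a).re := by
    intro f a ha
    have h1 := map_G4 Complex.ofRealHom B m D f (fun τ => (u τ a).re) (h a).re
    simp only [Complex.ofRealHom_eq_coe, ← hreal a ha, ← hreal0 a ha] at h1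
    rw [← h1, Complex.ofReal_re]
  have hnorm : ∀ a, σ a = a → ∀ τ, ‖u τ a‖ ^ 2 = (u τ a).re ^ 2 := by
    intro a ha τ
    conv_lhs => rw [hreal a ha τ]
    rw [Complex.norm_real, Real.norm_eq_abs, sq_abs]
  have hD0 : (0 : ℝ) ≤ D := Nat.cast_nonneg D
  have hm0 : (0 : ℝ) ≤ m := Nat.cast_nonneg m
  constructor
  · rintro ⟨a0, ha0, hfix0, hpos0⟩
    set S := Z.filter (fun a => σ a = a ∧ 0 < (h a).re) with hS
    have hSmem : ∀ a, a ∈ S ↔ a ∈ Z ∧ σ a = a ∧ 0 < (h a).re := fun a => mem_filter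
    have hSD : S.card ≤ D := (card_filter_le _ _).trans hD
    have hε1 : 1 / (8 * ((D : ℝ) + 1) ^ 2) ≤ 1 := by
      rw [div_le_one (by positivity)]
      nlinarith
    obtain ⟨l, a, ha, hl, h1, h2⟩ := isolate S ⟨a0, (hSmem _).2 ⟨ha0, hfix0, hpos0⟩⟩
      (fun τ a => (u τ a).re ^ 2) (fun τ => τ < J1) (ε := 1 / (8 * ((D : ℝ) + 1) ^ 2))
      (by positivity) hε1 hSD
      (fun a ha b hb hab => by
        obtain ⟨ha1, ha2, -⟩ := (hSmem _).1 ha
        obtain ⟨hb1, hb2, -⟩ := (hSmem _).1 hb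
        obtain ⟨τ, h3, h4⟩ := hsep a ha1 b hb1 ha2 hb2 hab
        rw [hnorm a ha2, hnorm b hb2] at h4
        exact ⟨τ, h3, h4⟩)
    obtain ⟨haZ, hafix, hapos⟩ := (hSmem _).1 ha
    have hlen : l.length < m :=
      (Nat.pow_lt_pow_iff_right (by norm_num : 1 < 2)).1 (by omega)
    have hcode : ∀ i, l.getD i 0 < J1 := by
      intro i
      by_cases hi : i < l.length
      · rw [List.getD_eq_getElem _ _ hi]
        exact h1 _ (List.getElem_mem hi)
      · rw [List.getD_eq_default _ _ (not_lt.1 hi)]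
        exact hJ1
    have hlow' : ∀ τ < J1, ∀ b ∈ Z, σ b = b → (u τ b).re ^ 2 ≠ 0 → 1 ≤ 2 ^ B * (u τ b).re ^ 2 := by
      intro τ hτ b hb hfix h0
      rw [← hnorm b hfix]
      exact hlow τ hτ b hb fun h3 => h0 (by rw [h3]; simp)
    choose Sw hSw cw hcw hnear _ hfar using fun i : ℕ =>
      exists_window B T (v0 := (u (l.getD i 0) a).re ^ 2) (sq_nonneg _)
        (hlow' _ (hcode i) a haZ hafix) (by rw [← hnorm a hafix]; exact hup _ (hcode i) a haZ)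
    have hna : ‖h a‖ = (h a).re := by
      conv_lhs => rw [hreal0 a hafix]
      rw [Complex.norm_real, Real.norm_eq_abs, abs_of_pos hapos]
    obtain ⟨S0, hS0, c0, hc0, hnear0, hbig, -⟩ := exists_window B T (v0 := (h a).re) hapos.le
      (fun h0 => by
        rw [← hna]
        exact hlow0 a haZ fun h3 => h0 (by rw [h3]; simp)) (by rw [← hna]; exact hup0 a haZ)
    have hc1 : m + 2 ≤ c0 := by
      refine le_trans ?_ (hT.trans (hbig hapos))
      have : 1 ≤ (D + 1) ^ 3 := Nat.one_le_pow _ _ (by omega)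
      nlinarith
    obtain ⟨F, hF⟩ : ∃ F : ℕ → ℕ → ℕ, ∀ c k, F c k = if k / 3 < m then
        (if k % 3 = 0 then Sw (k / 3) else if k % 3 = 1 then l.getD (k / 3) 0 else cw (k / 3))
        else (if k % 3 = 0 then S0 else if k % 3 = 1 then c else c0 - (m + 2)) :=
      ⟨_, fun _ _ => rfl⟩
    have e0 : ∀ c, ∀ i < m, F c (3 * i) = Sw i := fun c i hi => by
      rw [hF, show 3 * i / 3 = i by omega, if_pos hi, if_pos (by omega)]
    have e1 : ∀ c, ∀ i < m, F c (3 * i + 1) = l.getD i 0 := fun c i hi => by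
      rw [hF, show (3 * i + 1) / 3 = i by omega, if_pos hi, if_neg (by omega), if_pos (by omega)]
    have e2 : ∀ c, ∀ i < m, F c (3 * i + 2) = cw i := fun c i hi => by
      rw [hF, show (3 * i + 2) / 3 = i by omega, if_pos hi, if_neg (by omega), if_neg (by omega)]
    have e3 : ∀ c, F c (3 * m) = S0 := fun c => by
      rw [hF, if_neg (by omega), if_pos (by omega)]
    have e4 : ∀ c, F c (3 * m + 1) = c := fun c => by
      rw [hF, if_neg (by omega), if_neg (by omega), if_pos (by omega)]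
    have e5 : ∀ c, F c (3 * m + 2) = c0 - (m + 2) := fun c => by
      rw [hF, if_neg (by omega), if_neg (by omega), if_neg (by omega)]
    have e6 : ∀ c (b : α), G3 B m (F c) (fun τ => u τ b) (h b) =
        G3 B m (F 0) (fun τ => u τ b) (h b) := fun c b => by
      refine G3_congr B m _ _ (fun i hi => ?_) (fun i hi => ?_) (fun i hi => ?_)
      · rcases hi.eq_or_lt with rfl | hi
        · rw [e3, e3]
        · rw [e0 _ _ hi, e0 _ _ hi]
      · rw [e1 _ _ hi, e1 _ _ hi]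
      · rcases hi.eq_or_lt with rfl | hi
        · rw [e5, e5]
        · rw [e2 _ _ hi, e2 _ _ hi]
    have hc : ∃ c < D + 1, ∀ b ∈ Z, G4 B m D (F c) (fun τ => u τ b) (h b) ≠ 0 := by
      by_contra hcon
      push Not at hcon
      have : Nonempty α := ⟨a⟩
      choose! f hf1 hf2 using hcon
      obtain ⟨c, hc, c', hc', hne, heq⟩ := exists_ne_map_eq_of_card_lt_of_maps_to
        (s := range (D + 1)) (t := Z) (by rw [card_range]; omega) (f := f)
        (fun c hc => hf1 c (mem_range.1 hc))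
      have g1 := hf2 c (mem_range.1 hc)
      have g2 := hf2 c' (mem_range.1 hc')
      rw [heq] at g1
      unfold G4 at g1 g2
      rw [e6, e4] at g1 g2
      have g3 : ((c + 1 : ℕ) : ℂ) = ((c' + 1 : ℕ) : ℂ) := by linear_combination g1 - g2
      exact hne (by exact_mod_cast Nat.succ_injective (Nat.cast_injective g3))
    obtain ⟨c, hc, hc0'⟩ := hc
    obtain ⟨N, hN, hdig⟩ := exists_digits J (3 * m + 3) (F c) fun k => by
      rw [hF]
      have := hSw (k / 3)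
      have := hcw (k / 3)
      have := hcode (k / 3)
      split_ifs <;> omega
    have e7 : ∀ b : α, G4 B m D (fun k => N / J ^ k % J) (fun τ => u τ b) (h b) =
        G4 B m D (F c) (fun τ => u τ b) (h b) := fun b => by
      unfold G4
      rw [G3_congr B m (f := fun k => N / J ^ k % J) (g := F c) _ _
        (fun i hi => hdig _ (by omega)) (fun i hi => hdig _ (by omega))
        (fun i hi => hdig _ (by omega))]
      dsimp only
      rw [hdig _ (by omega)]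
    refine ⟨N, hN, ?_⟩
    simp only [e7]
    refine re_prod_neg Z σ hZ hσ _ (hequi (F c)) hc0' haZ hafix ?_ ?_
    · rw [hG _ a hafix, G4, e4]
      have h3 := G3_le_of_near (B := B) (m := m) (f := F c) (u := fun τ => (u τ a).re)
        (h := (h a).re)
        (fun i hi => by rw [e0 _ _ hi, e1 _ _ hi, e2 _ _ hi]; exact hnear i)
        (by rw [e3, e5, show c0 - (m + 2) + m + 2 = c0 by omega]; exact hnear0)
      have h4 : (c : ℝ) ≤ D := by exact_mod_cast Nat.lt_succ_iff.1 hc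
      push_cast
      nlinarith
    · intro b hb hbfix hba
      rw [hG _ b hbfix, G4]
      have h3 : 0 ≤ G3 B m (F c) (fun τ => (u τ b).re) (h b).re := by
        by_cases hb0 : 0 < (h b).re
        · obtain ⟨τ, hτ, hgap⟩ := h2 b ((hSmem _).2 ⟨hb, hbfix, hb0⟩) hba
          obtain ⟨i, hi, rfl⟩ := List.getElem_of_mem hτ
          have hi' : i < m := by omega
          refine G3_nonneg_of_far hi' ?_
          rw [e0 _ _ hi', e1 _ _ hi', e2 _ _ hi']
          rw [← List.getD_eq_getElem _ 0 hi] at hgap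
          refine hfar i _ _ _ (hlow' _ (hcode i) b hb hbfix) (by positivity) ?_ (by positivity) ?_
            hgap
          · rw [div_le_one (by positivity)]
            linarith
          · have h5 : (32 : ℝ) * ((D : ℝ) + 1) ^ 3 * (m + 3) ≤ 2 ^ T := by exact_mod_cast hT
            rw [div_div, div_mul_eq_mul_div, one_mul, le_div_iff₀ (by positivity)]
            linarith
        · exact not_lt.1 fun h4 => hb0 (pos_of_G3_neg h4)
      positivity
  · rintro ⟨N, -, hN⟩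
    obtain ⟨a, ha, hfix, hneg⟩ := exists_neg_of_re_prod_neg Z σ hZ hσ _ (hequi _) hN
    refine ⟨a, ha, hfix, ?_⟩
    rw [hG _ a hfix, G4] at hneg
    refine pos_of_G3_neg (B := B) (m := m) (f := fun k => N / J ^ k % J)
      (u := fun τ => (u τ a).re) (lt_of_not_ge fun hcon => ?_)
    refine absurd hneg (not_lt.2 ?_)
    positivity

end Vale.Agent.N47
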