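import Vale.Agent.N47.AM
import Vale.Agent.P337.StepC

/-!
The levels of the trace form and of the norm.
-/

namespace Vale.Agent.N47

open Vale.Agent.Lib.PolyTime Vale.Agent.P337 Finset MvPolynomial

variable {γ : Type*} [Enc γ] {j : ℕ} {E : γ → Prop} {p n e K : γ → ℕ}
  {r : (x : γ) → Fin (n x) → MvPolynomial (Fin (n x)) ℤ}

theorem ZS_jac (hp : LF 0 p) (hn : LF 0 n) (hnb : PBd n) (he : LF 0 e)
    (hr : AM (fun x : γ × ℕ => x.2 < n x.1) (fun x => n x.1) (fun x => ext (r x.1) x.2)) :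
    ZS 0 (fun y : γ × List ℕ => E y.1) (fun y => p y.1)
      (fun y => vl (n y.1) (p y.1) y.2 (jac (e y.1) (r y.1))) := by
  have hA : AM (fun x : γ × ℕ × ℕ => x.2.1 < n x.1 ∧ x.2.2 < n x.1) (fun x => n x.1)
      (fun x => ext (fun j => pderiv j (XN (n x.1) ℤ x.2.1 ^ e x.1 - ext (r x.1) x.2.1)) x.2.2) :=
    AM.pderiv (by fun_prop) (by fun_prop) (((AM.XN (by fun_prop) (by fun_prop)).pow
      (by fun_prop)).sub (hr.re (fun x : γ × ℕ × ℕ => (x.1, x.2.1)) (by fun_prop) fun _ h => h.1))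
      (by fun_prop) fun _ h => h.2
  have h1 : ZS 0 (fun y : γ × List ℕ => E y.1) (fun y => p y.1)
      (fun y => ∑ s ∈ range (n y.1 ^ n y.1), (∏ i ∈ range (n y.1), ∏ k ∈ range (n y.1),
        ((if i < k then (if (digs (n y.1) (n y.1) s).getD i 0 < (digs (n y.1) (n y.1) s).getD k 0
          then 1 else if (digs (n y.1) (n y.1) s).getD i 0 = (digs (n y.1) (n y.1) s).getD k 0
          then 0 else -1) else 1 : ℤ) : ZMod (p y.1))) * ∏ i ∈ range (n y.1),
        vl (n y.1) (p y.1) y.2 (ext (fun k => pderiv k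
          (XN (n y.1) ℤ ((digs (n y.1) (n y.1) s).getD i 0) ^ e y.1 -
            ext (r y.1) ((digs (n y.1) (n y.1) s).getD i 0))) i)) := by
    refine ZS.sum_range (by fun_prop) (ZL.mul (ZL.prod_poly (by fun_prop) (by fun_prop)
      (ZL.prod_poly (by fun_prop) (by fun_prop) (ZL.intCast (by fun_prop) (by fun_prop))))
      (ZL.prod_poly (by fun_prop) (by fun_prop) ?_)).toZS
    refine hA.at (by fun_prop) (by fun_prop) (fun z : ((γ × List ℕ) × ℕ) × ℕ =>
      (z.1.1.1, (digs (n z.1.1.1) (n z.1.1.1) z.1.2).getD z.2 0, z.2)) (by fun_prop)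
      fun z hz => ⟨?_, hz.2⟩
    dsimp only
    rw [getD_digs _ _ _ hz.2]
    exact Nat.mod_lt _ (by have := hz.2; omega)
  refine h1.congr' fun y _ => ?_
  rw [jac, RingHom.map_det, det_eq_sum]
  simp only [← Int.cast_prod, ← sgnF_eq]
  simp only [prod_range]
  rw [sum_digs (n y.1) (n y.1) fun t => ((sgnF (n y.1) t : ℤ) : ZMod (p y.1)) *
    ∏ i : Fin (n y.1), vl (n y.1) (p y.1) y.2 (ext (fun k => pderiv k
      (XN (n y.1) ℤ (t i) ^ e y.1 - ext (r y.1) (t i))) i)]
  simp only [ext_val, XN_val, RingHom.mapMatrix_apply, Matrix.map_apply, Matrix.of_apply, sys]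

theorem ZS_geo (hp : LF 0 p) (hn : LF 0 n) (hnb : PBd n) (he : LF 0 e) (hK : LF 0 K)
    (hr : AM (fun x : γ × ℕ => x.2 < n x.1) (fun x => n x.1) (fun x => ext (r x.1) x.2)) :
    ZS 0 (fun y : γ × List ℕ => E y.1) (fun y => p y.1)
      (fun y => vl (n y.1) (p y.1) y.2 (∏ i, geo (e y.1) (K y.1) (r y.1) i)) := by
  have hA : AM (fun x : γ × ℕ × ℕ => x.2.1 < n x.1) (fun x => n x.1)
      (fun x => ext (r x.1) x.2.1 ^ x.2.2 * (XN (n x.1) ℤ x.2.1 ^ e x.1) ^ (K x.1 - x.2.2)) :=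
    ((hr.re (fun x : γ × ℕ × ℕ => (x.1, x.2.1)) (by fun_prop) fun _ h => h).pow
      (by fun_prop)).mul (((AM.XN (by fun_prop) (by fun_prop)).pow (by fun_prop)).pow
        (by fun_prop))
  refine (ZS.prod_poly (m := fun y : γ × List ℕ => n y.1) (by fun_prop) (by fun_prop)
    (H := fun y i => ∑ k ∈ range (K y.1 + 1), vl (n y.1) (p y.1) y.2
      (ext (r y.1) i ^ k * (XN (n y.1) ℤ i ^ e y.1) ^ (K y.1 - k)))
    (ZS.sum_range (by fun_prop) (hA.at (by fun_prop) (by fun_prop)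
      (fun z : ((γ × List ℕ) × ℕ) × ℕ => (z.1.1.1, z.1.2, z.2)) (by fun_prop)
      fun z hz => hz.1.2).toZS)).congr' fun y _ => ?_
  rw [map_prod, prod_range]
  simp only [ext_val, XN_val, geo, map_sum]

theorem ZS_tau (hp : LF 0 p) (hn : LF 0 n) (hnb : PBd n) (he : LF 0 e) (hK : LF 0 K)
    (hr : AM (fun x : γ × ℕ => x.2 < n x.1) (fun x => n x.1) (fun x => ext (r x.1) x.2))
    (hdr : ∀ x, E x → ∀ i, Dg ((e x : ℤ) - 1) (r x i))
    {g : (x : γ) → MvPolynomial (Fin (n x)) ℤ}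
    (hE : ∀ x, E x → (p x).Prime ∧
      (g x).totalDegree + (n x + 1) * (e x * (K x + 1)) + 1 < p x)
    (hg : ZS j (fun y : γ × List ℕ => E y.1) (fun y => p y.1)
      (fun y => vl (n y.1) (p y.1) y.2 (g y.1))) :
    ZS j E p (fun x => ((tauK (e x) (K x) (r x) (g x) : ℤ) : ZMod (p x))) := by
  refine (ZS.mvcoeff hp.up hn.up hnb (P := fun x => map (Int.castRingHom (ZMod (p x)))
    (g x * jac (e x) (r x) * ∏ i, geo (e x) (K x) (r x) i))
    (b := fun x => e x * K x + (e x - 1)) (LF.up (by fun_prop)) (fun x hx => ?_) ?_).congr'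
    fun x _ => ?_
  · obtain ⟨h1, h2⟩ := hE x hx
    have h3 := totalDegree_jac_le (hdr x hx)
    have h4 := Dg.prod univ (fun i _ => dg_geo (hdr x hx) (K x) i)
    rw [card_univ, Fintype.card_fin] at h4
    rw [Fintype.card_fin] at h3
    have h5 : (∏ i, geo (e x) (K x) (r x) i).totalDegree ≤ n x * (e x * K x) :=
      dg_iff.1 (by exact_mod_cast h4)
    have h6 := totalDegree_mul (g x * jac (e x) (r x)) (∏ i, geo (e x) (K x) (r x) i)
    have h7 := totalDegree_mul (g x) (jac (e x) (r x))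
    have h8 := totalDegree_map_le' (Int.castRingHom (ZMod (p x)))
      (g x * jac (e x) (r x) * ∏ i, geo (e x) (K x) (r x) i)
    have h9 : (n x + 1) * (e x * (K x + 1)) =
        n x * (e x * K x) + n x * e x + (e x * K x + e x) := by ring
    exact ⟨h1, by omega, by omega⟩
  · refine ((hg.mul ((ZS_jac hp hn hnb he hr).mono (Nat.zero_le j))).mul
      ((ZS_geo hp hn hnb he hK hr).mono (Nat.zero_le j))).congr' fun y _ => ?_
    rw [← vl_eq_eval, map_mul, map_mul]
  · rw [coeff_map]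
    rfl

theorem natDegree_newtonL_le {R : Type*} [CommRing R] (D : ℕ) (s : ℕ → R) :
    (newtonL D s).natDegree ≤ D :=
  Polynomial.natDegree_sum_le_of_forall_le _ _ fun _ hk =>
    (Polynomial.natDegree_C_mul_X_pow_le _ _).trans (mem_range.1 hk)

theorem natDegree_newtonE_le {R : Type*} [CommRing R] (D : ℕ) (s : ℕ → R) :
    (newtonE D s).natDegree ≤ D * D :=
  Polynomial.natDegree_sum_le_of_forall_le _ _ fun _ hk =>
    (Polynomial.natDegree_C_mul_le _ _).trans (Polynomial.natDegree_pow_le.trans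
      (Nat.mul_le_mul (Nat.lt_succ_iff.1 (mem_range.1 hk)) (natDegree_newtonL_le D s)))

theorem ZS_newton (hp : LF 0 p) {D : γ → ℕ} (hD : LF 0 D) {s : (x : γ) → ℕ → ZMod (p x)}
    (hE : ∀ x, E x → (p x).Prime ∧ D x * D x + D x + 1 < p x)
    (hs : ZS j (fun y : γ × ℕ => E y.1 ∧ y.2 ≤ D y.1) (fun y => p y.1) (fun y => s y.1 y.2)) :
    ZS (j + 1) E p (fun x => (newtonE (D x) (s x)).coeff (D x)) := by
  have hpj : LF j p := hp.up
  have hDj : LF j D := hD.up
  have hp1 : LF (j + 1) p := hp.up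
  have hD1 : LF (j + 1) D := hD.up
  have hL : ZS j (fun y : γ × ℕ => E y.1) (fun y => p y.1)
      (fun y => (newtonL (D y.1) (s y.1)).eval (y.2 : ZMod (p y.1))) := by
    refine (ZS.sum_range (m := fun y : γ × ℕ => D y.1) (by fun_prop)
      (H := fun y k => (-1) ^ k * ((k + 1 : ℕ) : ZMod (p y.1)) ^ (p y.1 - 2) *
        (y.2 : ZMod (p y.1)) ^ (k + 1) * ((D y.1).factorial : ZMod (p y.1)) * s y.1 (k + 1))
      (ZS.mul (ZS.mul (ZL.mul (ZL.mul (ZL.neg_one_pow (by fun_prop) (by fun_prop))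
        (ZL.pow (by fun_prop) (ZL.natCast (by fun_prop)) (by fun_prop)))
        (ZL.pow (by fun_prop) (ZL.natCast (by fun_prop)) (by fun_prop))).toZS
        (ZS.factorial (by fun_prop) (by fun_prop) fun z hz => ?_))
        (hs.re (fun z : (γ × ℕ) × ℕ => (z.1.1, z.2 + 1)) (by fun_prop)
          fun z hz => hz))).congr' fun y hy => ?_
    · obtain ⟨h1, h2⟩ := hE z.1.1 hz.1
      exact ⟨h1, lt_of_le_of_lt (by omega) h2⟩
    · obtain ⟨h1, h2⟩ := hE _ hy
      rw [newtonL, Polynomial.eval_finsetSum]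
      refine sum_congr rfl fun k hk => ?_
      have h3 := mem_range.1 hk
      have h4 : ((k + 1 : ℕ) : ZMod (p y.1)) ≠ 0 := by
        rw [Ne, ZMod.natCast_eq_zero_iff]
        exact Nat.not_dvd_of_pos_of_lt (by omega) (by omega)
      have h5 := pow_sub_two_mul h1 h4
      rw [← prod_ite_mul (D y.1) k h3, Nat.cast_mul, Polynomial.eval_mul, Polynomial.eval_C,
        Polynomial.eval_pow, Polynomial.eval_X]
      linear_combination ((-1) ^ k * (y.2 : ZMod (p y.1)) ^ (k + 1) *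
        ((∏ i ∈ range (D y.1), if i = k then 1 else i + 1 : ℕ) : ZMod (p y.1)) *
          s y.1 (k + 1)) * h5
  refine ZS.coeff hp1 hD1 (fun x hx => ?_) ?_
  · obtain ⟨h1, h2⟩ := hE x hx
    have := natDegree_newtonE_le (D x) (s x)
    exact ⟨h1, by omega, by omega⟩
  · have hf : ∀ k : (γ × ℕ) × ℕ → ℕ, LF j k → (∀ z, z.2 < D z.1.1 + 1 → k z ≤ D z.1.1) →
        ZL (j + 1) (fun z : (γ × ℕ) × ℕ => E z.1.1 ∧ z.2 < D z.1.1 + 1) (fun z => p z.1.1)
          (fun z => ((k z).factorial : ZMod (p z.1.1))) := fun k hk hk' =>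
      ZL.factorial (by fun_prop) hk fun z hz => by
        obtain ⟨h1, h2⟩ := hE _ hz.1
        have := hk' z hz.2
        exact ⟨h1, by omega⟩
    refine (ZS.sum_range (m := fun y : γ × ℕ => D y.1 + 1) (by fun_prop)
      (H := fun y m => ((D y.1).factorial : ZMod (p y.1)) ^ (D y.1 - m) *
        (((D y.1).factorial : ZMod (p y.1)) * (m.factorial : ZMod (p y.1)) ^ (p y.1 - 2)) *
        (newtonL (D y.1) (s y.1)).eval (y.2 : ZMod (p y.1)) ^ m)
      (ZL.mul (ZL.mul (ZL.pow (by fun_prop) (hf (fun z => D z.1.1) (by fun_prop) fun _ _ => le_rfl)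
        (by fun_prop)) (ZL.mul (hf (fun z => D z.1.1) (by fun_prop) fun _ _ => le_rfl)
        (ZL.pow (by fun_prop) (hf (fun z => z.2) (by fun_prop) fun _ h => Nat.lt_succ_iff.1 h)
          (by fun_prop))))
        (ZL.pow (by fun_prop) (hL.toZL.re (fun z : (γ × ℕ) × ℕ => z.1) (by fun_prop)
          fun _ h => h.1) (by fun_prop))).toZS).congr' fun y hy => ?_
    obtain ⟨h1, h2⟩ := hE _ hy
    rw [newtonE, Polynomial.eval_finsetSum]
    refine sum_congr rfl fun m hm => ?_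
    have h3 : m ≤ D y.1 := Nat.lt_succ_iff.1 (mem_range.1 hm)
    have h5 := pow_sub_two_mul h1 (factorial_ne_zero_zmod h1 (show m < p y.1 by omega))
    have h6 := Nat.factorial_mul_descFactorial (Nat.sub_le (D y.1) m)
    rw [Nat.sub_sub_self h3] at h6
    have h7 : (m.factorial : ZMod (p y.1)) * ((D y.1).descFactorial (D y.1 - m) : ZMod (p y.1)) =
        (D y.1).factorial := by rw [← Nat.cast_mul, h6]
    rw [Polynomial.eval_mul, Polynomial.eval_C, Polynomial.eval_pow, Nat.cast_mul, Nat.cast_pow]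
    congr 2
    rw [← h7]
    linear_combination ((D y.1).descFactorial (D y.1 - m) : ZMod (p y.1)) * h5

/-- The norm costs one level. -/
theorem ZS_EE (hp : LF 0 p) (hn : LF 0 n) (hnb : PBd n) (he : LF 0 e) (hK : LF 0 K)
    (hr : AM (fun x : γ × ℕ => x.2 < n x.1) (fun x => n x.1) (fun x => ext (r x.1) x.2))
    (hdr : ∀ x, E x → ∀ i, Dg ((e x : ℤ) - 1) (r x i))
    {g : (x : γ) → MvPolynomial (Fin (n x)) ℤ} {d : γ → ℕ}
    (hd : ∀ x, E x → (g x).totalDegree ≤ d x)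
    (hE : ∀ x, E x → (p x).Prime ∧ e x ^ n x * d x + (n x + 1) * (e x * (K x + 1)) +
      e x ^ n x * e x ^ n x + e x ^ n x + 1 < p x)
    (hg : PW j (fun y : γ × List ℕ => E y.1) (fun y => p y.1) (fun y => e y.1 ^ n y.1)
      (fun y => vl (n y.1) (p y.1) y.2 (g y.1))) :
    ZS (j + 1) E p (fun x => ((EE (e x) (K x) (r x) (g x) (e x ^ n x) : ℤ) : ZMod (p x))) := by
  refine (ZS_newton hp (D := fun x => e x ^ n x) (by fun_prop)
    (s := fun x k => ((tauK (e x) (K x) (r x) (g x ^ k) : ℤ) : ZMod (p x)))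
    (fun x hx => ⟨(hE x hx).1, by have := (hE x hx).2; omega⟩) ?_).congr' fun x _ => ?_
  · refine ZS_tau (γ := γ × ℕ) (n := fun y => n y.1) (r := fun y => r y.1) (by fun_prop)
      (by fun_prop) (by fun_prop) (by fun_prop) (by fun_prop)
      (hr.re (fun z : (γ × ℕ) × ℕ => (z.1.1, z.2)) (by fun_prop) fun _ h => h)
      (fun y hy => hdr _ hy.1) (g := fun y => g y.1 ^ y.2) (fun y hy => ⟨(hE _ hy.1).1, ?_⟩) ?_
    · have h1 := (hE _ hy.1).2
      have h2 := (totalDegree_pow (g y.1) y.2).trans (Nat.mul_le_mul hy.2 (hd _ hy.1))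
      omega
    · exact (ZS.re hg (fun z : (γ × ℕ) × List ℕ => ((z.1.1, z.2), z.1.2)) (LF.up (by fun_prop))
        fun _ h => h).congr' fun _ _ => (map_pow _ _ _).symm
  · have h1 := map_newtonE (Int.castRingHom (ZMod (p x))) (e x ^ n x)
      fun k => tauK (e x) (K x) (r x) (g x ^ k)
    simp only [eq_intCast] at h1
    rw [← h1, Polynomial.coeff_map, EE, Fintype.card_fin, eq_intCast]

end Vale.Agent.N47
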