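import Vale.Agent.N47.Cnt
import Vale.Agent.P337.CH.Coeff
import Mathlib.Algebra.Group.ForwardDiff
import Mathlib.Data.Nat.Prime.Factorial

/-!
Residues of level `j` (`ZL j`), and residues which are flat sums of terms of level `j` (`ZS j`).
-/

namespace Vale.Agent.N47

open Vale.Agent.Lib.PolyTime Vale.Agent.P337 Finset

variable {α β γ γ' : Type*} [Enc α] [Enc β] [Enc γ] [Enc γ'] {j : ℕ}

/-! ### More closure properties of flat sums -/

protected theorem LS.mono {i : ℕ} {f : α → ℕ} (hf : LS i f) (h : i ≤ j) : LS j f := by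
  obtain ⟨m, g, hm, hg, h'⟩ := hf
  exact ⟨m, g, hm.mono h, hg.mono h, h'⟩

protected theorem LS.ite {q : α → Prop} {inst : ∀ a, Decidable (q a)} {f f' : α → ℕ}
    (hq : LP j q) (hf : LS j f) (hf' : LS j f') :
    LS j (fun a => @ite _ (q a) (inst a) (f a) (f' a)) := by
  obtain ⟨m, g, hm, hg, h⟩ := hf
  obtain ⟨m', g', hm', hg', h'⟩ := hf'
  refine ⟨fun a => if q a then m a else m' a, fun a s => if q a then g a s else g' a s,
    by fun_prop, LF.ite (hq.comp (by fun_prop)) hg hg', fun a => ?_⟩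
  by_cases hx : q a
  · simp only [if_pos hx, h]
  · simp only [if_neg hx, h']

protected theorem LS.add {f f' : α → ℕ} (hf : LS j f) (hf' : LS j f') :
    LS j (fun a => f a + f' a) :=
  (LS.sum_range (f := fun a s => if s = 0 then f a else f' a) (m := fun _ => 2)
    (LS.ite (by fun_prop) (hf.comp (by fun_prop)) (hf'.comp (by fun_prop)))
    (by fun_prop)).congr fun a => by simp [sum_range_succ]

protected theorem LS.mul_left {f f' : α → ℕ} (hf : LF j f) (hf' : LS j f') :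
    LS j (fun a => f a * f' a) := by
  obtain ⟨m, g, hm, hg, h⟩ := hf'
  exact ⟨m, fun a s => f a * g a s, hm, LF.mul (by fun_prop) hg, fun a => by
    simp only [h, mul_sum]⟩

protected theorem LS.mul {f f' : α → ℕ} (hf : LS j f) (hf' : LS j f') :
    LS j (fun a => f a * f' a) := by
  obtain ⟨m, g, hm, hg, h⟩ := hf
  exact (LS.sum_range (f := fun a s => g a s * f' a) (LS.mul_left hg (hf'.comp (by fun_prop)))
    hm).congr fun a => by simp only [h, sum_mul]

theorem prod_sum_digs {M : Type*} [CommSemiring M] (V k : ℕ) (h : ℕ → ℕ → M) :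
    ∑ t ∈ range (V ^ k), ∏ l ∈ range k, h l ((digs V k t).getD l 0) =
      ∏ l ∈ range k, ∑ s ∈ range V, h l s := by
  simp only [prod_range]
  rw [sum_digs V k fun x => ∏ l : Fin k, h l (x l)]
  simp only [sum_range]
  rw [Finset.prod_univ_sum, Fintype.piFinset_univ]

/-- A polynomially long product of sums is a sum. -/
protected theorem LS.prod_poly {f : α → ℕ → ℕ} {k : α → ℕ}
    (hf : LS j (fun x : α × ℕ => f x.1 x.2)) (hk : LF j k) (hb : PBd k) :
    LS j (fun a => ∏ l ∈ range (k a), f a l) := by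
  obtain ⟨m, g, hm, hg, h⟩ := hf
  obtain ⟨V, hV, hV'⟩ := bound0_lt (f := fun a s => m (a, s)) hm.toCHF hk.toCHF
  have hV1 : LF j V := hV.up
  refine ⟨fun a => V a ^ k a, fun a t => ∏ l ∈ range (k a),
    if (digs (V a) (k a) t).getD l 0 < m (a, l) then g (a, l) ((digs (V a) (k a) t).getD l 0)
    else 0, by fun_prop, ?_, fun a => ?_⟩
  · refine LF.prod_poly (m := fun x : α × ℕ => k x.1) ?_ (by fun_prop) (by fun_prop)
    exact LF.ite (by fun_prop) (hg.comp (f := fun y : (α × ℕ) × ℕ =>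
      ((y.1.1, y.2), (digs (V y.1.1) (k y.1.1) y.1.2).getD y.2 0)) (by fun_prop)) (by fun_prop)
  · dsimp only
    rw [prod_sum_digs (V a) (k a) fun l s => if s < m (a, l) then g (a, l) s else 0]
    refine prod_congr rfl fun l hl => ?_
    rw [sum_range_ite (hV' a l (mem_range.1 hl))]
    exact h (a, l)

/-! ### Residues -/

/-- A residue modulo `p x` is computable at level `j` on the domain `E`. -/
def ZL (j : ℕ) (E : γ → Prop) (p : γ → ℕ) (F : (x : γ) → ZMod (p x)) : Prop :=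
  ∃ g : γ → ℕ, LF j g ∧ ∀ x, E x → 0 < p x → ((g x : ℕ) : ZMod (p x)) = F x

/-- A residue modulo `p x` is a sum of terms of level `j` on the domain `E`. -/
def ZS (j : ℕ) (E : γ → Prop) (p : γ → ℕ) (F : (x : γ) → ZMod (p x)) : Prop :=
  ∃ g : γ → ℕ, LS j g ∧ ∀ x, E x → 0 < p x → ((g x : ℕ) : ZMod (p x)) = F x

variable {E E' : γ → Prop} {p : γ → ℕ} {F G : (x : γ) → ZMod (p x)}

protected theorem ZL.congr (hF : ZL j E p F) (h : ∀ x, E' x → E x ∧ F x = G x) :
    ZL j E' p G := by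
  obtain ⟨g, hg, hg'⟩ := hF
  exact ⟨g, hg, fun x h1 h2 => (hg' x (h x h1).1 h2).trans (h x h1).2⟩

protected theorem ZL.congr' (hF : ZL j E p F) (h : ∀ x, E x → F x = G x) : ZL j E p G :=
  hF.congr fun x hx => ⟨hx, h x hx⟩

protected theorem ZL.weak (hF : ZL j E p F) (h : ∀ x, E' x → E x) : ZL j E' p F :=
  hF.congr fun x hx => ⟨h x hx, rfl⟩

protected theorem ZL.mono {i : ℕ} (hF : ZL i E p F) (h : i ≤ j) : ZL j E p F := by
  obtain ⟨g, hg, hg'⟩ := hF
  exact ⟨g, hg.mono h, hg'⟩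

protected theorem ZL.re (hF : ZL j E p F) {E' : γ' → Prop} (u : γ' → γ) (hu : LF j u)
    (h : ∀ y, E' y → E (u y)) : ZL j E' (fun y => p (u y)) (fun y => F (u y)) := by
  obtain ⟨g, hg, hg'⟩ := hF
  exact ⟨_, hg.comp hu, fun y hy => hg' (u y) (h y hy)⟩

protected theorem ZL.natCast {f : γ → ℕ} (hf : LF j f) :
    ZL j E p (fun x => (f x : ZMod (p x))) := ⟨f, hf, fun _ _ _ => rfl⟩

protected theorem ZL.zero : ZL j E p (fun _ => 0) :=
  (ZL.natCast (LF.const 0)).congr' fun _ _ => Nat.cast_zero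

protected theorem ZL.one : ZL j E p (fun _ => 1) :=
  (ZL.natCast (LF.const 1)).congr' fun _ _ => Nat.cast_one

protected theorem ZL.add (hF : ZL j E p F) (hG : ZL j E p G) : ZL j E p (fun x => F x + G x) := by
  obtain ⟨f, hf, hf'⟩ := hF
  obtain ⟨g, hg, hg'⟩ := hG
  exact ⟨_, hf.add hg, fun x h1 h2 => by rw [Nat.cast_add, hf' x h1 h2, hg' x h1 h2]⟩

protected theorem ZL.mul (hF : ZL j E p F) (hG : ZL j E p G) : ZL j E p (fun x => F x * G x) := by
  obtain ⟨f, hf, hf'⟩ := hF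
  obtain ⟨g, hg, hg'⟩ := hG
  exact ⟨_, hf.mul hg, fun x h1 h2 => by rw [Nat.cast_mul, hf' x h1 h2, hg' x h1 h2]⟩

protected theorem ZL.neg_one (hp : LF j p) : ZL j E p (fun _ => -1) :=
  ⟨fun x => p x - 1, by fun_prop, fun x _ h2 => by
    rw [Nat.cast_sub h2, ZMod.natCast_self]
    simp⟩

protected theorem ZL.neg (hp : LF j p) (hF : ZL j E p F) : ZL j E p (fun x => - F x) :=
  ((ZL.neg_one hp).mul hF).congr' fun _ _ => neg_one_mul _

protected theorem ZL.sub (hp : LF j p) (hF : ZL j E p F) (hG : ZL j E p G) :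
    ZL j E p (fun x => F x - G x) :=
  (hF.add (hG.neg hp)).congr' fun _ _ => (sub_eq_add_neg _ _).symm

protected theorem ZL.intCast (hp : LF j p) {z : γ → ℤ} (hz : LF j z) :
    ZL j E p fun x => (z x : ZMod (p x)) :=
  ((ZL.natCast (E := E) hz.toNat).sub hp (ZL.natCast hz.intNeg.toNat)).congr' fun x _ => by
    have h2 : z x = ((z x).toNat : ℤ) - ((-z x).toNat : ℤ) := by omega
    conv_rhs => rw [h2]
    push_cast
    ring

protected theorem ZL.pow (hp : LF j p) (hF : ZL j E p F) {k : γ → ℕ} (hk : LF j k) :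
    ZL j E p (fun x => F x ^ k x) := by
  obtain ⟨f, hf, hf'⟩ := hF
  exact ⟨fun x => powMod (f x) (k x) (p x), by fun_prop, fun x h1 h2 => by
    rw [cast_powMod h2, hf' x h1 h2]⟩

protected theorem ZL.two_pow (hp : LF j p) {k : γ → ℕ} (hk : LF j k) :
    ZL j E p (fun x => 2 ^ k x) :=
  ((ZL.natCast (LF.const 2)).pow hp hk).congr' fun _ _ => by simp

protected theorem ZL.neg_one_pow (hp : LF j p) {k : γ → ℕ} (hk : LF j k) :
    ZL j E p (fun x => (-1) ^ k x) := (ZL.neg_one hp).pow hp hk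

protected theorem ZL.ite {q : γ → Prop} {inst : ∀ x, Decidable (q x)} (hq : LP j q)
    (hF : ZL j (fun x => E x ∧ q x) p F) (hG : ZL j (fun x => E x ∧ ¬ q x) p G) :
    ZL j E p (fun x => @ite _ (q x) (inst x) (F x) (G x)) := by
  obtain ⟨f, hf, hf'⟩ := hF
  obtain ⟨g, hg, hg'⟩ := hG
  refine ⟨fun x => @ite _ (q x) (inst x) (f x) (g x), by fun_prop, fun x h1 h2 => ?_⟩
  by_cases h : q x
  · simp only [if_pos h]
    exact hf' x ⟨h1, h⟩ h2
  · simp only [if_neg h]
    exact hg' x ⟨h1, h⟩ h2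

protected theorem ZL.sum_poly {m : γ → ℕ} (hm : LF j m) (hb : PBd m)
    {H : (x : γ) → ℕ → ZMod (p x)}
    (hH : ZL j (fun y : γ × ℕ => E y.1 ∧ y.2 < m y.1) (fun y => p y.1) (fun y => H y.1 y.2)) :
    ZL j E p (fun x => ∑ s ∈ range (m x), H x s) := by
  obtain ⟨f, hf, hf'⟩ := hH
  refine ⟨fun x => ∑ s ∈ range (m x), f (x, s), LF.sum_poly (f := fun x s => f (x, s)) hf hm hb,
    fun x h1 h2 => ?_⟩
  rw [Nat.cast_sum]
  exact sum_congr rfl fun s hs => hf' (x, s) ⟨h1, mem_range.1 hs⟩ h2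

protected theorem ZL.prod_poly {m : γ → ℕ} (hm : LF j m) (hb : PBd m)
    {H : (x : γ) → ℕ → ZMod (p x)}
    (hH : ZL j (fun y : γ × ℕ => E y.1 ∧ y.2 < m y.1) (fun y => p y.1) (fun y => H y.1 y.2)) :
    ZL j E p (fun x => ∏ s ∈ range (m x), H x s) := by
  obtain ⟨f, hf, hf'⟩ := hH
  refine ⟨fun x => ∏ s ∈ range (m x), f (x, s), LF.prod_poly (f := fun x s => f (x, s)) hf hm hb,
    fun x h1 h2 => ?_⟩
  rw [Nat.cast_prod]
  exact prod_congr rfl fun s hs => hf' (x, s) ⟨h1, mem_range.1 hs⟩ h2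

/-- Equality of residues is decidable at the same level. -/
protected theorem ZL.eq (hp : LF j p) (hF : ZL j E p F) (hG : ZL j E p G) :
    ∃ q : γ → Prop, LP j q ∧ ∀ x, E x → 0 < p x → (q x ↔ F x = G x) := by
  obtain ⟨f, hf, hf'⟩ := hF
  obtain ⟨g, hg, hg'⟩ := hG
  refine ⟨fun x => f x % p x = g x % p x, by fun_prop, fun x h1 h2 => ?_⟩
  rw [← hf' x h1 h2, ← hg' x h1 h2, ZMod.natCast_eq_natCast_iff']

protected theorem ZS.congr (hF : ZS j E p F) (h : ∀ x, E' x → E x ∧ F x = G x) :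
    ZS j E' p G := by
  obtain ⟨g, hg, hg'⟩ := hF
  exact ⟨g, hg, fun x h1 h2 => (hg' x (h x h1).1 h2).trans (h x h1).2⟩

protected theorem ZS.congr' (hF : ZS j E p F) (h : ∀ x, E x → F x = G x) : ZS j E p G :=
  hF.congr fun x hx => ⟨hx, h x hx⟩

protected theorem ZS.weak (hF : ZS j E p F) (h : ∀ x, E' x → E x) : ZS j E' p F :=
  hF.congr fun x hx => ⟨h x hx, rfl⟩

protected theorem ZS.mono {i : ℕ} (hF : ZS i E p F) (h : i ≤ j) : ZS j E p F := by
  obtain ⟨g, hg, hg'⟩ := hF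
  exact ⟨g, hg.mono h, hg'⟩

protected theorem ZS.re (hF : ZS j E p F) {E' : γ' → Prop} (u : γ' → γ) (hu : LF j u)
    (h : ∀ y, E' y → E (u y)) : ZS j E' (fun y => p (u y)) (fun y => F (u y)) := by
  obtain ⟨g, hg, hg'⟩ := hF
  exact ⟨_, hg.comp hu, fun y hy => hg' (u y) (h y hy)⟩

protected theorem ZL.toZS (hF : ZL j E p F) : ZS j E p F := by
  obtain ⟨g, hg, hg'⟩ := hF
  exact ⟨g, hg.toLS, hg'⟩

protected theorem ZS.toZL (hF : ZS j E p F) : ZL (j + 1) E p F := by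
  obtain ⟨g, hg, hg'⟩ := hF
  exact ⟨g, hg.toLF, hg'⟩

protected theorem ZS.add (hF : ZS j E p F) (hG : ZS j E p G) : ZS j E p (fun x => F x + G x) := by
  obtain ⟨f, hf, hf'⟩ := hF
  obtain ⟨g, hg, hg'⟩ := hG
  exact ⟨_, hf.add hg, fun x h1 h2 => by rw [Nat.cast_add, hf' x h1 h2, hg' x h1 h2]⟩

protected theorem ZS.mul (hF : ZS j E p F) (hG : ZS j E p G) : ZS j E p (fun x => F x * G x) := by
  obtain ⟨f, hf, hf'⟩ := hF
  obtain ⟨g, hg, hg'⟩ := hG
  exact ⟨_, hf.mul hg, fun x h1 h2 => by rw [Nat.cast_mul, hf' x h1 h2, hg' x h1 h2]⟩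

protected theorem ZS.ite {q : γ → Prop} {inst : ∀ x, Decidable (q x)} (hq : LP j q)
    (hF : ZS j (fun x => E x ∧ q x) p F) (hG : ZS j (fun x => E x ∧ ¬ q x) p G) :
    ZS j E p (fun x => @ite _ (q x) (inst x) (F x) (G x)) := by
  obtain ⟨f, hf, hf'⟩ := hF
  obtain ⟨g, hg, hg'⟩ := hG
  refine ⟨fun x => @ite _ (q x) (inst x) (f x) (g x), LS.ite hq hf hg, fun x h1 h2 => ?_⟩
  by_cases h : q x
  · simp only [if_pos h]
    exact hf' x ⟨h1, h⟩ h2
  · simp only [if_neg h]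
    exact hg' x ⟨h1, h⟩ h2

protected theorem ZS.sum_range {m : γ → ℕ} (hm : LF j m) {H : (x : γ) → ℕ → ZMod (p x)}
    (hH : ZS j (fun y : γ × ℕ => E y.1 ∧ y.2 < m y.1) (fun y => p y.1) (fun y => H y.1 y.2)) :
    ZS j E p (fun x => ∑ s ∈ range (m x), H x s) := by
  obtain ⟨f, hf, hf'⟩ := hH
  refine ⟨fun x => ∑ s ∈ range (m x), f (x, s), LS.sum_range (f := fun x s => f (x, s)) hf hm,
    fun x h1 h2 => ?_⟩
  rw [Nat.cast_sum]
  exact sum_congr rfl fun s hs => hf' (x, s) ⟨h1, mem_range.1 hs⟩ h2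

protected theorem ZS.prod_poly {m : γ → ℕ} (hm : LF j m) (hb : PBd m)
    {H : (x : γ) → ℕ → ZMod (p x)}
    (hH : ZS j (fun y : γ × ℕ => E y.1 ∧ y.2 < m y.1) (fun y => p y.1) (fun y => H y.1 y.2)) :
    ZS j E p (fun x => ∏ s ∈ range (m x), H x s) := by
  obtain ⟨f, hf, hf'⟩ := hH
  refine ⟨fun x => ∏ s ∈ range (m x), f (x, s), LS.prod_poly (f := fun x s => f (x, s)) hf hm hb,
    fun x h1 h2 => ?_⟩
  rw [Nat.cast_prod]
  exact prod_congr rfl fun s hs => hf' (x, s) ⟨h1, mem_range.1 hs⟩ h2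

/-! ### Coefficients -/

protected theorem ZS.coeff (hp : LF j p) {P : (x : γ) → Polynomial (ZMod (p x))} {b : γ → ℕ}
    (hb : LF j b)
    (hE : ∀ x, E x → (p x).Prime ∧ (P x).natDegree + 1 < p x ∧ b x + 1 < p x)
    (hP : ZS j (fun y : γ × ℕ => E y.1) (fun y => p y.1)
      (fun y => (P y.1).eval (y.2 : ZMod (p y.1)))) :
    ZS j E p (fun x => (P x).coeff (b x)) := by
  have h1 : ZS j E p (fun x => ∑ t ∈ range (p x),
      (-((t : ZMod (p x)) ^ (p x - 1 - b x))) * (P x).eval (t : ZMod (p x))) :=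
    ZS.sum_range hp (ZS.mul (ZL.neg (by fun_prop) (ZL.pow (by fun_prop)
      (ZL.natCast (by fun_prop)) (by fun_prop))).toZS (hP.weak fun _ h => h.1))
  refine h1.congr' fun x hx => ?_
  obtain ⟨h2, h3, h4⟩ := hE x hx
  have := Fact.mk h2
  rw [coeff_eq_sum_uni (weights_zmod (p x) (d := p x - 2) (by omega)) (P x) (by omega)
    (by omega), sum_range]

protected theorem ZS.mvcoeff (hp : LF j p) {n : γ → ℕ} (hn : LF j n) (hnb : PBd n)
    {P : (x : γ) → MvPolynomial (Fin (n x)) (ZMod (p x))} {b : γ → ℕ} (hb : LF j b)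
    (hE : ∀ x, E x → (p x).Prime ∧ (P x).totalDegree + 1 < p x ∧ b x + 1 < p x)
    (hP : ZS j (fun y : γ × List ℕ => E y.1) (fun y => p y.1)
      (fun y => MvPolynomial.eval (fun i : Fin (n y.1) => ((y.2.getD i 0 : ℕ) : ZMod (p y.1)))
        (P y.1))) :
    ZS j E p (fun x => MvPolynomial.coeff (Finsupp.equivFunOnFinite.symm fun _ => b x) (P x)) := by
  have h1 : ZS j E p (fun x => ∑ s ∈ range (p x ^ n x),
      (∏ i ∈ range (n x), -((((digs (p x) (n x) s).getD i 0 : ℕ) : ZMod (p x)) ^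
        (p x - 1 - b x))) * MvPolynomial.eval
          (fun i : Fin (n x) => (((digs (p x) (n x) s).getD i 0 : ℕ) : ZMod (p x))) (P x)) :=
    ZS.sum_range (by fun_prop) (ZS.mul (ZL.prod_poly (m := fun y : γ × ℕ => n y.1) (by fun_prop)
      (by fun_prop) (ZL.neg (by fun_prop) (ZL.pow (by fun_prop)
        (ZL.natCast (by fun_prop)) (by fun_prop)))).toZS
      (hP.re (fun y : γ × ℕ => (y.1, digs (p y.1) (n y.1) y.2)) (by fun_prop) fun _ h => h.1))
  refine h1.congr' fun x hx => ?_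
  obtain ⟨h2, h3, h4⟩ := hE x hx
  have := Fact.mk h2
  rw [coeff_eq_sum_multi (weights_zmod (p x) (d := p x - 2) (by omega)) (P x) (by omega)
    (fun i => by simp; omega)]
  simp only [prod_range]
  rw [sum_digs (p x) (n x) fun t => (∏ i : Fin (n x), -((t i : ZMod (p x)) ^ (p x - 1 - b x))) *
    MvPolynomial.eval (fun i => (t i : ZMod (p x))) (P x)]
  simp

/-! ### Binomial coefficients and factorials -/

protected theorem ZS.choose (hp : LF j p) {k l : γ → ℕ} (hk : LF j k) (hl : LF j l)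
    (hE : ∀ x, E x → (p x).Prime ∧ k x + 1 < p x ∧ l x + 1 < p x) :
    ZS j E p (fun x => ((k x).choose (l x) : ZMod (p x))) := by
  refine (ZS.coeff hp (P := fun x => (1 + Polynomial.X) ^ k x) hl (fun x hx => ?_) ?_).congr'
    fun x _ => Polynomial.coeff_one_add_X_pow _ _ _
  · obtain ⟨h1, h2, h3⟩ := hE x hx
    refine ⟨h1, lt_of_le_of_lt (Nat.succ_le_succ ?_) h2, h3⟩
    refine Polynomial.natDegree_pow_le.trans ?_
    have : (1 + Polynomial.X : Polynomial (ZMod (p x))).natDegree ≤ 1 :=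
      Polynomial.natDegree_add_le_of_degree_le (by simp) Polynomial.natDegree_X_le
    exact (Nat.mul_le_mul_left _ this).trans (mul_one _).le
  · exact (ZL.pow (by fun_prop) (ZL.one.add (ZL.natCast LF.id.snd)) (k := fun y : γ × ℕ => k y.1)
      (by fun_prop)).toZS.congr' fun y _ => by simp

theorem factorial_eq_sum (R : Type*) [CommRing R] (k : ℕ) :
    (k.factorial : R) = ∑ i ∈ range (k + 1), (-1) ^ (k - i) * (i : R) ^ k * (k.choose i : R) := by
  have h := congrFun (fwdDiff_iter_eq_factorial (R := R) (n := k)) 0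
  rw [fwdDiff_iter_eq_sum_shift] at h
  rw [show (k.factorial : R) = ((k.factorial : ℕ) : R → R) 0 from rfl, ← h]
  refine sum_congr rfl fun i _ => ?_
  simp only [zero_add, nsmul_eq_mul, mul_one, zsmul_eq_mul]
  push_cast
  ring

protected theorem ZS.factorial (hp : LF j p) {k : γ → ℕ} (hk : LF j k)
    (hE : ∀ x, E x → (p x).Prime ∧ k x + 1 < p x) :
    ZS j E p (fun x => ((k x).factorial : ZMod (p x))) := by
  refine (ZS.sum_range (m := fun x => k x + 1) (by fun_prop)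
    (H := fun x i => (-1) ^ (k x - i) * (i : ZMod (p x)) ^ k x * ((k x).choose i : ZMod (p x)))
    (ZS.mul (ZL.mul (ZL.neg_one_pow (by fun_prop) (by fun_prop)) (ZL.pow (by fun_prop)
      (ZL.natCast (by fun_prop)) (by fun_prop))).toZS
      (ZS.choose (by fun_prop) (by fun_prop) (by fun_prop) fun y hy => ?_))).congr'
    fun x _ => (factorial_eq_sum _ _).symm
  obtain ⟨h1, h2⟩ := hE _ hy.1
  have := hy.2
  exact ⟨h1, h2, by omega⟩

protected theorem ZL.factorial (hp : LF j p) {k : γ → ℕ} (hk : LF j k)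
    (hE : ∀ x, E x → (p x).Prime ∧ k x + 1 < p x) :
    ZL (j + 1) E p (fun x => ((k x).factorial : ZMod (p x))) := (ZS.factorial hp hk hE).toZL

theorem factorial_ne_zero_zmod {p k : ℕ} (hp : p.Prime) (hk : k < p) :
    (k.factorial : ZMod p) ≠ 0 := by
  rw [Ne, ZMod.natCast_eq_zero_iff, hp.dvd_factorial]
  omega

theorem pow_sub_two_mul {p : ℕ} (hp : p.Prime) {a : ZMod p} (ha : a ≠ 0) : a ^ (p - 2) * a = 1 := by
  have := Fact.mk hp
  rw [← pow_succ, show p - 2 + 1 = p - 1 by have := hp.two_le; omega,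
    ZMod.pow_card_sub_one_eq_one ha]

end Vale.Agent.N47
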